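import Vale.Agent.P027M.M.A2

/-!
# P027 block M, row A4: integrality and leading coefficients of the expansions
-/

set_option autoImplicit false

noncomputable section

namespace Vale.Agent.P027M.M

open Vale.Agent.P022 Vale.Agent.P022.H236.L3 Vale.Agent.P022.H542.L3

/-! ### the predicate `Good` -/

section good

variable {N : ℕ} {k l : ℤ} {s s' : LS}

theorem Good.of (h1 : ∀ n, s.coeff n ∈ ZN N) (h2 : ∀ n < k, s.coeff n = 0) (h3 : s.coeff k ≠ 0)
    (h4 : (s.coeff k)⁻¹ ∈ ZN N) : Good N k s := by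
  have h0 : s ≠ 0 := fun e => h3 (by rw [e]; rfl)
  refine ⟨h0, h1, le_antisymm (HahnSeries.order_le_of_coeff_ne_zero h3) ?_, h4⟩
  by_contra h
  exact HahnSeries.coeff_order_eq_zero.not.2 h0 (h2 _ (not_le.1 h))

theorem Good.lt (h : Good N k s) {n : ℤ} (hn : n < k) : s.coeff n = 0 :=
  HahnSeries.coeff_eq_zero_of_lt_order (h.ord ▸ hn)

theorem Good.lead (h : Good N k s) : s.coeff k ≠ 0 :=
  h.ord ▸ HahnSeries.coeff_order_eq_zero.not.2 h.ne

theorem int_ls (k : ℤ) (U : PowerSeries (ZN N).toSubring) (n : ℤ) :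
    (ls k (U.map (ZN N).toSubring.subtype)).coeff n ∈ ZN N := by
  rcases lt_or_ge n k with h | h
  · rw [coeff_ls_of_lt k _ h]
    exact zero_mem _
  · obtain ⟨m, rfl⟩ : ∃ m : ℕ, n = k + m := ⟨(n - k).toNat, by omega⟩
    rw [coeff_ls, PowerSeries.coeff_map]
    exact (PowerSeries.coeff m U).2

theorem good_iff : Good N k s ↔ ∃ U : PowerSeries (ZN N).toSubring, IsUnit U ∧
    s = ls k (U.map (ZN N).toSubring.subtype) := by
  constructor
  · intro h
    refine ⟨PowerSeries.mk fun n => ⟨s.coeff (k + n), h.int _⟩, ?_, ?_⟩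
    · rw [PowerSeries.isUnit_iff_constantCoeff]
      refine IsUnit.of_mul_eq_one ⟨_, h.unit⟩ (Subtype.ext ?_)
      simpa using mul_inv_cancel₀ h.lead
    · exact ls_ext (fun n => by rw [PowerSeries.coeff_map, PowerSeries.coeff_mk]; rfl) fun n hn => h.lt hn
  · rintro ⟨U, hU, rfl⟩
    obtain ⟨b, hb⟩ := (PowerSeries.isUnit_iff_constantCoeff.1 hU).exists_right_inv
    have e := coeff_ls k (U.map (ZN N).toSubring.subtype) 0
    rw [Nat.cast_zero, add_zero, PowerSeries.coeff_map,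
      PowerSeries.coeff_zero_eq_constantCoeff_apply] at e
    have e2 : (ZN N).toSubring.subtype (PowerSeries.constantCoeff U) * (b : ℂ) = 1 :=
      congrArg Subtype.val hb
    refine Good.of (int_ls k U) (fun n hn => coeff_ls_of_lt k _ hn) ?_ ?_
    · rw [e]
      exact left_ne_zero_of_mul_eq_one e2
    · rw [e, inv_eq_of_mul_eq_one_right e2]
      exact b.2

theorem Good.mul (h : Good N k s) (h' : Good N l s') : Good N (k + l) (s * s') := by
  obtain ⟨U, hU, rfl⟩ := good_iff.1 h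
  obtain ⟨V, hV, rfl⟩ := good_iff.1 h'
  exact good_iff.2 ⟨U * V, hU.mul hV, by rw [ls_mul, map_mul]⟩

theorem Good.inv (h : Good N k s) : Good N (-k) s⁻¹ := by
  obtain ⟨U, hU, rfl⟩ := good_iff.1 h
  obtain ⟨V, hV⟩ := hU.exists_right_inv
  refine good_iff.2 ⟨V, IsUnit.of_mul_eq_one_right U hV, inv_eq_of_mul_eq_one_right ?_⟩
  rw [ls_mul, ← map_mul, hV, map_one, add_neg_cancel, ls_zero_one]

theorem Good.div (h : Good N k s) (h' : Good N l s') : Good N (k - l) (s / s') := by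
  rw [sub_eq_add_neg, div_eq_mul_inv]
  exact h.mul h'.inv

theorem Good.neg (h : Good N k s) : Good N k (-s) :=
  Good.of (fun n => neg_mem (h.int n)) (fun n hn => neg_eq_zero.2 (h.lt hn))
    (neg_ne_zero.2 h.lead) (by
      rw [HahnSeries.coeff_neg, inv_neg]
      exact neg_mem h.unit)

/-- adding an integral series of higher order -/
theorem Good.add_int (h : Good N k s) (h1 : ∀ n, s'.coeff n ∈ ZN N)
    (h2 : ∀ n ≤ k, s'.coeff n = 0) : Good N k (s + s') := by
  have e : (s + s').coeff k = s.coeff k := by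
    rw [HahnSeries.coeff_add, h2 k le_rfl, add_zero]
  refine Good.of (fun n => add_mem (h.int n) (h1 n)) (fun n hn => ?_) (e ▸ h.lead) (e ▸ h.unit)
  rw [HahnSeries.coeff_add, h.lt hn, h2 n hn.le, add_zero]

theorem Good.add_of_lt (h : Good N k s) (h' : Good N l s') (hkl : k < l) : Good N k (s + s') :=
  h.add_int h'.int fun _ hn => h'.lt (hn.trans_lt hkl)

theorem Good.one : Good N 0 1 :=
  good_iff.2 ⟨1, isUnit_one, by rw [map_one, ls_zero_one]⟩

theorem Good.pow (h : Good N k s) (n : ℕ) : Good N (n * k) (s ^ n) := by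
  induction n with
  | zero => simpa using Good.one
  | succ n ih =>
    rw [pow_succ, Nat.cast_succ, add_mul, one_mul]
    exact ih.mul h

/-- constants which are units -/
theorem Good.const {c : ℂ} (h0 : c ≠ 0) (h1 : c ∈ ZN N) (h2 : c⁻¹ ∈ ZN N) :
    Good N 0 (HahnSeries.C c) := by
  refine Good.of (fun n => ?_) (fun n hn => ?_) (by simpa using h0) (by simpa using h2)
  · by_cases h : n = 0
    · subst h
      simpa using h1
    · rw [HahnSeries.C_apply, HahnSeries.coeff_single_of_ne h]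
      exact zero_mem _
  · rw [HahnSeries.C_apply, HahnSeries.coeff_single_of_ne hn.ne]

end good

/-! ### the bridge to the formal expansions -/

section bridge

variable {N : ℕ}

theorem ze_prim (hN : 0 < N) : IsPrimitiveRoot (ze N 1) N := by
  have := Complex.isPrimitiveRoot_exp N hN.ne'
  simpa [ze] using this

theorem ze_zpow (N : ℕ) (b : ℤ) : ze N b = ze N 1 ^ b := by
  rw [ze, ze, ← Complex.exp_int_mul]
  congr 1
  push_cast
  ring

theorem ch_int (hN : 0 < N) (b : ℤ) : A.ch (ze N 1) (b : ZMod N) = ze N b := by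
  have : NeZero N := ⟨hN.ne'⟩
  have h0 : ze N 1 ≠ 0 := Complex.exp_ne_zero _
  rw [A.ch, ze_zpow N b, ← zpow_natCast, ZMod.val_intCast]
  conv_rhs => rw [← Int.emod_add_mul_ediv b N]
  rw [zpow_add₀ h0, zpow_mul, zpow_natCast, (ze_prim hN).pow_eq_one, one_zpow, mul_one]

theorem ze_mem (N : ℕ) : ze N 1 ∈ ZN N := Algebra.subset_adjoin (Or.inl rfl)

theorem inv_mem_ZN (N : ℕ) : (N : ℂ)⁻¹ ∈ ZN N := Algebra.subset_adjoin (Or.inr rfl)

theorem adm_ZN (hN : 0 < N) : A.Adm N (⟨ze N 1, ze_mem N⟩ : (ZN N).toSubring) :=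
  A.adm_subring (ze_prim hN) (by exact_mod_cast hN.ne') _ (ze_mem N) (inv_mem_ZN N)

theorem NZ_iff (v : Fin 2 → ℤ) : NZ N v ↔ red N v ≠ 0 := by
  rw [NZ, Fin.forall_fin_two, red, Ne, Prod.mk_eq_zero, ZMod.intCast_zmod_eq_zero_iff_dvd,
    ZMod.intCast_zmod_eq_zero_iff_dvd]

theorem red_sub (v w : Fin 2 → ℤ) : red N (v - w) = red N v - red N w := by
  simp [red]

theorem red_add (v w : Fin 2 → ℤ) : red N (v + w) = red N v + red N w := by
  simp [red]

theorem mk_Xc (hN : 0 < N) (v : Fin 2 → ℤ) :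
    PowerSeries.mk (Xc N v) = A.Xr (ze N 1) (red N v) := by
  ext k
  rw [PowerSeries.coeff_mk, A.coeff_Xr, Xc]
  split_ifs with hk h0
  · rw [A.c0, if_pos (show (red N v).1 = 0 from (ZMod.intCast_zmod_eq_zero_iff_dvd _ _).2 h0), red,
      ch_int hN,
      Ring.inverse_eq_inv', div_eq_mul_inv, inv_pow]
  · rw [A.c0, if_neg fun e : (red N v).1 = 0 => h0 ((ZMod.intCast_zmod_eq_zero_iff_dvd _ _).1 e)]
  · rw [Nat.sum_divisorsAntidiagonal' fun c j => (j : ℂ) * A.cf (ze N 1) (red N v) c j]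
    refine Finset.sum_congr rfl fun j _ => ?_
    have e1 : (N : ℤ) ∣ ((k / j : ℕ) : ℤ) - v 0 ↔ ((k / j : ℕ) : ZMod N) = (red N v).1 := by
      rw [← ZMod.intCast_eq_intCast_iff_dvd_sub, Int.cast_natCast, eq_comm]
      rfl
    have e2 : (N : ℤ) ∣ ((k / j : ℕ) : ℤ) + v 0 ↔ ((k / j : ℕ) : ZMod N) = -(red N v).1 := by
      rw [← sub_neg_eq_add, ← ZMod.intCast_eq_intCast_iff_dvd_sub, Int.cast_natCast, Int.cast_neg,
        eq_comm]
      rfl
    have e3 : (j : ZMod N) * (red N v).2 = ((v 1 * j : ℤ) : ZMod N) := by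
      rw [Int.cast_mul, Int.cast_natCast, mul_comm]
      rfl
    rw [A.cf, e3, ← Int.cast_neg, ch_int hN, ch_int hN, mul_add, mul_ite, mul_ite, mul_zero]
    simp only [e1, e2]

/-- the bridge -/
theorem Xs_eq (hN : 0 < N) (v : Fin 2 → ℤ) : Xs N v = ls 0 (A.Xr (ze N 1) (red N v)) := by
  rw [Xs, mk_Xc hN]

theorem Xs_eq' (hN : 0 < N) {v : Fin 2 → ℤ} (hv : NZ N v) : Xs N v =
    ls 0 ((A.Xr (⟨ze N 1, ze_mem N⟩ : (ZN N).toSubring) (red N v)).map
      (ZN N).toSubring.subtype) := by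
  have : NeZero N := ⟨hN.ne'⟩
  rw [Xs_eq hN, A.map_Xr (adm_ZN hN) _ ((NZ_iff v).1 hv)]
  rfl

theorem ls_sub (m : ℤ) (F G : PowerSeries ℂ) : ls m F - ls m G = ls m (F - G) := by
  rw [ls, ls, ls, map_sub, mul_sub]

end bridge

theorem sa4 : SA4 := by
  intro N hN
  have : NeZero N := ⟨hN.ne'⟩
  refine ⟨fun v hv n => ?_, fun v w hv hw h1 h2 => ?_⟩
  · rw [Xs_eq' hN hv]
    exact int_ls 0 _ n
  · rw [NZ_iff, red_sub, sub_ne_zero] at h1
    rw [NZ_iff, red_add, Ne, add_eq_zero_iff_eq_neg] at h2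
    obtain ⟨U, hU, e⟩ := A.exists_unit (adm_ZN hN) ((NZ_iff v).1 hv) ((NZ_iff w).1 hw) h1 h2
    refine good_iff.2 ⟨U, hU, ?_⟩
    rw [Xs_eq' hN hv, Xs_eq' hN hw, ls_sub, ← map_sub, e, map_mul, map_pow, PowerSeries.map_X,
      ls_X_pow, zero_add]

end Vale.Agent.P027M.M
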