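import Vale.Agent.P027M.M.A2
import Vale.Agent.P022.H29.L3.Onto

/-!
# P027 block M, row B4: the Hauptmodul takes every value outside `{2, -2}`
-/

set_option autoImplicit false
set_option linter.all false

open UpperHalfPlane Matrix Filter Topology
open scoped MatrixGroups Manifold ModularForm

noncomputable section

namespace Vale.Agent.P027M.M

open Vale.Agent.P022 Vale.Agent.P022.H218.L3 Vale.Agent.P022.H231.L3 Vale.Agent.P022.H236.L3
  Vale.Agent.P022.H542.L3 Vale.Agent.P027H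

namespace B4

/-- the limit at the cusp is the constant term -/
theorem exq_tendsto {N : ℕ} (hN : N ≠ 0) {F : PowerSeries ℂ} {f : ℍ → ℂ} (hf : H236.Exq N 0 F f) :
    Tendsto f atImInfty (𝓝 (PowerSeries.constantCoeff F)) := by
  obtain ⟨τ0, h0⟩ := hf.exists
  obtain ⟨pF, eF⟩ := H236.hasFPS h0 (H236.qne N τ0)
  have h00 : (H236.fms F).sum 0 = PowerSeries.constantCoeff F := by
    have := pF.coeff_zero (fun _ => 0)
    rw [← this, H236.fms, FormalMultilinearSeries.ofScalars_apply_eq, pow_zero, smul_eq_mul,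
      mul_one, PowerSeries.coeff_zero_eq_constantCoeff_apply]
  have hq := (H236.tendsto_q hN).mono_right nhdsWithin_le_nhds
  have h1 := pF.analyticAt.continuousAt.tendsto.comp hq
  rw [h00] at h1
  refine h1.congr' ?_
  filter_upwards [hf, hq.eventually eF] with τ h2 h3
  have := h3.unique h2
  simpa using this

theorem Wf_tendsto (h3 : SA3) {N : ℕ} (hN : 0 < N) {v w : Fin 2 → ℤ} (hv : NZ N v) (hw : NZ N w) :
    Tendsto (Wf N v w) atImInfty (𝓝 (Xc N v 0 - Xc N w 0)) := by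
  have h := (h3 N hN v w hv hw).2
  have e : Xs N v - Xs N w = ls 0 (PowerSeries.mk (Xc N v) - PowerSeries.mk (Xc N w)) := by
    rw [sub_eq_iff_eq_add, Xs, Xs, ls_add, sub_add_cancel]
  rw [e] at h
  have := exq_tendsto hN.ne' h.exq
  simpa using this

theorem ze_two {d : ℤ} (hd : Odd d) : ze 4 (2 * d) = -1 := by
  have e : 2 * Real.pi * Complex.I * ((2 * d : ℤ) : ℂ) / ((4 : ℕ) : ℂ) =
      d * (Real.pi * Complex.I) := by
    push_cast
    ring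
  rw [ze, e, Complex.exp_int_mul, Complex.exp_pi_mul_I, hd.neg_one_zpow]

theorem ze_sq {d : ℤ} (hd : Odd d) : ze 4 d ^ 2 = -1 := by
  rw [← ze_two hd, ze, ze, ← Complex.exp_nat_mul]
  congr 1
  push_cast
  ring

theorem Xc_not {v : Fin 2 → ℤ} (h : ¬ (4 : ℤ) ∣ v 0) : Xc 4 v 0 = 0 := by
  rw [Xc, if_pos rfl, if_neg (by exact_mod_cast h)]

theorem Xc_two {v : Fin 2 → ℤ} (h : (4 : ℤ) ∣ v 0) {d : ℤ} (hd : Odd d) (h1 : v 1 = 2 * d) :
    Xc 4 v 0 = -1 / 4 := by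
  rw [Xc, if_pos rfl, if_pos (by exact_mod_cast h), h1, ze_two hd]
  norm_num

theorem Xc_odd {v : Fin 2 → ℤ} (h : (4 : ℤ) ∣ v 0) (hd : Odd (v 1)) : Xc 4 v 0 = -1 / 2 := by
  rw [Xc, if_pos rfl, if_pos (by exact_mod_cast h)]
  have h1 := ze_sq hd
  generalize ze 4 (v 1) = z at h1
  have hz : z ≠ 0 := by
    rintro rfl
    norm_num at h1
  have e : (1 - z) ^ 2 = -2 * z := by linear_combination h1
  rw [e]
  field_simp

theorem nz1 : NZ 4 (p1 4) := fun h => by have := h 1; simp [p1] at this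
theorem nz2 : NZ 4 (p2 4) := fun h => by have := h 0; simp [p2] at this
theorem nz3 : NZ 4 (p3 4) := fun h => by have := h 0; simp [p3] at this
theorem nz4 : NZ 4 (p4 4) := fun h => by have := h 1; simp [p4] at this

theorem Af_ne (τ : ℍ) : Af τ ≠ 0 := by
  refine Wf_ne (by norm_num) nz4 nz1 (fun h => ?_) (fun h => ?_) τ
  · have := h 1
    simp [p1, p4] at this
  · have := h 1
    simp [p1, p4] at this

/-- the values of `A` and `B` at the cusps -/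
theorem lims (h3 : SA3) (γ : SL(2, ℤ)) : ∃ x y : ℂ,
    Tendsto (Af ∣[(2 : ℤ)] γ) atImInfty (𝓝 x) ∧ Tendsto (Bf ∣[(2 : ℤ)] γ) atImInfty (𝓝 y) ∧
    (((4 : ℤ) ∣ γ 1 0 ∧ x = -1 / 4 ∧ y = -1 / 2) ∨ ((4 : ℤ) ∣ γ 1 0 - 2 ∧ x = 1 / 4 ∧ y = -1 / 2) ∨
      (Odd (γ 1 0) ∧ x = 0 ∧ y = 1 / 4)) := by
  have h4 : 0 < 4 := by norm_num
  have tA := Wf_tendsto h3 h4 (nz4.vecMul γ) (nz1.vecMul γ)
  have ta := Wf_tendsto h3 h4 (nz1.vecMul γ) (nz2.vecMul γ)
  have tb := Wf_tendsto h3 h4 (nz1.vecMul γ) (nz3.vecMul γ)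
  rw [← Wf_slash] at tA ta tb
  have tB := ta.add tb
  have eB : Bf ∣[(2 : ℤ)] γ = fun τ => (Wf 4 (p1 4) (p2 4) ∣[(2 : ℤ)] γ) τ +
      (Wf 4 (p1 4) (p3 4) ∣[(2 : ℤ)] γ) τ := by
    rw [Bf, SlashAction.add_slash]
    rfl
  rw [← eB] at tB
  refine ⟨_, _, tA, tB, ?_⟩
  have hd := det_eq γ
  have a10 : (p1 4 ᵥ* (γ : M2)) 0 = 2 * γ 1 0 := by rw [vm0]; simp [p1]
  have a11 : (p1 4 ᵥ* (γ : M2)) 1 = 2 * γ 1 1 := by rw [vm1]; simp [p1]
  have a20 : (p2 4 ᵥ* (γ : M2)) 0 = 2 * γ 0 0 := by rw [vm0]; simp [p2]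
  have a21 : (p2 4 ᵥ* (γ : M2)) 1 = 2 * γ 0 1 := by rw [vm1]; simp [p2]
  have a30 : (p3 4 ᵥ* (γ : M2)) 0 = 2 * (γ 0 0 + γ 1 0) := by rw [vm0]; simp [p3]; ring
  have a31 : (p3 4 ᵥ* (γ : M2)) 1 = 2 * (γ 0 1 + γ 1 1) := by rw [vm1]; simp [p3]; ring
  have a40 : (p4 4 ᵥ* (γ : M2)) 0 = γ 1 0 := by rw [vm0]; simp [p4]
  have a41 : (p4 4 ᵥ* (γ : M2)) 1 = γ 1 1 := by rw [vm1]; simp [p4]
  generalize γ 0 0 = a at *
  generalize γ 0 1 = b at *
  generalize γ 1 0 = c at *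
  generalize γ 1 1 = d at *
  have par : ∀ {x y z u : ℤ}, x * y - z * u = 1 → Even z → Odd x ∧ Odd y := by
    intro x y z u h hz
    have : Odd (x * y) := by
      rw [show x * y = z * u + 1 by linarith]
      exact (hz.mul_right u).add_one
    exact Int.odd_mul.1 this
  rcases Int.even_or_odd c with hc | hc
  · obtain ⟨ha, hd'⟩ := par (by linear_combination hd : a * d - c * b = 1) hc
    have e1 := Xc_two (v := p1 4 ᵥ* (γ : M2)) (by rw [a10]; obtain ⟨k, hk⟩ := hc; omega) hd' a11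
    have e2 := Xc_not (v := p2 4 ᵥ* (γ : M2)) (by rw [a20]; obtain ⟨k, hk⟩ := ha; omega)
    have e3 := Xc_not (v := p3 4 ᵥ* (γ : M2))
      (by rw [a30]; obtain ⟨k, hk⟩ := ha; obtain ⟨l, hl⟩ := hc; omega)
    by_cases h4c : (4 : ℤ) ∣ c
    · have e4 := Xc_odd (v := p4 4 ᵥ* (γ : M2)) (by rwa [a40]) (by rwa [a41])
      left
      rw [e1, e2, e3, e4]
      exact ⟨h4c, by norm_num, by norm_num⟩
    · have e4 := Xc_not (v := p4 4 ᵥ* (γ : M2)) (by rwa [a40])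
      right; left
      rw [e1, e2, e3, e4]
      exact ⟨by obtain ⟨l, hl⟩ := hc; omega, by norm_num, by norm_num⟩
  · right; right
    have e1 := Xc_not (v := p1 4 ᵥ* (γ : M2)) (by rw [a10]; obtain ⟨k, hk⟩ := hc; omega)
    have e4 := Xc_not (v := p4 4 ᵥ* (γ : M2)) (by rw [a40]; obtain ⟨k, hk⟩ := hc; omega)
    rcases Int.even_or_odd a with ha | ha
    · obtain ⟨hb, -⟩ := par (by linear_combination hd : (-b) * c - a * (-d) = 1) ha
      have e2 := Xc_two (v := p2 4 ᵥ* (γ : M2)) (by rw [a20]; obtain ⟨k, hk⟩ := ha; omega)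
        (odd_neg.1 hb) a21
      have e3 := Xc_not (v := p3 4 ᵥ* (γ : M2))
        (by rw [a30]; obtain ⟨k, hk⟩ := ha; obtain ⟨l, hl⟩ := hc; omega)
      rw [e1, e2, e3, e4]
      exact ⟨hc, by norm_num, by norm_num⟩
    · obtain ⟨hb, -⟩ := par (by linear_combination hd : (-(b + d)) * c - (a + c) * (-d) = 1)
        (ha.add_odd hc)
      have e2 := Xc_not (v := p2 4 ᵥ* (γ : M2)) (by rw [a20]; obtain ⟨k, hk⟩ := ha; omega)
      have e3 := Xc_two (v := p3 4 ᵥ* (γ : M2))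
        (by rw [a30]; obtain ⟨k, hk⟩ := ha; obtain ⟨l, hl⟩ := hc; omega) (odd_neg.1 hb) a31
      rw [e1, e2, e3, e4]
      exact ⟨hc, by norm_num, by norm_num⟩

end B4

open B4 in
/-- **B4** -/
theorem rb4 : RB4 := by
  intro h3 _ h1 a a2 a2'
  obtain ⟨-, hA, hB⟩ := h1
  by_contra hcon
  push Not at hcon
  have hne : ∀ τ, Bf τ - a * Af τ ≠ 0 := by
    intro τ h
    apply hcon τ
    rw [tf, div_eq_iff (Af_ne τ)]
    exact sub_eq_zero.1 h
  set g : ℍ → ℂ := fun τ => Af τ / (Bf τ - a * Af τ) with hg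
  have hsl : ∀ γ : SL(2, ℤ), g ∣[(0 : ℤ)] γ =
      fun τ => (Af ∣[(2 : ℤ)] γ) τ / ((Bf ∣[(2 : ℤ)] γ) τ - a * (Af ∣[(2 : ℤ)] γ) τ) := by
    intro γ
    funext τ
    rw [H29.L3.slash_zero_apply, ModularForm.SL_slash_apply, ModularForm.SL_slash_apply]
    have hd : denom γ τ ^ (-(2 : ℤ)) ≠ 0 := zpow_ne_zero _ (denom_ne_zero _ _)
    simp only [hg]
    rw [← mul_assoc, ← sub_mul, mul_div_mul_right _ _ hd]
  have hlim : ∀ γ : SL(2, ℤ), ∃ z : ℂ, Tendsto (g ∣[(0 : ℤ)] γ) atImInfty (𝓝 z) ∧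
      (Odd (γ 1 0) → z = 0) := by
    intro γ
    obtain ⟨x, y, tx, ty, h⟩ := lims h3 γ
    have h0 : y - a * x ≠ 0 := by
      rcases h with ⟨-, rfl, rfl⟩ | ⟨-, rfl, rfl⟩ | ⟨-, rfl, rfl⟩
      · intro h; apply a2; linear_combination 4 * h
      · intro h; apply a2'; linear_combination -4 * h
      · norm_num
    refine ⟨x / (y - a * x), ?_, fun ho => ?_⟩
    · rw [hsl]
      exact tx.div (ty.sub (tx.const_mul a)) h0
    · obtain ⟨k, hk⟩ := ho
      rcases h with ⟨h, -⟩ | ⟨h, -⟩ | ⟨-, rfl, -⟩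
      · omega
      · omega
      · simp
  have hgH : g ∈ Hol := by
    have h1 : (Bf - a • Af) ∈ Hol := (hB.sub (hA.smul a)).hol
    exact (mem_Hol.1 hA.hol).div (mem_Hol.1 h1) hne
  have hgM : IsMF G0 0 g := by
    refine ⟨hgH, fun γ hγ => ?_, fun γ => ?_⟩
    · rw [hsl, hA.slash γ hγ, hB.slash γ hγ]
    · obtain ⟨z, hz, -⟩ := hlim γ
      exact hz.isBigO_one ℝ
  obtain ⟨c, hc⟩ := H29.L3.const_of_isMF_zero hgM
  obtain ⟨z, hz, hz0⟩ := hlim ModularGroup.S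
  have hS : g ∣[(0 : ℤ)] ModularGroup.S = fun _ => c := by
    funext τ
    rw [H29.L3.slash_zero_apply, hc]
  rw [hS, hz0 (by simp [ModularGroup.S])] at hz
  have hc0 : c = 0 := tendsto_nhds_unique tendsto_const_nhds hz
  have := congrFun hc UpperHalfPlane.I
  rw [hc0] at this
  exact div_ne_zero (Af_ne _) (hne _) this

end Vale.Agent.P027M.M
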