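import Vale.Agent.P027M.M.Spec

/-! # P027, block M: the series `X_v`, first properties -/

set_option linter.all false

noncomputable section

namespace Vale.Agent.P027M.M

open Vale.Agent.P022 Vale.Agent.P022.H236.L3

namespace Ser0Aux

variable {N : ℕ}

theorem zadd (a b : ℤ) : ze N (a + b) = ze N a * ze N b := by
  rw [ze, ze, ze, ← Complex.exp_add]
  congr 1
  push_cast
  ring

theorem znat (n : ℕ) (b : ℤ) : ze N (n * b) = ze N b ^ n := by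
  rw [ze, ze, ← Complex.exp_nat_mul]
  congr 1
  push_cast
  ring

theorem zdvd (hN : 0 < N) {a : ℤ} (h : (N : ℤ) ∣ a) : ze N a = 1 := by
  obtain ⟨c, rfl⟩ := h
  have : (N : ℂ) ≠ 0 := by exact_mod_cast hN.ne'
  rw [ze, ← Complex.exp_int_mul_two_pi_mul_I c]
  congr 1
  push_cast
  field_simp

theorem zcongr (hN : 0 < N) {a b : ℤ} (h : (N : ℤ) ∣ a - b) : ze N a = ze N b := by
  rw [← sub_add_cancel a b, zadd, zdvd hN h, one_mul]

theorem zneg (a : ℤ) : ze N (-a) = (ze N a)⁻¹ := by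
  rw [ze, ze, ← Complex.exp_neg]
  congr 1
  push_cast
  ring

theorem zpowN (hN : 0 < N) (a : ℤ) : ze N a ^ N = 1 := by
  rw [← znat, zdvd hN (dvd_mul_right _ _)]

theorem zmem (hN : 0 < N) {S : Subring ℂ} (h : ze N 1 ∈ S) (b : ℤ) : ze N b ∈ S := by
  have h0 : (N : ℤ) ≠ 0 := by exact_mod_cast hN.ne'
  have e : ze N b = ze N (((b % N).toNat : ℕ) * (1 : ℤ)) := zcongr hN (by
    rw [Int.toNat_of_nonneg (Int.emod_nonneg _ h0), mul_one]
    exact Int.dvd_self_sub_emod)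
  rw [e, znat]
  exact S.pow_mem h _

theorem zne (hN : 0 < N) {a : ℤ} (h : ¬ (N : ℤ) ∣ a) : ze N a ≠ 1 := by
  intro e
  obtain ⟨n, hn⟩ := Complex.exp_eq_one_iff.1 e
  have h0 : (N : ℂ) ≠ 0 := by exact_mod_cast hN.ne'
  have h1 := Complex.two_pi_I_ne_zero
  refine h ⟨n, ?_⟩
  have : (a : ℂ) = N * n := by
    rw [div_eq_iff h0] at hn
    exact mul_left_cancel₀ h1 (by linear_combination hn)
  exact_mod_cast this

theorem Xc_mem (hN : 0 < N) {S : Subring ℂ} (h : ze N 1 ∈ S) (v : Fin 2 → ℤ) {k : ℕ} (hk : k ≠ 0) :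
    Xc N v k ∈ S := by
  rw [Xc, if_neg hk]
  refine S.sum_mem fun j _ => S.add_mem ?_ ?_ <;> split_ifs
  · exact S.mul_mem (natCast_mem S j) (zmem hN h _)
  · exact S.zero_mem
  · exact S.mul_mem (natCast_mem S j) (zmem hN h _)
  · exact S.zero_mem

theorem coeff_ind {p : ℂ → Prop} (v : Fin 2 → ℤ) (h0 : p 0) (h : ∀ k, p (Xc N v k)) (n : ℤ) :
    p ((Xs N v).coeff n) := by
  rcases lt_or_ge n 0 with h1 | h1
  · rwa [Xs, coeff_ls_of_lt _ _ h1]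
  · obtain ⟨m, rfl⟩ : ∃ m : ℕ, n = 0 + m := ⟨n.toNat, by omega⟩
    rw [Xs, coeff_ls, PowerSeries.coeff_mk]
    exact h m

theorem congr (hN : 0 < N) {v w : Fin 2 → ℤ} (h : ∀ i, (N : ℤ) ∣ v i - w i) : Xc N v = Xc N w := by
  funext k
  have e0 : (N : ℤ) ∣ v 0 ↔ (N : ℤ) ∣ w 0 := dvd_iff_dvd_of_dvd_sub (h 0)
  have e1 : ∀ c : ℤ, (N : ℤ) ∣ c - v 0 ↔ (N : ℤ) ∣ c - w 0 := fun c =>
    dvd_iff_dvd_of_dvd_sub (by rw [sub_sub_sub_cancel_left]; exact dvd_sub_comm.1 (h 0))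
  have e2 : ∀ c : ℤ, (N : ℤ) ∣ c + v 0 ↔ (N : ℤ) ∣ c + w 0 := fun c =>
    dvd_iff_dvd_of_dvd_sub (by rw [add_sub_add_left_eq_sub]; exact h 0)
  have e3 : ∀ c : ℤ, ze N (v 1 * c) = ze N (w 1 * c) := fun c =>
    zcongr hN (by rw [← sub_mul]; exact (h 1).mul_right c)
  simp only [Xc, e0, e1, e2, e3, zneg, zcongr hN (h 1)]

theorem neg (v : Fin 2 → ℤ) : Xc N (-v) = Xc N v := by
  funext k
  simp only [Xc, Pi.neg_apply, dvd_neg, sub_neg_eq_add, ← sub_eq_add_neg, neg_mul, neg_neg]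
  split_ifs with h1 h2
  · rw [zneg]
    have h0 := ze_ne N (v 1)
    by_cases h3 : 1 - ze N (v 1) = 0
    · rw [← sub_eq_zero.1 h3, inv_one]
    · have h4 : ze N (v 1) - 1 ≠ 0 := fun e => h3 (by linear_combination -e)
      field_simp
      ring
  · rfl
  · exact Finset.sum_congr rfl fun j _ => add_comm _ _

theorem alg (hN : 0 < N) (v : Fin 2 → ℤ) : Alg (Xs N v) := by
  have : NeZero N := ⟨hN.ne'⟩
  have : NeZero (N : Qb) := ⟨by exact_mod_cast hN.ne'⟩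
  obtain ⟨ζ, hζ⟩ := HasEnoughRootsOfUnity.exists_primitiveRoot Qb N
  obtain ⟨i, -, hi⟩ := (hζ.map_of_injective io.injective).eq_pow_of_pow_eq_one (zpowN hN 1)
  let S : Subfield ℂ := (io : Qb →+* ℂ).fieldRange
  have h1 : ze N 1 ∈ S.toSubring := ⟨ζ ^ i, (map_pow _ _ _).trans hi⟩
  intro n
  obtain ⟨a, ha⟩ : (Xs N v).coeff n ∈ S := by
    refine coeff_ind (p := fun z => z ∈ S) v S.zero_mem (fun k => ?_) n
    by_cases hk : k = 0
    · rw [Xc, if_pos hk]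
      split_ifs
      · exact S.div_mem (zmem hN h1 _) (S.pow_mem (S.sub_mem S.one_mem (zmem hN h1 _)) _)
      · exact S.zero_mem
    · exact Xc_mem hN h1 v hk
  exact ⟨a, ha.symm⟩

theorem quo {S : Subring ℂ} {z : ℂ} (hz : z ∈ S) (h1 : z ≠ 1) (h2 : z ^ N = 1) :
    (N : ℂ) / (1 - z) ∈ S := by
  have h3 : ∑ k ∈ Finset.range N, z ^ k = 0 := by
    have := mul_geom_sum z N
    rw [h2, sub_self] at this
    exact (mul_eq_zero.1 this).resolve_left (sub_ne_zero.2 h1)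
  have h4 : (N : ℂ) = ∑ k ∈ Finset.range N, (1 - z ^ k) := by
    rw [Finset.sum_sub_distrib, h3]
    simp
  rw [h4, Finset.sum_div]
  refine S.sum_mem fun k _ => ?_
  rw [← mul_neg_geom_sum, mul_div_cancel_left₀ _ (sub_ne_zero.2 h1.symm)]
  exact S.sum_mem fun i _ => S.pow_mem hz _

theorem int (hN : 0 < N) {v : Fin 2 → ℤ} (hv : NZ N v) (n : ℤ) :
    (N : ℂ) ^ 2 * (Xs N v).coeff n ∈ Algebra.adjoin ℤ {ze N 1} := by
  let S : Subring ℂ := (Algebra.adjoin ℤ {ze N 1}).toSubring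
  have h1 : ze N 1 ∈ S := Algebra.self_mem_adjoin_singleton ℤ _
  refine coeff_ind (p := fun z => (N : ℂ) ^ 2 * z ∈ S) v (by rw [mul_zero]; exact S.zero_mem)
    (fun k => ?_) n
  by_cases hk : k = 0
  · rw [Xc, if_pos hk]
    split_ifs with h0
    · have h2 : ¬ (N : ℤ) ∣ v 1 := fun h => hv (Fin.forall_fin_two.2 ⟨h0, h⟩)
      have e : (N : ℂ) ^ 2 * (ze N (v 1) / (1 - ze N (v 1)) ^ 2) =
          (N / (1 - ze N (v 1))) ^ 2 * ze N (v 1) := by
        rw [div_pow, div_mul_eq_mul_div, mul_div_assoc]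
      rw [e]
      exact S.mul_mem (S.pow_mem (quo (zmem hN h1 _) (zne hN h2) (zpowN hN _)) _) (zmem hN h1 _)
    · rw [mul_zero]; exact S.zero_mem
  · exact S.mul_mem (S.pow_mem (natCast_mem S N) _) (Xc_mem hN h1 v hk)

end Ser0Aux

theorem ser0 : SER0 := fun N hN v w =>
  ⟨fun h => by rw [Xs, Xs, Ser0Aux.congr hN h], by rw [Xs, Xs, Ser0Aux.neg], Ser0Aux.alg hN v,
    fun hv n => Ser0Aux.int hN hv n⟩

end Vale.Agent.P027M.M
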