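import Vale.Agent.P027M.M.Spec

/-! # P027, block M, row PLC: the cusps of level `N` and their inertia groups -/

set_option autoImplicit false
set_option linter.all false

open UpperHalfPlane Matrix
open scoped MatrixGroups Manifold IntermediateField

noncomputable section

namespace Vale.Agent.P027M.M

open Vale.Agent.P022 Vale.Agent.P022.H218.L3 Vale.Agent.P022.H231.L3 Vale.Agent.P022.H236.L3
  Vale.Agent.P022.H542.L3 Vale.Agent.P019P P025H816 P025H492

namespace Plc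

theorem order_inv (s : LS) : s⁻¹.order = -s.order := by
  by_cases h : s = 0
  · simp [h]
  have := HahnSeries.order_mul h (inv_ne_zero h)
  rw [mul_inv_cancel₀ h, HahnSeries.order_one] at this
  omega

theorem order_div {s r : LS} (hs : s ≠ 0) (hr : r ≠ 0) : (s / r).order = s.order - r.order := by
  rw [div_eq_mul_inv, HahnSeries.order_mul hs (inv_ne_zero hr), order_inv, sub_eq_add_neg]

/-- the place of an embedding in the Laurent series -/
theorem place {k F : Type*} [Field k] [Field F] [Algebra k F] [CFF k F] (φ : F →+* LS)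
    (hc : ∀ a : k, (φ (algebraMap k F a)).order = 0) (h1 : ∃ x, (φ x).order = 1) :
    ∃ P : Plk k F, ∀ x, ord P x = (φ x).order := by
  have mul : ∀ x y, x ≠ 0 → y ≠ 0 → (φ (x * y)).order = (φ x).order + (φ y).order :=
    fun x y hx hy => by
      rw [map_mul, HahnSeries.order_mul ((map_ne_zero φ).2 hx) ((map_ne_zero φ).2 hy)]
  have add : ∀ x y, x + y ≠ 0 → min (φ x).order (φ y).order ≤ (φ (x + y)).order :=
    fun x y h => by
      have := (map_ne_zero φ).2 h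
      rw [map_add] at this ⊢
      exact HahnSeries.min_order_le_order_add this
  let O : ValuationSubring F :=
    { carrier := {x | 0 ≤ (φ x).order}
      mul_mem' := fun {x y} hx hy => by
        by_cases a : x = 0
        · simp [a]
        by_cases b : y = 0
        · simp [b]
        exact (mul x y a b).ge.trans' (add_nonneg hx hy)
      one_mem' := by simp
      add_mem' := fun {x y} hx hy => by
        by_cases a : x + y = 0
        · simp [a]
        exact (le_min hx hy).trans (add x y a)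
      zero_mem' := by simp
      neg_mem' := fun {x} hx => by simpa using hx
      mem_or_inv_mem' := fun x => by
        show 0 ≤ (φ x).order ∨ 0 ≤ (φ x⁻¹).order
        rw [map_inv₀, order_inv]
        omega }
  obtain ⟨π, hπ⟩ := h1
  have io : IsOrd O fun x => (φ x).order :=
    ⟨by simp, mul, fun x y _ _ h => add x y h, fun x => ⟨Or.inr, fun h => h.elim
      (fun e => e ▸ O.zero_mem) id⟩, π, hπ⟩
  refine ⟨⟨O, fun a => (hc a).ge, fun e => ?_⟩, fun x => congrFun (IsOrd.unique (O := O) (ord_spec ⟨O, _⟩) io) x⟩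
  have : 0 ≤ (φ π⁻¹).order := show π⁻¹ ∈ O from e ▸ ValuationSubring.mem_top _
  rw [map_inv₀, order_inv] at this
  omega

/-- a generator of a rational function field has one zero -/
theorem uniq {k F : Type*} [Field k] [Field F] [Algebra k F] [CFF k F] {t u : F}
    (ht : k⟮t⟯ = ⊤) (h : t ∈ k⟮u⁻¹⟯) {Q Q' : Plk k F} (a : 0 < ord Q u) (b : 0 < ord Q' u) :
    Q = Q' := by
  classical
  have e : k⟮u⁻¹⟯ = ⊤ := top_le_iff.1 (ht ▸ IntermediateField.adjoin_simple_le_iff.2 h)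
  have d := dg_pol (nc_inv (nc_of_ord a.ne'))
  rw [e, IntermediateField.finrank_top] at d
  by_contra c
  have := dg_mono (D := Finsupp.single Q 1 + Finsupp.single Q' 1) (E := pol k u⁻¹) fun R => by
    rw [pol_apply, ord_inv, Finsupp.add_apply, Finsupp.single_apply, Finsupp.single_apply]
    split_ifs with p q q
    · exact absurd (p.trans q.symm) c
    · subst p; omega
    · subst q; omega
    · omega
  rw [map_add, dg_sgl, dg_sgl] at this
  omega

/-- the zeros of a generator of the base field are conjugate -/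
theorem conj_of {k K F : Type*} [Field k] [Field K] [Field F] [Algebra k K] [Algebra k F]
    [Algebra K F] [IsScalarTower k K F] [CFF k K] [CFF k F] [FiniteDimensional K F] [IsGalois K F]
    {t u : K} (ht : k⟮t⟯ = ⊤) (h : t ∈ k⟮u⁻¹⟯) {P Q : Plk k F} (a : 0 < ord Q (algebraMap K F u))
    (b : 0 < ord P (algebraMap K F u)) : ∃ σ : F ≃ₐ[K] F, ∀ x, ord P x = ord Q (σ x) := by
  obtain ⟨σ, rfl⟩ := exists_conj_eq (K := K)
    (uniq ht h ((ord_up_pos_iff Q u).1 a) ((ord_up_pos_iff P u).1 b))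
  exact ⟨σ.symm, ord_conj' σ Q⟩

theorem top (X : Mdl) : Qb⟮X.tL (le_refl G0)⟯ = ⊤ := top_le_iff.1 fun y _ =>
  (IntermediateField.mem_lift y).1 (by
    rw [IntermediateField.lift_adjoin_simple]
    exact X.base.le y.2)

theorem exm_sub {N : ℕ} {s r : LS} {x y : Mer} (h : ExM N s x) (h' : ExM N r y) :
    ExM N (s - r) (x - y) := by
  have := h.add ((ExM.const N (-1)).mul h')
  rw [map_neg, map_neg, map_one, map_one] at this
  convert this using 1 <;> ring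

theorem exm_two (N : ℕ) : ExM N 2 2 := by
  have := ExM.const N 2
  rwa [map_ofNat, map_ofNat] at this

theorem cv_pg (X : Mdl) (γ : SL(2, ℤ)) (x : FF) : cv (X.pg γ x) = act γ⁻¹ (cv x) :=
  (X.pb_coe _ _ x).trans (pbz_SL γ _)

theorem act_act (γ δ : SL(2, ℤ)) (x : Mer) : act γ (act δ x) = act (γ * δ) x := by
  rw [map_mul, AlgEquiv.mul_apply]

theorem vec_mul (v : Fin 2 → ℤ) (γ δ : SL(2, ℤ)) :
    v ᵥ* (γ : M2) ᵥ* (δ : M2) = v ᵥ* ((γ * δ : SL(2, ℤ)) : M2) := by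
  rw [vecMul_vecMul, Matrix.SpecialLinearGroup.coe_mul]

theorem nz_mul {N : ℕ} {v : Fin 2 → ℤ} (h : NZ N v) (γ : SL(2, ℤ)) : NZ N (v ᵥ* (γ : M2)) :=
  fun c => h fun i => by
    have e : v = v ᵥ* (γ : M2) ᵥ* ((γ⁻¹ : SL(2, ℤ)) : M2) := by
      rw [vec_mul, mul_inv_cancel, Matrix.SpecialLinearGroup.coe_one, vecMul_one]
    rw [e, vecMul, dotProduct]
    exact Finset.dvd_sum fun j _ => (c j).mul_right _

theorem nz_of {N : ℕ} {v : Fin 2 → ℤ} (i : Fin 2) (h0 : v i ≠ 0) (h : |v i| < N) : NZ N v :=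
  fun c => h0 (Int.eq_zero_of_abs_lt_dvd (c i) h)

/-- `v ≢ ± w`, both non-zero -/
structure Ad (N : ℕ) (v w : Fin 2 → ℤ) : Prop where
  l : NZ N v
  r : NZ N w
  s : NZ N (v - w)
  a : NZ N (v + w)

theorem Ad.mul {N : ℕ} {v w : Fin 2 → ℤ} (h : Ad N v w) (γ : SL(2, ℤ)) :
    Ad N (v ᵥ* (γ : M2)) (w ᵥ* (γ : M2)) :=
  ⟨nz_mul h.l γ, nz_mul h.r γ, sub_vecMul _ v w ▸ nz_mul h.s γ, add_vecMul _ v w ▸ nz_mul h.a γ⟩

theorem dist_zero {N : ℕ} {a : ℤ} : dist N a = 0 ↔ (N : ℤ) ∣ a := by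
  rw [dist, Int.natAbs_eq_zero, ZMod.valMinAbs_eq_zero, ZMod.intCast_zmod_eq_zero_iff_dvd]

theorem of_dist_one {N : ℕ} {a : ℤ} (h : dist N a = 1) :
    ∃ s : ℤ, s * s = 1 ∧ (N : ℤ) ∣ a - s := by
  refine ⟨(a : ZMod N).valMinAbs, ?_, (ZMod.intCast_zmod_eq_zero_iff_dvd _ _).1 (by simp)⟩
  rw [← Int.natAbs_mul_self, show (a : ZMod N).valMinAbs.natAbs = 1 from h]
  rfl

section lv

variable {N : ℕ} (h : Lv N)
include h

theorem four : 4 ≤ N := Nat.le_of_dvd h.pos h.four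

theorem dist_one : dist N 1 = 1 := by
  have := four h
  have e := ZMod.valMinAbs_natCast_of_le_half (n := N) (a := 1) (by omega)
  rw [dist, ← Nat.cast_one, Int.cast_natCast, e]
  rfl

theorem ad41 : Ad N (p4 N) (p1 N) := by
  obtain ⟨k, rfl⟩ := h.four
  have := h.pos
  refine ⟨nz_of 1 ?_ ?_, nz_of 1 ?_ ?_, nz_of 1 ?_ ?_, nz_of 1 ?_ ?_⟩ <;>
    simp only [p4, p1, Pi.sub_apply, Pi.add_apply, cons_val_one, cons_val_zero, abs_lt] <;> omega

theorem ad1 : Ad N ![1, 0] ![1, 1] := by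
  have := four h
  exact ⟨nz_of 0 (by simp) (by simp; omega), nz_of 0 (by simp) (by simp; omega),
    nz_of 1 (by simp) (by simp; omega), nz_of 1 (by simp) (by simp; omega)⟩

theorem ad2 : Ad N ![0, 1] ![0, 2] := by
  have := four h
  exact ⟨nz_of 1 (by simp) (by simp; omega), nz_of 1 (by simp) (by simp; omega),
    nz_of 1 (by simp) (by simp; omega), nz_of 1 (by simp) (by norm_num; omega)⟩

theorem ad3 : Ad N ![0, 1] ![1, 0] := by
  have := four h
  exact ⟨nz_of 1 (by simp) (by simp; omega), nz_of 0 (by simp) (by simp; omega),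
    nz_of 1 (by simp) (by simp; omega), nz_of 1 (by simp) (by simp; omega)⟩

/-- a matrix which keeps the orders of all `X_v - X_w` is a translation -/
theorem transl (ε : SL(2, ℤ)) (H : ∀ v w, Ad N v w → min (dist N ((v ᵥ* (ε : M2)) 0))
    (dist N ((w ᵥ* (ε : M2)) 0)) = min (dist N (v 0)) (dist N (w 0))) :
    ∃ j : ℤ, ε * (ModularGroup.T ^ j)⁻¹ ∈ Gt N := by
  have n4 := four h
  have d := ε.det_coe
  rw [det_fin_two] at d
  have d0 : dist N 0 = 0 := dist_zero.2 (dvd_zero _)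
  have a1 := H _ _ (ad1 h)
  have a2 := H _ _ (ad2 h)
  have a3 := H _ _ (ad3 h)
  simp only [vecMul, dotProduct, Fin.sum_univ_two, cons_val_zero, cons_val_one, one_mul, zero_mul,
    add_zero, zero_add, d0, dist_one h, min_self, Nat.zero_min, Nat.min_eq_zero_iff,
    dist_zero] at a1 a2 a3
  have c : (N : ℤ) ∣ ε 1 0 := by
    by_contra c
    have : (N : ℤ) ∣ 2 := by
      have e : (2 : ℤ) = ε 0 0 * (2 * ε 1 1) - 2 * ε 1 0 * ε 0 1 := by linear_combination -2 * d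
      rw [e]
      exact dvd_sub ((a3.resolve_left c).mul_right _) ((a2.resolve_left c).mul_right _)
    have := Int.le_of_dvd two_pos this
    omega
  have e : dist N (ε 0 0 + ε 1 0) = dist N (ε 0 0) := by
    rw [dist, Int.cast_add, (ZMod.intCast_zmod_eq_zero_iff_dvd _ _).2 c, add_zero, dist]
  rw [e, min_self] at a1
  obtain ⟨s, s1, k, hk⟩ := of_dist_one a1
  obtain ⟨l, hl⟩ := c
  refine ⟨s * ε 0 1, ?_⟩
  rw [← _root_.zpow_neg, mem_Gp]
  simp only [Matrix.SpecialLinearGroup.coe_mul, ModularGroup.coe_T_zpow, mul_apply, Fin.sum_univ_two,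
    of_apply, cons_val_zero, cons_val_one, cons_val', cons_val_fin_one, mul_one, mul_zero, add_zero]
  have f : (N : ℤ) ∣ ε 1 0 * -(s * ε 0 1) + ε 1 1 - s := ⟨-(s * k * ε 1 1), by
    linear_combination s * d - s * ε 1 1 * hk - ε 1 1 * s1⟩
  refine ⟨⟨l, hl⟩, ⟨-(s * k * ε 0 1), by linear_combination -(s * ε 0 1) * hk - ε 0 1 * s1⟩, ?_⟩
  rcases Int.eq_one_or_neg_one_of_mul_eq_one s1 with rfl | rfl
  · exact Or.inl f
  · exact Or.inr (by simpa using f)

/-- the generators in the field of level `N` -/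
def rL (X : Mdl) {v : Fin 2 → ℤ} (hv : NZ N v) : L (Gt N) :=
  ⟨X.r N v, (X.gen N h).ge (IntermediateField.subset_adjoin _ _ ⟨v, hv, rfl⟩)⟩

theorem exr (X : Mdl) (hS : SER) (γ : SL(2, ℤ)) : ∃ a : ℤ, ∀ v w (A : Ad N v w), ∃ s, s ≠ 0 ∧
    ExM N s (act γ⁻¹ (cv ((rL h X A.l - rL h X A.r : L (Gt N)) : FF))) ∧
      s.order = (min (dist N ((v ᵥ* (γ : M2)) 0)) (dist N ((w ᵥ* (γ : M2)) 0)) : ℕ) - a := by
  have B := (ad41 h).mul γ
  have b := (hS N h.pos _ _ B.l B.r B.s B.a).ne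
  refine ⟨(Xs N (p4 N ᵥ* (γ : M2)) - Xs N (p1 N ᵥ* (γ : M2))).order, fun v w A => ?_⟩
  have C := A.mul γ
  have c := hS N h.pos _ _ C.l C.r C.s C.a
  refine ⟨_, div_ne_zero c.ne b, ?_, (order_div c.ne b).trans (by rw [c.ord])⟩
  have := exm_sub (X.rex N h v A.l γ) (X.rex N h w A.r γ)
  rw [← sub_div, sub_sub_sub_cancel_right, ← map_sub, ← map_sub] at this
  exact this

end lv

variable {N : ℕ} (X : Mdl) (h : Mid N (Gt N)) [CFF Qb (L (Gt N))]
include h

include X in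
theorem one (hS : SER) (hE : EXP) (hG : GRP) (γ : SL(2, ℤ)) : ∃ P, CuspAt N γ P := by
  have N0 := h.lv.pos
  obtain ⟨fi, nm, -, -, TN, -⟩ := hG N h.lv
  have ex : ∀ x : L (Gt N), ∃ s, ExM N s (act γ⁻¹ (cv (x : FF))) := fun x => by
    obtain ⟨s, hs, -⟩ := hE.2.2.1 N (X.pg γ x) N0 (by
      rw [cv_pg, act_act]
      conv_rhs => rw [← x.2 _ (nm γ _ TN), act_act]
      congr 2
      group)
    exact ⟨s, cv_pg X γ x ▸ hs⟩
  choose e he using ex
  have un : ∀ x s, ExM N s (act γ⁻¹ (cv ((x : L (Gt N)) : FF))) → e x = s :=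
    fun x s hs => (he x).unique N0.ne' hs
  let φ : L (Gt N) →+* LS :=
    { toFun := e
      map_one' := un _ _ (by simpa using ExM.const N 1)
      map_mul' := fun x y => un _ _ (by simpa using (he x).mul (he y))
      map_zero' := un _ _ (by simpa using ExM.const N 0)
      map_add' := fun x y => un _ _ (by simpa using (he x).add (he y)) }
  obtain ⟨a, ha⟩ := exr h.lv X hS γ
  obtain ⟨s, s0, s1, s2⟩ := ha _ _ ((ad1 h.lv).mul γ⁻¹)
  obtain ⟨r, r0, r1, r2⟩ := ha _ _ ((ad2 h.lv).mul γ⁻¹)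
  simp only [vec_mul, inv_mul_cancel, Matrix.SpecialLinearGroup.coe_one, vecMul_one, cons_val_zero,
    dist_one h.lv, dist_zero.2 (dvd_zero (N : ℤ)), min_self] at s2 r2
  obtain ⟨P, hP⟩ := place (k := Qb) φ (fun c => by
    rw [show φ _ = _ from un (algebraMap Qb _ c) (HahnSeries.C (io c)) (by
      rw [show ((algebraMap Qb (L (Gt N)) c : L (Gt N)) : FF) = algebraMap Qb FF c from rfl,
        cv_alg, AlgEquiv.commutes]
      exact ExM.const N _), HahnSeries.order_C]) ⟨_, (congrArg HahnSeries.order ((map_div₀ φ _ _).trans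
    (congrArg₂ (· / ·) (un _ _ s1) (un _ _ r1)))).trans (by rw [order_div s0 r0, s2, r2]; simp)⟩
  exact ⟨P, fun x s hs => (hP x).trans (congrArg _ (un x s hs))⟩

theorem key (hA : ARTIN X) (hS : SER) (hE : EXP) (hG : GRP) (hC : CFFS) (P : Plk Qb (L (Gt N)))
    (u : L G0) (γ : SL(2, ℤ)) (s : LS) (h1 : X.tL (le_refl G0) ∈ Qb⟮u⁻¹⟯) (h2 : 0 < s.order)
    (h3 : ExM N s (act γ⁻¹ (cv (u : FF)))) (y : L (Gt N)) (hy : (y : FF) = u) (h4 : 0 < ord P y) :
    ∃ γ, CuspAt N γ P := by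
  obtain ⟨fi, nm, -⟩ := hG N h.lv
  letI := algL h.hi
  haveI := towerL h.hi
  haveI := hC G0 le_rfl (Subgroup.finiteIndex_of_le h.hi)
  obtain ⟨fd, hg⟩ := hA G0 (Gt N) h.hi fi
  obtain ⟨gal, sur, -⟩ := hg fun γ _ => nm γ
  obtain ⟨Q, hQ⟩ := one X h hS hE hG γ
  have e : algebraMap (L G0) (L (Gt N)) u = y := Subtype.ext hy.symm
  have h5 : 0 < ord Q y := h2.trans_eq (hQ y s (by rw [hy]; exact h3)).symm
  rw [← e] at h4 h5
  obtain ⟨σ, hσ⟩ := conj_of (top X) h1 h5 h4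
  obtain ⟨δ, -, hδ⟩ := sur σ
  refine ⟨δ * γ, fun x r hr => (hσ x).trans (hQ _ r ?_)⟩
  rwa [hδ, cv_pg, act_act, ← _root_.mul_inv_rev]

omit h in
theorem me {k F : Type*} [Field k] [Field F] [Algebra k F] (t : F) :
    t ∈ k⟮(t - 2)⁻¹⟯ ∧ t ∈ k⟮(t + 2)⁻¹⟯ ∧ t ∈ k⟮t⁻¹⁻¹⟯ := by
  have a := fun u : F => inv_mem (IntermediateField.mem_adjoin_simple_self k u⁻¹)
  refine ⟨?_, ?_, ?_⟩
  · simpa using add_mem (a (t - 2)) (ofNat_mem _ 2)
  · simpa using sub_mem (a (t + 2)) (ofNat_mem _ 2)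
  · simpa using IntermediateField.mem_adjoin_simple_self k t

theorem two (hA : ARTIN X) (hS : SER) (hE : EXP) (hG : GRP) (hC : CFFS) (P : Plk Qb (L (Gt N)))
    (hP : 0 < ord P (X.tL h.hi - 2) ∨ 0 < ord P (X.tL h.hi + 2) ∨ ord P (X.tL h.hi) < 0) :
    ∃ γ, CuspAt N γ P := by
  have n4 := four h.lv
  rcases hP with c | c | c
  · obtain ⟨s, s1, s2⟩ := X.tex0 N h.lv 1 (by simp)
    refine key X h hA hS hE hG hC P (X.tL le_rfl - 2) 1 s (me _).1 (by rw [s1.ord]; omega) ?_ _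
      rfl c
    have := exm_sub s2 (exm_two N)
    rw [add_sub_cancel_left] at this
    show ExM N s (act 1⁻¹ (cv (X.t - 2)))
    rwa [map_sub, map_sub, map_ofNat, map_ofNat]
  · obtain ⟨γ, hγ⟩ : ∃ γ : SL(2, ℤ), (4 : ℤ) ∣ γ 1 0 - 2 :=
      ⟨⟨!![1, 0; 2, 1], by simp [det_fin_two]⟩, by simp⟩
    obtain ⟨s, s1, s2⟩ := X.tex2 N h.lv γ hγ
    refine key X h hA hS hE hG hC P (X.tL le_rfl + 2) γ s (me _).2.1 (by rw [s1.ord]; omega) ?_ _
      rfl c
    have := s2.add (exm_two N)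
    rw [neg_add_cancel_comm] at this
    show ExM N s (act γ⁻¹ (cv (X.t + 2)))
    rwa [map_add, map_add, map_ofNat, map_ofNat]
  · obtain ⟨γ, hγ⟩ : ∃ γ : SL(2, ℤ), Odd (γ 1 0) :=
      ⟨⟨!![1, 0; 1, 1], by simp [det_fin_two]⟩, by simp⟩
    obtain ⟨s, s1, s2⟩ := X.tex1 N h.lv γ hγ
    refine key X h hA hS hE hG hC P (X.tL le_rfl)⁻¹ γ s⁻¹ (me _).2.2
      (by rw [order_inv, s1.ord]; omega) ?_ (X.tL h.hi)⁻¹ rfl (by rw [ord_inv]; omega)
    show ExM N s⁻¹ (act γ⁻¹ (cv X.t⁻¹))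
    rw [map_inv₀, map_inv₀]
    exact s2.inv h.lv.pos.ne'

theorem three (hS : SER) (hG : GRP) (γ : SL(2, ℤ)) (P : Plk Qb (L (Gt N))) (hP : CuspAt N γ P)
    (δ : SL(2, ℤ)) (hδ : δ ∈ G0)
    (H : ∀ x y : L (Gt N), (y : FF) = X.pg δ x → ord P y = ord P x) :
    ∃ j : ℤ, δ * (γ * ModularGroup.T ^ j * γ⁻¹)⁻¹ ∈ Gt N := by
  obtain ⟨a, ha⟩ := exr h.lv X hS γ
  obtain ⟨j, hj⟩ := transl h.lv (γ⁻¹ * δ * γ) fun v w A => by
    obtain ⟨s, -, s1, s2⟩ := ha _ _ (A.mul γ⁻¹)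
    obtain ⟨r, -, r1, r2⟩ := ha _ _ ((A.mul γ⁻¹).mul δ)
    have := H (rL h.lv X (A.mul γ⁻¹).l - rL h.lv X (A.mul γ⁻¹).r)
      (rL h.lv X ((A.mul γ⁻¹).mul δ).l - rL h.lv X ((A.mul γ⁻¹).mul δ).r) (cv_inj (by
        rw [cv_pg]
        show cv (X.r N _ - X.r N _) = act δ⁻¹ (cv (X.r N _ - X.r N _))
        rw [map_sub, map_sub, map_sub, X.law N h.lv _ (A.mul γ⁻¹).l δ hδ,
          X.law N h.lv _ (A.mul γ⁻¹).r δ hδ]))
    rw [hP _ s s1, hP _ r r1, s2, r2] at this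
    simp only [vec_mul, inv_mul_cancel, Matrix.SpecialLinearGroup.coe_one, vecMul_one] at this
    omega
  refine ⟨j, ?_⟩
  convert (hG N h.lv).2.1 γ _ hj using 1
  group

end Plc

/-- row PLC -/
theorem plc (X : Mdl) (hA : ARTIN X) (hS : SER) (hE : EXP) (hG : GRP) (hC : CFFS) : PLC X :=
  fun _ h _ => ⟨Plc.one X h hS hE hG, Plc.two X h hA hS hE hG hC, Plc.three X h hS hG⟩

end Vale.Agent.P027M.M
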