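import Vale.Agent.P027M.M.Spec
import Vale.Agent.P022.H542.L3.Es
import Vale.Agent.P022.H116.Place
import Vale.Agent.P022.H619.L3.Chev

/-! # P027, block M: the congruences of Eichler and Shimura on series -/

set_option autoImplicit false

open HahnSeries

noncomputable section

namespace Vale.Agent.P027M.M

open Vale.Agent.P022 Vale.Agent.P022.H542.L3

namespace Ess

/-- `s` is a constant times a quotient of primitive series -/
def Prm (O : ValuationSubring ℂ) (s : LS) : Prop :=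
  ∃ (c : ℂ) (a b : LS), c ≠ 0 ∧ IsAlgebraic ℚ c ∧
    (∀ k, IsAlgebraic ℚ (a.coeff k)) ∧ (∀ k, IsAlgebraic ℚ (b.coeff k)) ∧
    (∀ k, a.coeff k ∈ O) ∧ (∀ k, b.coeff k ∈ O) ∧ (∃ k, a.coeff k = 1) ∧ (∃ k, b.coeff k = 1) ∧
    s * b = HahnSeries.C c * a

variable {O : ValuationSubring ℂ} {W : ValuationSubring LS}

theorem C_ne {a : ℂ} (h : a ≠ 0) : (C a : LS) ≠ 0 := (map_ne_zero _).2 h

theorem ser_in (hW : Wok O W) (σ : ℂ ≃+* ℂ)
    (hσ : ∀ z ∈ O, IsAlgebraic ℚ z → O.valuation (σ z - z) < 1) {s : LS} (hs : Prm O s) (m : ℕ)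
    (hm : 0 < m) : ∃ κ : ℂ, κ ≠ 0 ∧ IsAlgebraic ℚ κ ∧ One W (sb m hm (C κ * (cm σ s / s))) := by
  obtain ⟨c, x, y, hc, hca, hxa, hya, hxO, hyO, hx1, hy1, hxy⟩ := hs
  have hx0 := ne_zero_of_coeff hx1
  have hy0 := ne_zero_of_coeff hy1
  have hcm0 : ∀ z : LS, z ≠ 0 → cm σ z ≠ 0 := fun z hz => (map_ne_zero _).2 hz
  have hsf : cm σ s * cm σ y = C (σ c) * cm σ x := by rw [← map_mul, hxy, map_mul, cm_C]
  have hσc : σ c ≠ 0 := (map_ne_zero _).2 hc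
  refine ⟨c * (σ c)⁻¹, mul_ne_zero hc (inv_ne_zero hσc), hca.mul (isAlg_map σ hca).inv, ?_⟩
  have heq : C (c * (σ c)⁻¹) * (cm σ s / s) = (cm σ x * x⁻¹) * (cm σ y * y⁻¹)⁻¹ := by
    have e2 : cm σ s = C (σ c) * cm σ x * (cm σ y)⁻¹ := by
      rw [eq_mul_inv_iff_mul_eq₀ (hcm0 _ hy0), hsf]
    have e3 : s = C c * x * y⁻¹ := by rw [eq_mul_inv_iff_mul_eq₀ hy0, hxy]
    have h5 := hcm0 _ hx0
    have h6 := hcm0 _ hy0
    have h7 := C_ne hc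
    have h8 := C_ne hσc
    rw [e2, map_mul (C : ℂ →+* LS) c, map_inv₀]
    generalize cm σ x = X at *
    generalize cm σ y = Y at *
    rw [e3]
    field_simp
  have o1 : One W (sb m hm (cm σ x) * (sb m hm x)⁻¹) :=
    ratio hW hxO hx1 (fun k => by
      rw [HahnSeries.coeff_sub, coeff_cm]; exact hσ _ (hxO k) (hxa k)) _ _
  have o2 : One W (sb m hm (cm σ y) * (sb m hm y)⁻¹) :=
    ratio hW hyO hy1 (fun k => by
      rw [HahnSeries.coeff_sub, coeff_cm]; exact hσ _ (hyO k) (hya k)) _ _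
  rw [heq, map_mul, map_inv₀, map_mul, map_mul, map_inv₀, map_inv₀]
  exact o1.mul o2.inv

theorem prod_mul {l : ℕ} {ζ : ℂ} (hζ : ζ ≠ 0) {s x y : LS} {c : ℂ} (h : s * y = C c * x) :
    (∏ j ∈ Finset.range l, rs (ζ ^ j) (pow_ne_zero _ hζ) s) *
      ∏ j ∈ Finset.range l, rs (ζ ^ j) (pow_ne_zero _ hζ) y =
      C (c ^ l) * ∏ j ∈ Finset.range l, rs (ζ ^ j) (pow_ne_zero _ hζ) x := by
  rw [← Finset.prod_mul_distrib]
  have : ∀ j ∈ Finset.range l, rs (ζ ^ j) (pow_ne_zero _ hζ) s * rs (ζ ^ j) (pow_ne_zero _ hζ) y =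
      C c * rs (ζ ^ j) (pow_ne_zero _ hζ) x := by
    intro j _
    rw [← map_mul, h, map_mul, rs_C]
  rw [Finset.prod_congr rfl this, Finset.prod_mul_distrib, Finset.prod_const, Finset.card_range,
    map_pow]

theorem alg_id {K : Type*} [Field K] {T S R a b a' b' nx ny x y x' y' X Y : K} {l : ℕ}
    (h1 : T * (ny * Y) = a ^ l * b' * (nx * X)) (h2 : S * y = b * x) (h3 : R * y' = a' * x')
    (ha : a ≠ 0) (hb : b ≠ 0) (ha' : a' ≠ 0) (hb' : b' ≠ 0) (hny : ny ≠ 0) (hY : Y ≠ 0)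
    (hX : X ≠ 0) (hx : x ≠ 0) (hy : y ≠ 0) (hx' : x' ≠ 0) (hy' : y' ≠ 0) :
    b * a' ^ l * (a ^ l * b')⁻¹ * (T / (S * R ^ l)) =
      (nx * x⁻¹) * (ny * y⁻¹)⁻¹ * (x' ^ l * X⁻¹)⁻¹ * (y' ^ l * Y⁻¹) := by
  rw [(eq_mul_inv_iff_mul_eq₀ (mul_ne_zero hny hY)).2 h1, (eq_mul_inv_iff_mul_eq₀ hy).2 h2,
    (eq_mul_inv_iff_mul_eq₀ hy').2 h3, mul_pow (a' * x'), mul_pow a', inv_pow]
  field_simp

theorem ser_es (hW : Wok O W) {l : ℕ} (hl : l.Prime) (h2 : l ≠ 2) (hO : O.valuation (l : ℂ) < 1)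
    (σ : ℂ ≃+* ℂ) (hσ : ∀ z ∈ O, IsAlgebraic ℚ z → σ z ∈ O ∧ O.valuation (σ z - z ^ l) < 1)
    {s r : LS} (hs : Prm O s) (hr : Prm O r) (m : ℕ) (hm : 0 < m) (ζ : ℂ)
    (hζ : IsPrimitiveRoot ζ l) (sT : LS) (hT : sb l hl.pos sT =
      (∏ j ∈ Finset.range l, rs (ζ ^ j) (pow_ne_zero _ (hζ.ne_zero hl.ne_zero)) s) *
        sb (l * l) (Nat.mul_pos hl.pos hl.pos) (cm σ r)) :
    ∃ κ : ℂ, κ ≠ 0 ∧ IsAlgebraic ℚ κ ∧ One W (sb m hm (C κ * (sT / (cm σ s * r ^ l)))) := by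
  have : Fact l.Prime := ⟨hl⟩
  obtain ⟨c, x, y, hc, hca, hxa, hya, hxO, hyO, hx1, hy1, hxy⟩ := hs
  obtain ⟨c', x', y', hc', hca', hxa', hya', hxO', hyO', hx1', hy1', hxy'⟩ := hr
  have hx0 := ne_zero_of_coeff hx1
  have hy0 := ne_zero_of_coeff hy1
  have hx0' := ne_zero_of_coeff hx1'
  have hy0' := ne_zero_of_coeff hy1'
  have hσO : ∀ z ∈ O, IsAlgebraic ℚ z → σ z ∈ O := fun z h1 h2 => (hσ z h1 h2).1
  have hr : ∀ a : AO O, σ (a : ℂ) = (resO σ hσO a : ℂ) := fun a => rfl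
  have hr2 : ∀ a : AO O, resO σ hσO a - a ^ l ∈ H542.L3.IO O := fun a => (hσ a a.2.1 a.2.2).2
  obtain ⟨nx, hnx, hnxO, hnxc⟩ := norm_cong O l h2 hO σ _ hr hr2 ζ hζ x
    (fun k => ⟨hxO k, hxa k⟩)
  obtain ⟨ny, hny, hnyO, hnyc⟩ := norm_cong O l h2 hO σ _ hr hr2 ζ hζ y
    (fun k => ⟨hyO k, hya k⟩)
  have hX := frob_cong O l hO σ _ hr hr2 x' (fun k => ⟨hxO' k, hxa' k⟩)
  have hY := frob_cong O l hO σ _ hr hr2 y' (fun k => ⟨hyO' k, hya' k⟩)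
  have hcmO : ∀ z : LS, (∀ k, z.coeff k ∈ O) → (∀ k, IsAlgebraic ℚ (z.coeff k)) →
      ∀ k, (cm σ z).coeff k ∈ O := fun z h1 h2 k => hσO _ (h1 k) (h2 k)
  have hcm1 : ∀ z : LS, (∃ k, z.coeff k = 1) → ∃ k, (cm σ z).coeff k = 1 := by
    rintro z ⟨k, hk⟩
    exact ⟨k, by rw [coeff_cm, hk, map_one]⟩
  have hcm0 : ∀ z : LS, z ≠ 0 → cm σ z ≠ 0 := fun z hz => (map_ne_zero _).2 hz
  have hP := prod_mul (l := l) (hζ.ne_zero hl.ne_zero) hxy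
  rw [← hnx, ← hny] at hP
  have hDf : cm σ r * cm σ y' = C (σ c') * cm σ x' := by rw [← map_mul, hxy', map_mul, cm_C]
  have h4 := congrArg (fun z => sb l hl.pos (sb l hl.pos z)) hDf
  simp only [map_mul, sb_C] at h4
  have hTf : sT * (ny * sb l hl.pos (cm σ y')) =
      C c ^ l * C (σ c') * (nx * sb l hl.pos (cm σ x')) := by
    apply (sb l hl.pos).injective
    rw [map_pow] at hP
    simp only [map_mul, map_pow, sb_C]
    rw [hT, sb_sb' l l hl.pos hl.pos]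
    linear_combination (sb l hl.pos (sb l hl.pos (cm σ r)) *
      sb l hl.pos (sb l hl.pos (cm σ y'))) * hP + (C c ^ l * sb l hl.pos nx) * h4
  have hsf : cm σ s * cm σ y = C (σ c) * cm σ x := by rw [← map_mul, hxy, map_mul, cm_C]
  have hny0 : ny ≠ 0 := by
    rintro rfl
    rw [map_zero] at hny
    exact Finset.prod_ne_zero_iff.2 (fun j _ => (map_ne_zero _).2 hy0) hny.symm
  have hσc : σ c ≠ 0 := (map_ne_zero _).2 hc
  have hσc' : σ c' ≠ 0 := (map_ne_zero _).2 hc'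
  refine ⟨σ c * c' ^ l * (c ^ l * σ c')⁻¹, mul_ne_zero (mul_ne_zero hσc (pow_ne_zero _ hc'))
    (inv_ne_zero (mul_ne_zero (pow_ne_zero _ hc) hσc')),
    ((isAlg_map σ hca).mul (hca'.pow l)).mul ((hca.pow l).mul (isAlg_map σ hca')).inv, ?_⟩
  have heq := alg_id hTf hsf hxy' (C_ne hc) (C_ne hσc) (C_ne hc') (C_ne hσc') hny0
    (sb_ne_zero _ _ (hcm0 _ hy0')) (sb_ne_zero _ _ (hcm0 _ hx0')) (hcm0 _ hx0) (hcm0 _ hy0)
    hx0' hy0'
  have hκ : (C (σ c * c' ^ l * (c ^ l * σ c')⁻¹) : LS) =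
      C (σ c) * C c' ^ l * (C c ^ l * C (σ c'))⁻¹ := by
    simp only [map_mul, map_inv₀, map_pow]
  have o1 : One W (sb m hm nx * (sb m hm (cm σ x))⁻¹) :=
    ratio hW (hcmO x hxO hxa) (hcm1 x hx1) hnxc _ _
  have o2 : One W (sb m hm ny * (sb m hm (cm σ y))⁻¹) :=
    ratio hW (hcmO y hyO hya) (hcm1 y hy1) hnyc _ _
  have hneg : ∀ (a b : LS), (∀ k, O.valuation ((b - a).coeff k) < 1) →
      ∀ k, O.valuation ((a - b).coeff k) < 1 := by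
    intro a b h k
    have : (a - b).coeff k = -(b - a).coeff k := by
      rw [HahnSeries.coeff_sub, HahnSeries.coeff_sub]; ring
    rw [this, Valuation.map_neg]
    exact h k
  have o3 := ratio hW (sb_mem l hl.pos (hcmO x' hxO' hxa')) (sb_one_coeff _ _ (hcm1 x' hx1'))
    (hneg _ _ hX) m hm
  have o4 := ratio hW (sb_mem l hl.pos (hcmO y' hyO' hya')) (sb_one_coeff _ _ (hcm1 y' hy1'))
    (hneg _ _ hY) m hm
  rw [hκ, heq, map_mul, map_mul, map_mul, map_inv₀, map_inv₀, map_mul, map_mul, map_mul, map_mul,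
    map_inv₀, map_inv₀, map_inv₀, map_inv₀]
  exact ((o1.mul o2.inv).mul o3.inv).mul o4

theorem down {t : LS} {m : ℕ} {hm : 0 < m}
    (h : ∃ κ : ℂ, κ ≠ 0 ∧ IsAlgebraic ℚ κ ∧ One W (sb m hm (C κ * t))) :
    ∃ c : Qb, c ≠ 0 ∧ W.valuation (sb m hm (C (io c) * t) - 1) < 1 := by
  obtain ⟨κ, h0, h1, h2⟩ := h
  obtain ⟨c, rfl⟩ := H116.exists_preimage io h1
  exact ⟨c, fun e => h0 (by rw [e, map_zero]), h2⟩

end Ess

theorem ess' (hP : PRIM) : ESS := by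
  intro l hl h2 P hPp hlP
  obtain ⟨O, hO, h1, h3, h4⟩ := H116.exists_place (io : Qb →+* ℂ) P hPp hl hlP
  obtain ⟨W, hW⟩ := H619.L3.chev O
  refine ⟨O, W, hO, hW, fun g x y s s' r r' x0 y0 hs hr cs cr m hm => ?_⟩
  obtain ⟨σ, hσ⟩ := H116.exists_lift (io : Qb →+* ℂ) (g : Qb ≃+* Qb)
  have e : ∀ s s', Cf g s s' → s' = cm σ s := fun s s' h => by
    ext n
    obtain ⟨a, e1, e2⟩ := h n
    rw [coeff_cm, e1, e2]
    exact (hσ a).symm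
  have ps : Ess.Prm O s := hP x x0 1 s one_pos hs O
  have pr : Ess.Prm O r := hP y y0 1 r one_pos hr O
  rw [e s s' cs, e r r' cr]
  refine ⟨fun hg => Ess.down (Ess.ser_in hW σ (fun z hz ha => ?_) ps m hm),
    fun hg ζ hζ sT hT => Ess.down (Ess.ser_es hW hl h2 hO σ (fun z hz ha =>
      H116.place_congr h1 h3 h4 (σ := σ) (map_mul σ) hg hσ hz ha) ps pr m hm ζ hζ sT hT)⟩
  have h := (H116.place_congr h1 h3 h4 (σ := σ) (m := 1) (map_mul σ)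
    (fun x => by rw [pow_one]; exact hg x) hσ hz ha).2
  rwa [pow_one] at h

theorem ess (hP : PRIM) (_ : CF) : ESS := ess' hP

end Vale.Agent.P027M.M
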