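import Vale.Agent.P027M.M.Spec

/-! # P027, block M: Artin's theorem for the level fields -/

set_option autoImplicit false
set_option linter.all false

open UpperHalfPlane Matrix
open scoped MatrixGroups Manifold IntermediateField

noncomputable section

namespace Vale.Agent.P027M.M

open Vale.Agent.P022 Vale.Agent.P022.H218.L3 Vale.Agent.P022.H231.L3 Vale.Agent.P022.H236.L3
  Vale.Agent.P022.H542.L3

namespace ArtinAux

section abs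

variable {k K F : Type*} [Field k] [Field K] [Field F] [Algebra k K] [Algebra F K]
  (H : Subgroup (K ≃ₐ[k] K))

theorem abs_isGG (hF : ∀ x, (∃ a : F, algebraMap F K a = x) ↔ ∀ g ∈ H, g x = x) :
    IsGaloisGroup H F K where
  faithful := inferInstance
  commutes := ⟨fun h a x => by
    have h1 : (h : K ≃ₐ[k] K) (a • x) = a • (h : K ≃ₐ[k] K) x := by
      rw [Algebra.smul_def, Algebra.smul_def, map_mul, (hF _).1 ⟨a, rfl⟩ h h.2]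
    exact h1⟩
  isInvariant := ⟨fun b hb => (hF b).2 fun g hg => hb ⟨g, hg⟩⟩

theorem abs_galois [Finite H] (hF : ∀ x, (∃ a : F, algebraMap F K a = x) ↔ ∀ g ∈ H, g x = x) :
    FiniteDimensional F K ∧ IsGalois F K ∧ (∀ g : K ≃ₐ[F] K, ∃ h ∈ H, ∀ x, g x = h x) ∧
      ∀ h ∈ H, ∃ g : K ≃ₐ[F] K, ∀ x, g x = h x := by
  have hGG := abs_isGG H hF
  refine ⟨IsGaloisGroup.finiteDimensional H F K, IsGaloisGroup.isGalois H F K, fun g => ?_,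
    fun h hh => ?_⟩
  · obtain ⟨h, hh⟩ := (IsGaloisGroup.mulEquivAlgEquiv H F K).surjective g
    refine ⟨h, h.2, fun x => ?_⟩
    rw [← hh]
    rfl
  · exact ⟨AlgEquiv.ofRingEquiv (f := h.toRingEquiv) fun a => (hF _).1 ⟨a, rfl⟩ h hh, fun x => rfl⟩

end abs

variable (X : Mdl)

theorem cv_pg (γ : SL(2, ℤ)) (x : FF) : cv (X.pg γ x) = act γ⁻¹ (cv x) := by
  rw [Mdl.pg, X.pb_coe, pbz_SL]

theorem pg_mul (γ δ : SL(2, ℤ)) (x : FF) : X.pg (γ * δ) x = X.pg δ (X.pg γ x) := by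
  apply cv_inj
  rw [cv_pg, cv_pg, cv_pg, _root_.mul_inv_rev, map_mul]
  rfl

theorem pg_one (x : FF) : X.pg 1 x = x := by
  apply cv_inj
  rw [cv_pg, inv_one, map_one]
  rfl

theorem mem_L_iff {Γ : Subgroup SL(2, ℤ)} {x : FF} : x ∈ L Γ ↔ ∀ γ ∈ Γ, X.pg γ x = x := by
  rw [mem_L]
  constructor
  · intro h γ hγ
    apply cv_inj
    rw [cv_pg, h _ (Γ.inv_mem hγ)]
  · intro h γ hγ
    have := congrArg cv (h _ (Γ.inv_mem hγ))
    rwa [cv_pg, inv_inv] at this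

theorem pg_mem {Γ' : Subgroup SL(2, ℤ)} {γ : SL(2, ℤ)} (hn : ∀ δ ∈ Γ', γ * δ * γ⁻¹ ∈ Γ') {x : FF}
    (hx : x ∈ L Γ') : X.pg γ x ∈ L Γ' := by
  rw [mem_L_iff X] at hx ⊢
  intro δ hδ
  have e : γ * δ = γ * δ * γ⁻¹ * γ := by group
  rw [← pg_mul, e, pg_mul, hx _ (hn δ hδ)]

/-- the action of the normaliser on `L Γ'` -/
def resAct {Γ Γ' : Subgroup SL(2, ℤ)} (hn : ∀ γ ∈ Γ, ∀ δ ∈ Γ', γ * δ * γ⁻¹ ∈ Γ') :
    Γ →* (L Γ' ≃ₐ[Qb] L Γ') where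
  toFun γ :=
    { toFun := fun x => ⟨X.pg (γ : SL(2, ℤ))⁻¹ x, pg_mem X (hn _ (Γ.inv_mem γ.2)) x.2⟩
      invFun := fun x => ⟨X.pg γ x, pg_mem X (hn _ γ.2) x.2⟩
      left_inv := fun x => Subtype.ext (by
        show X.pg γ (X.pg (γ : SL(2, ℤ))⁻¹ x) = x
        rw [← pg_mul, inv_mul_cancel, pg_one])
      right_inv := fun x => Subtype.ext (by
        show X.pg (γ : SL(2, ℤ))⁻¹ (X.pg γ x) = x
        rw [← pg_mul, mul_inv_cancel, pg_one])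
      map_mul' := fun x y => Subtype.ext (map_mul (X.pg _) (x : FF) y)
      map_add' := fun x y => Subtype.ext (map_add (X.pg _) (x : FF) y)
      commutes' := fun c => Subtype.ext ((X.pg _).commutes c) }
  map_one' := by
    ext x
    show X.pg (1 : SL(2, ℤ))⁻¹ (x : FF) = x
    rw [inv_one, pg_one]
  map_mul' γ δ := by
    ext x
    show X.pg ((γ : SL(2, ℤ)) * δ)⁻¹ (x : FF) =
      X.pg (γ : SL(2, ℤ))⁻¹ (X.pg (δ : SL(2, ℤ))⁻¹ x)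
    rw [_root_.mul_inv_rev, pg_mul]

theorem resAct_apply {Γ Γ' : Subgroup SL(2, ℤ)} (hn : ∀ γ ∈ Γ, ∀ δ ∈ Γ', γ * δ * γ⁻¹ ∈ Γ')
    (γ : Γ) (x : L Γ') : ((resAct X hn γ x : L Γ') : FF) = X.pg (γ : SL(2, ℤ))⁻¹ x := rfl

theorem finite_range {Γ Γ' : Subgroup SL(2, ℤ)} [Γ'.FiniteIndex]
    (hn : ∀ γ ∈ Γ, ∀ δ ∈ Γ', γ * δ * γ⁻¹ ∈ Γ') : Finite (resAct X hn).range := by
  have h1 : Γ'.subgroupOf Γ ≤ (resAct X hn).ker := fun γ hγ => by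
    rw [MonoidHom.mem_ker]
    ext x
    exact (mem_L_iff X).1 x.2 _ (Γ'.inv_mem (Subgroup.mem_subgroupOf.1 hγ))
  have : (resAct X hn).ker.FiniteIndex := Subgroup.finiteIndex_of_le h1
  exact Finite.of_equiv _ (QuotientGroup.quotientKerEquivRange (resAct X hn)).toEquiv

theorem normal_case {Γ Γ' : Subgroup SL(2, ℤ)} (h : Γ' ≤ Γ) [Γ'.FiniteIndex]
    (hn : ∀ γ ∈ Γ, ∀ δ ∈ Γ', γ * δ * γ⁻¹ ∈ Γ') :
    letI := algL h
    FiniteDimensional (L Γ) (L Γ') ∧ IsGalois (L Γ) (L Γ') ∧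
      (∀ σ : L Γ' ≃ₐ[L Γ] L Γ', ∃ γ ∈ Γ, ∀ x : L Γ', ((σ x : L Γ') : FF) = X.pg γ x) ∧
      ∀ γ ∈ Γ, ∃ σ : L Γ' ≃ₐ[L Γ] L Γ', ∀ x : L Γ', ((σ x : L Γ') : FF) = X.pg γ x := by
  letI := algL h
  have hfin := finite_range X hn
  have hF : ∀ x : L Γ', (∃ a : L Γ, algebraMap (L Γ) (L Γ') a = x) ↔
      ∀ g ∈ (resAct X hn).range, g x = x := by
    intro x
    constructor
    · rintro ⟨a, rfl⟩ _ ⟨γ, rfl⟩
      exact Subtype.ext ((mem_L_iff X).1 a.2 _ (Γ.inv_mem γ.2))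
    · intro hx
      refine ⟨⟨x, (mem_L_iff X).2 fun γ hγ => ?_⟩, rfl⟩
      have := congrArg Subtype.val (hx (resAct X hn ⟨γ⁻¹, Γ.inv_mem hγ⟩) ⟨_, rfl⟩)
      rwa [resAct_apply, inv_inv] at this
  obtain ⟨h1, h2, h3, h4⟩ := abs_galois (resAct X hn).range hF
  refine ⟨h1, h2, fun σ => ?_, fun γ hγ => ?_⟩
  · obtain ⟨_, ⟨γ, rfl⟩, hg⟩ := h3 σ
    exact ⟨(γ : SL(2, ℤ))⁻¹, Γ.inv_mem γ.2, fun x => by rw [hg, resAct_apply]⟩
  · obtain ⟨σ, hσ⟩ := h4 (resAct X hn ⟨γ⁻¹, Γ.inv_mem hγ⟩) ⟨_, rfl⟩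
    exact ⟨σ, fun x => by rw [hσ, resAct_apply, inv_inv]⟩

end ArtinAux

open ArtinAux in
theorem artin (X : Mdl) : ARTIN X := by
  intro Γ Γ' h hfi
  refine ⟨?_, fun hn => (normal_case X h hn).2⟩
  have h1 : Γ'.normalCore ≤ Γ' := Subgroup.normalCore_le Γ'
  have h2 : Γ'.normalCore ≤ Γ := h1.trans h
  have h3 := (normal_case X h2 fun γ _ δ hδ => (Subgroup.normalCore_normal Γ').conj_mem δ hδ γ).1
  letI := algL h
  letI := algL h2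
  let f : L Γ' →ₗ[L Γ] L Γ'.normalCore :=
    { toFun := fun x => ⟨x, L_mono h1 x.2⟩
      map_add' := fun _ _ => rfl
      map_smul' := fun _ _ => rfl }
  exact FiniteDimensional.of_injective f fun x y e =>
    Subtype.ext (congrArg (fun z : L Γ'.normalCore => (z : FF)) e)

end Vale.Agent.P027M.M
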