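import Vale.Agent.P027M.M.Spec

/-! # P027, block M: the level fields are function fields -/

set_option autoImplicit false

open UpperHalfPlane
open scoped MatrixGroups IntermediateField

noncomputable section

namespace Vale.Agent.P027M.M

open Vale.Agent.P022 Vale.Agent.P022.H218.L3 P025H816

theorem Mdl.t_ne (X : Mdl) (a : Qb) : X.t ≠ algebraMap Qb FF a := by
  intro e
  obtain ⟨P, hP, h1, h2, -⟩ := X.hol
  rw [e, cv_alg, ← inc_const] at h1
  apply h2 UpperHalfPlane.I
  rw [← inc_injective _ _ h1]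
  exact deriv_const _ _

theorem Mdl.tL_trans (X : Mdl) {Γ : Subgroup SL(2, ℤ)} (h : Γ ≤ G0) :
    Transcendental Qb (X.tL h) := by
  intro ha
  obtain ⟨a, e⟩ := minpoly.mem_range_of_degree_eq_one _ _
    (IsAlgClosed.degree_eq_one_of_irreducible Qb (minpoly.irreducible ha.isIntegral))
  exact X.t_ne a (congrArg Subtype.val e).symm

theorem cffs (X : Mdl) (hA : ARTIN X) : CFFS := by
  intro Γ h hΓ
  refine ⟨inferInstance, X.tL h, X.tL_trans h, ?_⟩
  let _ := algL h
  have := (hA G0 Γ h hΓ).1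
  have m : ∀ y : L G0, algebraMap (L G0) (L Γ) y ∈ Qb⟮X.tL h⟯ := fun y => by
    rw [← IntermediateField.mem_lift, IntermediateField.lift_adjoin_simple]
    exact X.base ▸ y.2
  let _ : Algebra (L G0) Qb⟮X.tL h⟯ := ((algebraMap (L G0) (L Γ)).codRestrict _ m).toAlgebra
  have : IsScalarTower (L G0) Qb⟮X.tL h⟯ (L Γ) := .of_algebraMap_eq fun _ => rfl
  exact Module.Finite.of_restrictScalars_finite (L G0) _ _

end Vale.Agent.P027M.M
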