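import Vale.Agent.P027M.M.Prim
import Vale.Agent.P027M.M.Cffs
import Vale.Agent.P027M.N.Defs
import Vale.Agent.P025.R2.H816.BC3
import Vale.Agent.P022.H218.L3.Gal

/-! # P027, block M: base change to `ℂ`, automorphisms of `ℂ`, bounded denominators -/

set_option autoImplicit false
set_option linter.all false

open UpperHalfPlane Matrix
open scoped MatrixGroups IntermediateField PowerSeries

noncomputable section

namespace Vale.Agent.P027M.M

open Vale.Agent.P022 Vale.Agent.P022.H218.L3 Vale.Agent.P022.H231.L3 Vale.Agent.P022.H236.L3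
  Vale.Agent.P022.H542.L3 Vale.Agent.P019P P025H816

theorem cv_mem_MF {Γ : Subgroup SL(2, ℤ)} {x : FF} (hx : x ∈ L Γ) : cv x ∈ MF Γ := by
  obtain ⟨N, hN, h, -⟩ := mem_FS.1 (cv_mem x)
  have : NeZero N := ⟨hN.ne'⟩
  exact mem_MF_of_fixed Γ h hx

/-- the inclusion of the level field in the field of all modular functions -/
def cvL (Γ : Subgroup SL(2, ℤ)) : L Γ →+* MF Γ :=
  ((cv : FF →+* Mer).comp (L Γ).subtype).codRestrict (MF Γ) fun x => cv_mem_MF x.2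

theorem cvL_coe (Γ : Subgroup SL(2, ℤ)) (x : L Γ) : ((cvL Γ x : MF Γ) : Mer) = cv (x : FF) := rfl

/-- base change -/
def BC : Prop := ∀ N Γ, Mid N Γ →
  MF Γ = IntermediateField.adjoin ℂ ((fun x => cv x) '' (L Γ : Set FF)) ∧
  IsBC (io : Qb →+* ℂ) (cvL Γ) ∧ CFF ℂ (MF Γ)

/-- `y` is the conjugate of `x` under `σ` -/
def IsAut (N : ℕ) (σ : ℂ ≃+* ℂ) (x y : Mer) : Prop := ∃ s, ExM N s x ∧ ExM N (cm σ s) y

/-- automorphisms of `ℂ` act on the expansions -/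
def AUTC : Prop := ∀ (σ : ℂ ≃+* ℂ) (N : ℕ), Lv N → ∃ (g : GQ) (k : ℤ),
  (∀ a, σ (io a) = io (g a)) ∧ Cyc N g k ∧ IsCoprime k (N : ℤ) ∧
  (∀ x ∈ MF (Gt N), ∃ y ∈ MF (Gt N),
    ∀ γ γ', Tw N k γ γ' → IsAut N σ (act γ⁻¹ x) (act γ'⁻¹ y)) ∧
  ∀ H : Subgroup (ZMod N)ˣ, -1 ∈ H → ∀ x ∈ MF (GH N H), ∃ y ∈ MF (GH N H), IsAut N σ x y

/-- bounded denominators -/
def FRB : Prop := ∀ (M N : ℕ), 0 < M → 0 < N → ∀ x ∈ MF (CongruenceSubgroup.Gamma M),
  ∀ y : Qb⟦X⟧, ExM N (ioL (y : LaurentSeries Qb)) x → P027M.N.FrBD y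

namespace Bc

theorem abs1 {k K : Type} [Field k] [Field K] [Algebra k K] (p : K) [FiniteDimensional k⟮p⟯ K]
    [IsGalois k⟮p⟯ K] (E : IntermediateField k K) (hp : p ∈ E) (x : K)
    (h : ∀ σ : K ≃ₐ[k⟮p⟯] K, (∀ y ∈ E, σ y = y) → σ x = x) : x ∈ E := by
  let E' : IntermediateField k⟮p⟯ K :=
    IntermediateField.extendScalars (IntermediateField.adjoin_simple_le_iff.2 hp)
  have h1 : x ∈ E' := by
    rw [← IsGalois.fixedField_fixingSubgroup E', IntermediateField.mem_fixedField_iff]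
    exact fun σ hσ => h σ ((IntermediateField.mem_fixingSubgroup_iff _ _).1 hσ)
  exact h1

theorem abs1' {k Ω : Type} [Field k] [Field Ω] [Algebra k Ω] {K : IntermediateField k Ω} (p : K)
    (f1 : FiniteDimensional k⟮p⟯ K) (f2 : IsGalois k⟮p⟯ K) (S : Set Ω) (hp : (p : Ω) ∈ S) {x : Ω}
    (hx : x ∈ K) (h : ∀ σ : K ≃ₐ[k⟮p⟯] K, (∀ y : K, (y : Ω) ∈ S → σ y = y) →
      ((σ ⟨x, hx⟩ : K) : Ω) = x) : x ∈ IntermediateField.adjoin k S :=
  abs1 p ((IntermediateField.adjoin k S).comap K.val) (IntermediateField.subset_adjoin k S hp)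
    ⟨x, hx⟩ fun σ hσ => Subtype.ext
      (h σ fun y hy => hσ y (IntermediateField.subset_adjoin k S hy))

theorem abs2 {k Ω : Type} [Field k] [Field Ω] [Algebra k Ω] {A B : IntermediateField k Ω}
    (h : A ≤ B) (x : A) (y : B) (e : (y : Ω) = x) (f : FiniteDimensional k⟮y⟯ B) :
    FiniteDimensional k⟮x⟯ A := by
  letI : Algebra A B := (IntermediateField.inclusion h).toRingHom.toAlgebra
  haveI : IsScalarTower k A B := .of_algebraMap_eq fun _ => rfl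
  have h2 := finrank_adjoin_ext (k := k) (L := B) x
  obtain rfl : y = algebraMap A B x := Subtype.ext e
  have h3 : 0 < Module.finrank k⟮algebraMap A B x⟯ B := Module.finrank_pos
  rw [h2] at h3
  exact Module.finite_of_finrank_pos (Nat.pos_of_mul_pos_right h3)

theorem cv_pg (X : Mdl) (γ : SL(2, ℤ)) (x : FF) : cv (X.pg γ x) = act γ⁻¹ (cv x) := by
  rw [Mdl.pg, X.pb_coe, pbz_SL]

theorem t_trans (X : Mdl) {Γ : Subgroup SL(2, ℤ)} (h : Γ ≤ G0) :
    Transcendental ℂ (cvL Γ (X.tL h)) := by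
  intro ha
  obtain ⟨a, e⟩ := minpoly.mem_range_of_degree_eq_one _ _
    (IsAlgClosed.degree_eq_one_of_irreducible ℂ (minpoly.irreducible ha.isIntegral))
  have e1 : algebraMap ℂ Mer a = cv X.t := congrArg Subtype.val e
  obtain ⟨P, hP, h1, h2, -⟩ := X.hol
  rw [← e1, ← inc_const] at h1
  apply h2 UpperHalfPlane.I
  rw [← inc_injective _ _ h1]
  exact deriv_const _ _

theorem one (X : Mdl) (hG : GRP) (hF : FAITH X) {N : ℕ} {Γ : Subgroup SL(2, ℤ)} (h : Mid N Γ) :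
    MF Γ = IntermediateField.adjoin ℂ ((fun x => cv x) '' (L Γ : Set FF)) := by
  obtain ⟨fi, hn, m1, -⟩ := hG N h.lv
  refine le_antisymm (fun x hx => ?_) (IntermediateField.adjoin_le_iff.2 ?_)
  · obtain ⟨f1, f2, f3, -⟩ := galois (Γ := G0) (Γ' := Gt N) (fun γ _ => hn γ)
      (cvL _ (X.tL m1.hi)) X.baseC
    refine abs1' _ f1 f2 ((fun x => cv x) '' (L Γ : Set FF)) ⟨X.t, (X.tL h.hi).2, rfl⟩
      (MF_mono h.lo hx) fun σ hσ => ?_
    obtain ⟨γ, hγ, e⟩ := f3 σ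
    have h2 : γ⁻¹ ∈ Γ := by
      refine hF.2.1 N Γ h γ⁻¹ (inv_mem hγ) fun z hz => cv_inj ?_
      have h3 := hσ ⟨cv z, MF_mono h.lo (cv_mem_MF hz)⟩ ⟨z, hz, rfl⟩
      have h4 := e ⟨cv z, MF_mono h.lo (cv_mem_MF hz)⟩
      rw [h3] at h4
      rw [cv_pg, inv_inv]
      exact h4.symm
    rw [e]
    exact act_eq_self hx (inv_mem_iff.1 h2)
  · rintro _ ⟨z, hz, rfl⟩
    exact cv_mem_MF hz

theorem exists_g (σ : ℂ ≃+* ℂ) : ∃ g : GQ, ∀ a, σ (io a) = io (g a) := by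
  letI : Algebra Qb ℂ := (io : Qb →+* ℂ).toAlgebra
  haveI : IsScalarTower ℚ Qb ℂ := .of_algebraMap_eq fun a => (io.commutes a).symm
  haveI : Algebra.IsAlgebraic ℚ Qb := AlgebraicClosure.isAlgebraic ℚ
  haveI : IsAlgClosure ℚ Qb := ⟨inferInstance, inferInstance⟩
  haveI : Normal ℚ Qb := IsAlgClosure.normal ℚ Qb
  let s : ℂ ≃ₐ[ℚ] ℂ := AlgEquiv.ofRingEquiv (f := σ) fun a => by simp
  exact ⟨s.restrictNormal Qb, fun a => (s.restrictNormal_commutes Qb a).symm⟩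

theorem cf_cm {σ : ℂ ≃+* ℂ} {g : GQ} (h : ∀ a, σ (io a) = io (g a)) {s : LS} (hs : Alg s) :
    Cf g s (cm σ s) := fun n => by
  obtain ⟨a, ha⟩ := hs n
  exact ⟨a, ha, by rw [coeff_cm, ha, h]⟩

theorem aut_const (N : ℕ) (σ : ℂ ≃+* ℂ) (a : ℂ) :
    IsAut N σ (algebraMap ℂ Mer a) (algebraMap ℂ Mer (σ a)) :=
  ⟨_, ExM.const N a, by rw [cm_C]; exact ExM.const N _⟩

variable {N : ℕ} {σ : ℂ ≃+* ℂ} {x y x' y' : Mer}

theorem aut_add (h : IsAut N σ x y) (h' : IsAut N σ x' y') : IsAut N σ (x + x') (y + y') := by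
  obtain ⟨s, a, b⟩ := h
  obtain ⟨s', a', b'⟩ := h'
  exact ⟨_, a.add a', by rw [map_add]; exact b.add b'⟩

theorem aut_mul (h : IsAut N σ x y) (h' : IsAut N σ x' y') : IsAut N σ (x * x') (y * y') := by
  obtain ⟨s, a, b⟩ := h
  obtain ⟨s', a', b'⟩ := h'
  exact ⟨_, a.mul a', by rw [map_mul]; exact b.mul b'⟩

theorem aut_inv (hN : 0 < N) (h : IsAut N σ x y) : IsAut N σ x⁻¹ y⁻¹ := by
  obtain ⟨s, a, b⟩ := h
  exact ⟨_, a.inv hN.ne', by rw [map_inv₀]; exact b.inv hN.ne'⟩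

theorem aut_gal (X : Mdl) (hE : EXP) (hX : GALX X) (hG : GRP) (hN : Lv N) {g : GQ}
    (h : ∀ a, σ (io a) = io (g a)) {z : FF} (hz : z ∈ L (Gt N)) :
    IsAut N σ (cv z) (cv (X.gal g z)) := by
  obtain ⟨s, h1, h2⟩ := hE.2.2.1 N z hN.pos (hz _ (hG N hN).2.2.2.2.1)
  exact ⟨s, h1, hX.1 g z N s _ hN.pos h1 (cf_cm h h2)⟩

/-- a series with bounded denominators and non negative order as a power series -/
theorem exists_ps {a : LS} (ha : Prim.Bd a) (k : ℕ) (hk : ∀ n < -(k : ℤ), a.coeff n = 0) :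
    ∃ p : Qb⟦X⟧, P027M.N.BD p ∧ ioL (p : LaurentSeries Qb) = HahnSeries.single (k : ℤ) 1 * a := by
  obtain ⟨al, M, f, m⟩ := ha
  choose c hc using al
  refine ⟨PowerSeries.mk fun n => c (n - k), ⟨M.comap (io : Qb →+* ℂ).toIntAlgHom.toLinearMap,
    ?_, fun n => ?_⟩, ?_⟩
  · have : IsNoetherian ℤ M := isNoetherian_of_fg_of_noetherian _ f
    rw [← Module.Finite.iff_fg]
    exact Module.Finite.of_injective
      (((io : Qb →+* ℂ).toIntAlgHom.toLinearMap).restrict (q := M) fun x hx => hx)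
      fun x y e => Subtype.ext ((io : Qb →+* ℂ).injective (congrArg Subtype.val e))
  · rw [PowerSeries.coeff_mk]
    show io (c (n - k)) ∈ M
    rw [← hc]
    exact m _
  · ext n
    have e : (HahnSeries.single (k : ℤ) (1 : ℂ) * a).coeff n = a.coeff (n - k) := by
      conv_lhs => rw [← sub_add_cancel n k, HahnSeries.coeff_single_mul_add, one_mul]
    rw [e, coeff_ioL, PowerSeries.coeff_coe]
    split_ifs with h
    · rw [map_zero, hk _ (by omega)]
    · rw [PowerSeries.coeff_mk, hc, Int.natCast_natAbs, abs_of_nonneg (not_lt.1 h)]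

end Bc

theorem bc (X : Mdl) (hG : GRP) (hF : FAITH X) : BC := by
  intro N Γ h
  have h1 := Bc.one X hG hF h
  refine ⟨h1, ⟨fun a => Subtype.ext (cv_alg a), fun S hc hz => ?_⟩, ?_⟩
  · rw [eq_top_iff]
    rintro ⟨x, hx⟩ -
    have h2 : x ∈ S.map (MF Γ).subtype := by
      have hx' := h1 ▸ hx
      clear hx
      induction hx' using IntermediateField.adjoin_induction with
      | mem y hy =>
        obtain ⟨z, hz', rfl⟩ := hy
        exact ⟨_, hz ⟨z, hz'⟩, rfl⟩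
      | algebraMap a => exact ⟨_, hc a, rfl⟩
      | add y z _ _ hy hz => exact add_mem hy hz
      | inv y _ hy => exact inv_mem hy
      | mul y z _ _ hy hz => exact mul_mem hy hz
    obtain ⟨y, hy, rfl⟩ := h2
    exact hy
  · obtain ⟨fi, hn, m1, -⟩ := hG N h.lv
    obtain ⟨f1, -⟩ := galois (Γ := G0) (Γ' := Gt N) (fun γ _ => hn γ)
      (cvL _ (X.tL m1.hi)) X.baseC
    exact ⟨inferInstance, cvL _ (X.tL h.hi), Bc.t_trans X h.hi,
      Bc.abs2 (MF_mono h.lo) _ (cvL _ (X.tL m1.hi)) rfl f1⟩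

theorem autc (X : Mdl) (hB : BC) (hE : EXP) (hX : GALX X) (hS : SHIM X) (h3 : HEC3 X) (hG : GRP)
    (hs : SERG) : AUTC := by
  intro σ N hN
  obtain ⟨g, hg⟩ := Bc.exists_g σ
  obtain ⟨k, hk, hc⟩ := (hs N hN.pos g).1
  obtain ⟨fi, hn, m1, -, -, -, -, hH⟩ := hG N hN
  refine ⟨g, k, hg, hc, hk, fun x hx => ?_, fun H h1 x hx => ?_⟩
  · rw [(hB N _ m1).1] at hx
    induction hx using IntermediateField.adjoin_induction with
    | mem y hy =>
      obtain ⟨z, hz, rfl⟩ := hy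
      refine ⟨cv (X.gal g z), cv_mem_MF ((hS N hN g k hc).1 z hz), fun γ γ' h => ?_⟩
      rw [← Bc.cv_pg X, ← Bc.cv_pg X, ← (hS N hN g k hc).2 γ γ' h z hz]
      refine Bc.aut_gal X hE hX hG hN hg fun δ hδ => ?_
      have e := hz _ (hn γ δ hδ)
      rw [Bc.cv_pg]
      conv_rhs => rw [← e]
      rw [← AlgEquiv.mul_apply, ← map_mul, ← AlgEquiv.mul_apply, ← map_mul]
      congr 2
      group
    | algebraMap a =>
      refine ⟨_, IntermediateField.algebraMap_mem _ (σ a), fun γ γ' _ => ?_⟩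
      rw [AlgEquiv.commutes, AlgEquiv.commutes]
      exact Bc.aut_const N σ a
    | add y z _ _ hy hz =>
      obtain ⟨y', a, b⟩ := hy
      obtain ⟨z', a', b'⟩ := hz
      refine ⟨_, add_mem a a', fun γ γ' h => ?_⟩
      rw [map_add, map_add]
      exact Bc.aut_add (b γ γ' h) (b' γ γ' h)
    | inv y _ hy =>
      obtain ⟨y', a, b⟩ := hy
      refine ⟨_, inv_mem a, fun γ γ' h => ?_⟩
      rw [map_inv₀, map_inv₀]
      exact Bc.aut_inv hN.pos (b γ γ' h)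
    | mul y z _ _ hy hz =>
      obtain ⟨y', a, b⟩ := hy
      obtain ⟨z', a', b'⟩ := hz
      refine ⟨_, mul_mem a a', fun γ γ' h => ?_⟩
      rw [map_mul, map_mul]
      exact Bc.aut_mul (b γ γ' h) (b' γ γ' h)
  · have m := (hH H).2.1 h1
    rw [(hB N _ m).1] at hx
    induction hx using IntermediateField.adjoin_induction with
    | mem y hy =>
      obtain ⟨z, hz, rfl⟩ := hy
      exact ⟨cv (X.gal g z), cv_mem_MF (h3 N H hN h1 z hz g).1,
        Bc.aut_gal X hE hX hG hN hg (L_mono m.lo hz)⟩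
    | algebraMap a => exact ⟨_, IntermediateField.algebraMap_mem _ (σ a), Bc.aut_const N σ a⟩
    | add y z _ _ hy hz =>
      obtain ⟨y', a, b⟩ := hy
      obtain ⟨z', a', b'⟩ := hz
      exact ⟨_, add_mem a a', Bc.aut_add b b'⟩
    | inv y _ hy =>
      obtain ⟨y', a, b⟩ := hy
      exact ⟨_, inv_mem a, Bc.aut_inv hN.pos b⟩
    | mul y z _ _ hy hz =>
      obtain ⟨y', a, b⟩ := hy
      obtain ⟨z', a', b'⟩ := hz
      exact ⟨_, mul_mem a a', Bc.aut_mul b b'⟩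

theorem frb (X : Mdl) (h0 : SER0) (hG : GALX X) : FRB := by
  intro M N hM hN x hx y hy
  have hF : x ∈ FS := ⟨N * M, Nat.mul_pos hN hM, MF_mono (mul_comm M N ▸ gamma_le) hx, _,
    exM_period hM hN.ne' hy, (alg_iff.2 ⟨_, rfl⟩ : Alg _).sb M hM⟩
  obtain ⟨M', hM', hx'⟩ := hG.2.2.2.2.1 (mkF x hF)
  obtain ⟨s', e', q'⟩ := Prim.level X h0 hM' hx'
  have e1 := exM_period hM'.pos hN.ne' hy
  have e2 := exM_period hN hM'.pos.ne' e'
  rw [mul_comm] at e2
  have q : Prim.QB (sb M' hM'.pos (ioL (y : LaurentSeries Qb))) := by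
    rw [e1.unique (Nat.mul_pos hN hM'.pos).ne' e2]
    exact q'.sb N hN
  obtain ⟨a, b, ha, hb, b0, e⟩ := q.desc
  have z : ∀ (s : LS) (n : ℤ), n < -(s.order.natAbs : ℤ) → s.coeff n = 0 := fun s n h =>
    HahnSeries.coeff_eq_zero_of_lt_order (by omega)
  obtain ⟨p, hp, ep⟩ := Bc.exists_ps ha (a.order.natAbs + b.order.natAbs)
    fun n h => z a n (by rw [Nat.cast_add] at h; omega)
  obtain ⟨r, hr, er⟩ := Bc.exists_ps hb (a.order.natAbs + b.order.natAbs)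
    fun n h => z b n (by rw [Nat.cast_add] at h; omega)
  refine ⟨p, r, hp, hr, ?_, ?_⟩
  · rintro rfl
    rw [PowerSeries.coe_zero, map_zero] at er
    exact mul_ne_zero (HahnSeries.single_ne_zero one_ne_zero) b0 er.symm
  · apply HahnSeries.ofPowerSeries_injective (Γ := ℤ)
    apply ioL.injective
    rw [map_mul, map_mul, er, ep, ← e]
    ring

end Vale.Agent.P027M.M
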