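import Vale.Agent.P027M.M.CAsm

/-! # P027, block M, part C: the coefficientwise action -/

set_option autoImplicit false

open UpperHalfPlane Matrix
open scoped MatrixGroups Manifold IntermediateField

noncomputable section

namespace Vale.Agent.P027M.M

open Vale.Agent.P022 Vale.Agent.P022.H218.L3 Vale.Agent.P022.H231.L3 Vale.Agent.P022.H236.L3
  Vale.Agent.P022.H542.L3

theorem io_inj {a b : Qb} (h : io a = io b) : a = b := (io : Qb →+* ℂ).injective h

/-- `g` on the coefficients -/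
def gF (g : GQ) (x : LaurentSeries Qb) : LaurentSeries Qb := HahnSeries.map x (g : Qb →+* Qb)

theorem coeff_gF (g : GQ) (x : LaurentSeries Qb) (n : ℤ) : (gF g x).coeff n = g (x.coeff n) := rfl

theorem gF_mul (g : GQ) (x y : LaurentSeries Qb) : gF g (x * y) = gF g x * gF g y := by
  have hs : ∀ z : LaurentSeries Qb, (gF g z).support = z.support := by
    intro z
    ext n
    rw [HahnSeries.mem_support, HahnSeries.mem_support, coeff_gF]
    exact (map_eq_zero_iff g g.injective).not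
  ext n
  rw [coeff_gF, HahnSeries.coeff_mul, HahnSeries.coeff_mul, map_sum]
  refine Finset.sum_congr ?_ ?_
  · ext ij
    simp only [Finset.mem_antidiagonal, hs]
  · intro ij _
    rw [map_mul, coeff_gF, coeff_gF]

/-- `g` on the coefficients, as a ring map -/
def gL (g : GQ) : LaurentSeries Qb →+* LaurentSeries Qb where
  toFun := gF g
  map_one' := by
    ext n
    rw [coeff_gF, HahnSeries.coeff_one]
    split_ifs
    · exact map_one g
    · exact map_zero g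
  map_mul' := gF_mul g
  map_zero' := by
    ext n
    exact map_zero g
  map_add' x y := by
    ext n
    exact map_add g (x.coeff n) (y.coeff n)

theorem coeff_gL (g : GQ) (x : LaurentSeries Qb) (n : ℤ) : (gL g x).coeff n = g (x.coeff n) := rfl

variable {g h : GQ} {s s' u u' : LS}

theorem Cf.alg (H : Cf g s s') : Alg s := fun n => by
  obtain ⟨a, h1, -⟩ := H n
  exact ⟨a, h1⟩

theorem Cf.alg' (H : Cf g s s') : Alg s' := fun n => by
  obtain ⟨a, -, h1⟩ := H n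
  exact ⟨_, h1⟩

theorem cf_io (g : GQ) (z : LaurentSeries Qb) : Cf g (ioL z) (ioL (gL g z)) := fun _ => ⟨_, rfl, rfl⟩

theorem Cf.unique (H : Cf g s s') (H' : Cf g s u') : s' = u' := by
  ext n
  obtain ⟨a, h1, h2⟩ := H n
  obtain ⟨b, h3, h4⟩ := H' n
  rw [h2, h4, io_inj (h1.symm.trans h3)]

theorem Cf.rep (H : Cf g s s') : ∃ z, s = ioL z ∧ s' = ioL (gL g z) := by
  obtain ⟨z, rfl⟩ := alg_iff.1 H.alg
  exact ⟨z, rfl, H.unique (cf_io g z)⟩

theorem Cf.mul (H : Cf g s s') (H' : Cf g u u') : Cf g (s * u) (s' * u') := by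
  obtain ⟨z, rfl, rfl⟩ := H.rep
  obtain ⟨w, rfl, rfl⟩ := H'.rep
  rw [← map_mul, ← map_mul, ← map_mul]
  exact cf_io g _

theorem Cf.add (H : Cf g s s') (H' : Cf g u u') : Cf g (s + u) (s' + u') := by
  obtain ⟨z, rfl, rfl⟩ := H.rep
  obtain ⟨w, rfl, rfl⟩ := H'.rep
  rw [← map_add, ← map_add, ← map_add]
  exact cf_io g _

theorem Cf.sub (H : Cf g s s') (H' : Cf g u u') : Cf g (s - u) (s' - u') := by
  obtain ⟨z, rfl, rfl⟩ := H.rep
  obtain ⟨w, rfl, rfl⟩ := H'.rep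
  rw [← map_sub, ← map_sub, ← map_sub]
  exact cf_io g _

theorem Cf.inv (H : Cf g s s') : Cf g s⁻¹ s'⁻¹ := by
  obtain ⟨z, rfl, rfl⟩ := H.rep
  rw [← map_inv₀, ← map_inv₀, ← map_inv₀]
  exact cf_io g _

theorem Cf.div (H : Cf g s s') (H' : Cf g u u') : Cf g (s / u) (s' / u') := by
  rw [div_eq_mul_inv, div_eq_mul_inv]
  exact H.mul H'.inv

theorem cf_C (g : GQ) (a : Qb) : Cf g (HahnSeries.C (io a)) (HahnSeries.C (io (g a))) := by
  intro n
  by_cases h : n = 0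
  · subst h
    exact ⟨a, by simp, by simp⟩
  · refine ⟨0, ?_, ?_⟩
    · rw [map_zero, HahnSeries.C_apply, HahnSeries.coeff_single_of_ne h]
    · rw [map_zero, map_zero, HahnSeries.C_apply, HahnSeries.coeff_single_of_ne h]

theorem Cf.sb (H : Cf g s s') (m : ℕ) (hm : 0 < m) : Cf g (sb m hm s) (sb m hm s') := by
  intro n
  by_cases hd : (m : ℤ) ∣ n
  · obtain ⟨k, rfl⟩ := hd
    rw [coeff_sb_mul, coeff_sb_mul]
    exact H k
  · rw [coeff_sb_of_not_dvd _ _ _ _ hd, coeff_sb_of_not_dvd _ _ _ _ hd]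
    exact ⟨0, (map_zero io).symm, by rw [map_zero, map_zero]⟩

theorem Cf.trans (H : Cf g s s') (H' : Cf h s' u) : Cf (h * g) s u := by
  intro n
  obtain ⟨a, h1, h2⟩ := H n
  obtain ⟨b, h3, h4⟩ := H' n
  refine ⟨a, h1, ?_⟩
  rw [h4, ← io_inj (h2.symm.trans h3)]
  rfl

theorem Alg.cf_one (H : Alg s) : Cf 1 s s := fun n => by
  obtain ⟨a, h1⟩ := H n
  exact ⟨a, h1, h1⟩

/-- a function is determined by its expansion -/
theorem exM_inj {N : ℕ} {x y : Mer} (hx : ExM N s x) (hy : ExM N s y) : x = y := by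
  have h1 := hx.add ((ExM.const N (-1)).mul hy)
  have e : s + HahnSeries.C (-1 : ℂ) * s = 0 := by rw [map_neg, map_one]; ring
  rw [e, map_neg, map_one, neg_one_mul] at h1
  obtain ⟨a, b, ha, hb, G, H, h0, hG, hH, e1, e2⟩ := h1
  have hH0 : H ≠ 0 := hH.ne_zero hb h0
  have hG0 : G = 0 := by
    rcases div_eq_zero_iff.1 e2.symm with h | h
    · exact h
    · exact absurd h hH0
  subst hG0
  have : a = 0 := hG.hol_zero ha
  rw [(inc_eq_zero ha).2 this, zero_div] at e1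
  exact add_neg_eq_zero.1 e1

/-- conjugates at a fixed level -/
def GalN (g : GQ) (N : ℕ) (x y : Mer) : Prop := ∃ s s', ExM N s x ∧ ExM N s' y ∧ Cf g s s'

variable {x y z w : Mer} {N : ℕ}

theorem GalN.up (H : GalN g N x y) (hN : 0 < N) (M : ℕ) (hM : 0 < M) : GalN g (N * M) x y := by
  obtain ⟨s, s', h1, h2, h3⟩ := H
  exact ⟨_, _, exM_period hM hN.ne' h1, exM_period hM hN.ne' h2, h3.sb M hM⟩

theorem GalN.mul (H : GalN g N x y) (H' : GalN g N z w) : GalN g N (x * z) (y * w) := by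
  obtain ⟨s, s', h1, h2, h3⟩ := H
  obtain ⟨u, u', k1, k2, k3⟩ := H'
  exact ⟨_, _, h1.mul k1, h2.mul k2, h3.mul k3⟩

theorem GalN.add (H : GalN g N x y) (H' : GalN g N z w) : GalN g N (x + z) (y + w) := by
  obtain ⟨s, s', h1, h2, h3⟩ := H
  obtain ⟨u, u', k1, k2, k3⟩ := H'
  exact ⟨_, _, h1.add k1, h2.add k2, h3.add k3⟩

theorem GalN.inv (H : GalN g N x y) (hN : 0 < N) : GalN g N x⁻¹ y⁻¹ := by
  obtain ⟨s, s', h1, h2, h3⟩ := H
  exact ⟨_, _, h1.inv hN.ne', h2.inv hN.ne', h3.inv⟩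

theorem galN_const (g : GQ) (N : ℕ) (a : Qb) :
    GalN g N (algebraMap ℂ Mer (io a)) (algebraMap ℂ Mer (io (g a))) :=
  ⟨_, _, ExM.const N _, ExM.const N _, cf_C g a⟩

theorem IsGal.pair (H : IsGal g x y) (H' : IsGal h z w) :
    ∃ N, 0 < N ∧ GalN g N x y ∧ GalN h N z w := by
  obtain ⟨N, hN, h1⟩ := H
  obtain ⟨M, hM, h2⟩ := H'
  exact ⟨N * M, Nat.mul_pos hN hM, GalN.up h1 hN M hM, mul_comm M N ▸ GalN.up h2 hM N hN⟩

theorem IsGal.unique (H : IsGal g x y) (H' : IsGal g x z) : y = z := by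
  obtain ⟨N, hN, ⟨s, s', h1, h2, h3⟩, u, u', k1, k2, k3⟩ := H.pair H'
  obtain rfl := h1.unique hN.ne' k1
  obtain rfl := h3.unique k3
  exact exM_inj h2 k2

theorem IsGal.mul (H : IsGal g x y) (H' : IsGal g z w) : IsGal g (x * z) (y * w) := by
  obtain ⟨N, hN, h1, h2⟩ := H.pair H'
  exact ⟨N, hN, h1.mul h2⟩

theorem IsGal.add (H : IsGal g x y) (H' : IsGal g z w) : IsGal g (x + z) (y + w) := by
  obtain ⟨N, hN, h1, h2⟩ := H.pair H'
  exact ⟨N, hN, h1.add h2⟩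

theorem IsGal.trans (H : IsGal g x y) (H' : IsGal h y z) : IsGal (h * g) x z := by
  obtain ⟨N, hN, ⟨s, s', h1, h2, h3⟩, u, u', k1, k2, k3⟩ := H.pair H'
  obtain rfl := h2.unique hN.ne' k1
  exact ⟨N, hN, _, _, h1, k2, h3.trans k3⟩

theorem isGal_one (x : FF) : IsGal 1 (cv x) (cv x) := by
  obtain ⟨N, hN, -, s, h1, h2⟩ := cv_mem x
  exact ⟨N, hN, s, s, h1, h1, h2.cf_one⟩

theorem sGal (hE : SGex) : SGal := by
  choose φ hφ using hE
  have h1 : ∀ x, φ 1 x = x := fun x => cv_inj ((hφ 1 x).unique (isGal_one x))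
  have h2 : ∀ g h x, φ (g * h) x = φ g (φ h x) := fun g h x =>
    cv_inj ((hφ _ x).unique ((hφ h x).trans (hφ g _)))
  let e : GQ → (FF ≃+* FF) := fun g =>
    { toFun := φ g
      invFun := φ g⁻¹
      left_inv := fun x => by rw [← h2, inv_mul_cancel, h1]
      right_inv := fun x => by rw [← h2, mul_inv_cancel, h1]
      map_mul' := fun x y => cv_inj ((hφ g _).unique (by
        rw [map_mul, map_mul]; exact (hφ g x).mul (hφ g y)))
      map_add' := fun x y => cv_inj ((hφ g _).unique (by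
        rw [map_add, map_add]; exact (hφ g x).add (hφ g y))) }
  exact ⟨⟨⟨e, RingEquiv.ext h1⟩, fun g h => RingEquiv.ext (h2 g h)⟩, hφ⟩

theorem sGex (P : PreM) (hG : SGenL) (hL : SLev) (hX : SXs) : SGex := by
  intro g x
  obtain ⟨N, hN, hx⟩ := hL x
  have hx1 := hx 1 one_pos
  rw [mul_one, P.gen hG N hN] at hx1
  obtain ⟨-, X2, X3, X4⟩ := hX N hN.pos
  obtain ⟨k, hk, hc⟩ := X3 g
  obtain ⟨c, rfl⟩ := hN.four
  have e2 : ((4 * c / 2 : ℕ) : ℤ) = 2 * c := by
    rw [show 4 * c / 2 = 2 * c by omega]; push_cast; rfl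
  have e4 : ((4 * c / 4 : ℕ) : ℤ) = c := by rw [show 4 * c / 4 = c by omega]
  have eN : ((4 * c : ℕ) : ℤ) = 4 * c := by push_cast; rfl
  have ko : k % 2 = 1 := by
    obtain ⟨a, b, hab⟩ := hk
    rw [eN] at hab
    by_contra h0
    obtain ⟨j, rfl⟩ : ∃ j, k = 2 * j := ⟨k / 2, by omega⟩
    have : 2 * (a * j + b * (2 * c)) = 1 := by linear_combination hab
    omega
  have q1 : Cf g (Xs (4 * c) (p1 (4 * c))) (Xs (4 * c) (p1 (4 * c))) := by
    have := X4 g k hc (p1 (4 * c))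
    rwa [X2 ![p1 (4 * c) 0, k * p1 (4 * c) 1] (p1 (4 * c)) (Or.inl ?_)] at this
    rw [NZ, not_not, Fin.forall_fin_two, eN]
    obtain ⟨j, rfl⟩ : ∃ j, k = 2 * j + 1 := ⟨k / 2, by omega⟩
    refine ⟨by simp, j, ?_⟩
    simp only [p1, e2, Pi.sub_apply, cons_val_one, cons_val_zero]
    ring
  have q4 : Cf g (Xs (4 * c) (p4 (4 * c))) (Xs (4 * c) (p4 (4 * c))) := by
    have := X4 g k hc (p4 (4 * c))
    rwa [X2 ![p4 (4 * c) 0, k * p4 (4 * c) 1] (p4 (4 * c)) ?_] at this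
    rw [NZ, NZ, not_not, not_not, Fin.forall_fin_two, Fin.forall_fin_two, eN]
    obtain ⟨j, rfl | rfl⟩ : ∃ j, k = 4 * j + 1 ∨ k = 4 * j - 1 := ⟨(k + 1) / 4, by omega⟩
    · refine Or.inl ⟨by simp, j, ?_⟩
      simp only [p4, e4, Pi.sub_apply, cons_val_one, cons_val_zero]
      ring
    · refine Or.inr ⟨by simp [p4], j, ?_⟩
      simp only [p4, e4, Pi.add_apply, cons_val_one, cons_val_zero]
      ring
  have rx : ∀ v, NZ (4 * c) v → ExM (4 * c) ((Xs (4 * c) v - Xs (4 * c) (p1 (4 * c))) /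
      (Xs (4 * c) (p4 (4 * c)) - Xs (4 * c) (p1 (4 * c)))) (cv (P.r (4 * c) v)) := by
    intro v hv
    have := P.rex _ hN v hv 1
    simpa using this
  suffices h : ∃ y : FF, GalN g (4 * c) (cv x) (cv y) by
    obtain ⟨y, hy⟩ := h
    exact ⟨y, _, hN.pos, hy⟩
  clear hx
  induction hx1 using IntermediateField.adjoin_induction with
  | mem x hx =>
    obtain ⟨v, hv, rfl⟩ := hx
    have hv' : NZ (4 * c) ![v 0, k * v 1] := by
      intro h
      refine hv ?_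
      rw [Fin.forall_fin_two] at h ⊢
      exact ⟨h.1, hk.symm.dvd_of_dvd_mul_left h.2⟩
    exact ⟨_, _, _, rx v hv, rx _ hv', ((X4 g k hc v).sub q1).div (q4.sub q1)⟩
  | algebraMap a => exact ⟨algebraMap Qb FF (g a), by rw [cv_alg, cv_alg]; exact galN_const g _ a⟩
  | add x y _ _ ihx ihy =>
    obtain ⟨x', hx'⟩ := ihx
    obtain ⟨y', hy'⟩ := ihy
    exact ⟨x' + y', by rw [map_add, map_add]; exact hx'.add hy'⟩
  | inv x _ ih =>
    obtain ⟨x', hx'⟩ := ih
    exact ⟨x'⁻¹, by rw [map_inv₀, map_inv₀]; exact hx'.inv hN.pos⟩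
  | mul x y _ _ ihx ihy =>
    obtain ⟨x', hx'⟩ := ihx
    obtain ⟨y', hy'⟩ := ihy
    exact ⟨x' * y', by rw [map_mul, map_mul]; exact hx'.mul hy'⟩

end Vale.Agent.P027M.M
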