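import Vale.Agent.P027M.M.Spec
import Vale.Agent.P027M.M.CCf
import Vale.Agent.P022.H964.L3.Orb

/-! # P027, block M: the calculus of `Cf` -/

set_option autoImplicit false

noncomputable section

namespace Vale.Agent.P027M.M

open Vale.Agent.P022 Vale.Agent.P022.H542.L3

theorem cf2 : CF := by
  intro g
  obtain ⟨σ, hσ⟩ := H964.L3.exists_ext_C (io : Qb →+* ℂ) g
  have key : ∀ s s', Cf g s s' → s' = cm σ s := fun s s' h => by
    ext n
    obtain ⟨a, h1, h2⟩ := h n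
    rw [coeff_cm, h1, h2]
    exact (hσ a).symm
  refine ⟨fun _ _ _ h h' => h.unique h', fun s hs => ?_, fun s s' h => ⟨h.alg, h.alg', fun n => ?_, ?_⟩,
    fun _ _ _ _ h h' => h.trans h', fun _ _ _ _ h h' => ⟨h.mul h', h.add h', h.sub h', h.div h'⟩,
    cf_C g, fun s s' m hm => ⟨fun h n => ?_, fun h => h.sb m hm⟩, σ, hσ, key⟩
  · obtain ⟨z, rfl⟩ := alg_iff.1 hs
    exact ⟨_, cf_io g z⟩
  · obtain ⟨a, h1, h2⟩ := h n
    exact ⟨g a, h2, by rw [h1, ← AlgEquiv.mul_apply, inv_mul_cancel, AlgEquiv.one_apply]⟩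
  · rw [key s s' h, order_cm]
  · have h1 := h (m * n)
    rwa [coeff_sb_mul, coeff_sb_mul] at h1

end Vale.Agent.P027M.M
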