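import Vale.Agent.P027M.M.Spec
import Vale.Agent.P027M.TW.HA

/-! # P027, block M: operators on the Kummer classes of the level fields (statements, part 2) -/

set_option autoImplicit false

open UpperHalfPlane Matrix
open scoped MatrixGroups IntermediateField

noncomputable section

namespace Vale.Agent.P027M.M

open Vale.Agent.P022 Vale.Agent.P022.H218.L3 Vale.Agent.P022.H231.L3 Vale.Agent.P019P P025H816
  P025H492 Vale.Agent.P027M.TW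

section rep

variable {Γ Γ' Γ'' : Subgroup SL(2, ℤ)} [CFF Qb (L Γ)] [CFF Qb (L Γ')] [CFF Qb (L Γ'')] {m : ℕ}

/-- `f` is induced by the map `φ` of `FF` -/
def Rep (φ : FF → FF) (f : HA Qb (L Γ) m →+ HA Qb (L Γ') m) : Prop :=
  ∀ (x : (L Γ)ˣ) (hx : x ∈ divU Qb (L Γ) m), ∃ (y : (L Γ')ˣ) (hy : y ∈ divU Qb (L Γ') m),
    ((y : L Γ') : FF) = φ ((x : L Γ) : FF) ∧ f (cl x hx) = cl y hy

theorem Rep.unique {φ : FF → FF} {f g : HA Qb (L Γ) m →+ HA Qb (L Γ') m} (hf : Rep φ f)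
    (hg : Rep φ g) : f = g := by
  refine AddMonoidHom.ext fun z => ?_
  obtain ⟨x, hx, rfl⟩ := cl_surj z
  obtain ⟨y, hy, h1, h2⟩ := hf x hx
  obtain ⟨y', hy', h1', h2'⟩ := hg x hx
  obtain rfl : y = y' := Units.ext (Subtype.ext (h1.trans h1'.symm))
  exact h2.trans h2'.symm

theorem Rep.comp {φ ψ : FF → FF} {f : HA Qb (L Γ) m →+ HA Qb (L Γ') m}
    {g : HA Qb (L Γ') m →+ HA Qb (L Γ'') m} (hg : Rep ψ g) (hf : Rep φ f) :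
    Rep (fun x => ψ (φ x)) (g.comp f) := by
  intro x hx
  obtain ⟨y, hy, h1, h2⟩ := hf x hx
  obtain ⟨z, hz, h3, h4⟩ := hg y hy
  exact ⟨z, hz, by rw [h3, h1], by rw [AddMonoidHom.comp_apply, h2, h4]⟩

theorem Rep.congr {φ ψ : FF → FF} {f : HA Qb (L Γ) m →+ HA Qb (L Γ') m} (hf : Rep φ f)
    (h : ∀ x ∈ L Γ, x ≠ 0 → φ x = ψ x) : Rep ψ f := by
  intro x hx
  obtain ⟨y, hy, h1, h2⟩ := hf x hx
  exact ⟨y, hy, h1.trans (h _ (x : L Γ).2 fun h0 => x.ne_zero (Subtype.ext h0)), h2⟩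

theorem rep_id : Rep (fun x => x) (AddMonoidHom.id (HA Qb (L Γ) m)) :=
  fun x hx => ⟨x, hx, rfl, rfl⟩

theorem rep_iff {φ : FF → FF} {u : (L Γ)ˣ →* (L Γ')ˣ}
    (hu : ∀ x, ((u x : L Γ') : FF) = φ ((x : L Γ) : FF)) {f : HA Qb (L Γ) m →+ HA Qb (L Γ') m} :
    Rep φ f ↔ IsInd u f := by
  constructor
  · intro h x hx
    obtain ⟨y, hy, h1, h2⟩ := h x hx
    obtain rfl : y = u x := Units.ext (Subtype.ext (h1.trans (hu x).symm))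
    exact ⟨hy, h2⟩
  · intro h x hx
    obtain ⟨hy, h2⟩ := h x hx
    exact ⟨u x, hy, hu x, h2⟩

/-- `f` is induced by the norm -/
def IsNm (h : Γ' ≤ Γ) (f : HA Qb (L Γ') m →+ HA Qb (L Γ) m) : Prop :=
  letI := algL h
  IsInd (P027M.K.nU (L Γ)) f

end rep

/-- **the operators at level `(N, H)`**: `T l` is `T_l` for `l ∤ N`, `U_l` for `l ∣ N` -/
structure Act (X : Mdl) (N : ℕ) (H : Subgroup (ZMod N)ˣ) [CFF Qb (L (GH N H))] (m : ℕ) where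
  act : GQ →* AddMonoid.End (HA Qb (L (GH N H)) m)
  T : ℕ → AddMonoid.End (HA Qb (L (GH N H)) m)
  dia : (ZMod N)ˣ →* AddMonoid.End (HA Qb (L (GH N H)) m)
  act_rep : ∀ g, Rep (X.gal g) (act g)
  T_rep : ∀ l (hl : l.Prime), ¬ l ∣ N → ∀ d, IsDel 1 N l d → Rep (X.T hl.pos d) (T l)
  U_rep : ∀ l (hl : l.Prime), l ∣ N → Rep (X.U hl.pos) (T l)
  T_one : ∀ l, ¬ l.Prime → T l = 1
  dia_rep : ∀ (a : (ZMod N)ˣ) (γ : SL(2, ℤ)), (N : ℤ) ∣ γ 1 0 →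
    (a : ZMod N) = ((γ 1 1 : ℤ) : ZMod N) → Rep (X.pg γ) (dia a)

/-- the norm is the product of the conjugates -/
def NORMF (X : Mdl) : Prop := ∀ N Γ Γ' (h : Γ' ≤ Γ), Mid N Γ → Mid N Γ' →
  ∀ (I : Type) [Fintype I] (g : I → SL(2, ℤ)), (∀ i, g i ∈ Γ) →
    (∀ γ ∈ Γ, ∃! i, γ * (g i)⁻¹ ∈ Γ') → ∀ x : L Γ',
    letI := algL h
    ((Algebra.norm (L Γ) x : L Γ) : FF) = ∏ i, X.pg (g i) x

/-- the operators exist -/
def ACT (X : Mdl) : Prop := ∀ (N : ℕ) (H : Subgroup (ZMod N)ˣ), Lv N → -1 ∈ H →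
  ∀ [CFF Qb (L (GH N H))] (m : ℕ), Nonempty (Act X N H m)

/-- the operators commute -/
def COMM (X : Mdl) : Prop := ∀ (N : ℕ) (H : Subgroup (ZMod N)ˣ), Lv N → -1 ∈ H →
  ∀ [CFF Qb (L (GH N H))] (m : ℕ) (A : Act X N H m),
  (∀ l l', Commute (A.T l) (A.T l')) ∧ (∀ l a, Commute (A.T l) (A.dia a)) ∧
  (∀ l g, Commute (A.T l) (A.act g)) ∧ (∀ a g, Commute (A.dia a) (A.act g)) ∧
  ∀ a ∈ H, A.dia a = 1

/-- **the Eichler-Shimura relation** -/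
def ES (X : Mdl) : Prop := ∀ (N : ℕ) (H : Subgroup (ZMod N)ˣ), Lv N → -1 ∈ H →
  ∀ [CFF Qb (L (GH N H))] (m : ℕ) (A : Act X N H m) (l : ℕ), l.Prime → ¬ l ∣ N → ¬ l ∣ m →
  ∀ g, IsFrob l g → ∀ a : (ZMod N)ˣ, (a : ZMod N) = l →
    ∀ x, A.T l x = A.act g x + l • A.act g⁻¹ (A.dia a x)

/-- `g` lies in an inertia group at `l` -/
def IsInert (l : ℕ) (g : GQ) : Prop := ∃ P : Ideal (NumberField.RingOfIntegers Qb),
  P.IsPrime ∧ (l : NumberField.RingOfIntegers Qb) ∈ P ∧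
    ∀ x : NumberField.RingOfIntegers Qb, g • x - x ∈ P

/-- unramified outside `N m` -/
def UNR (X : Mdl) : Prop := ∀ (N : ℕ) (H : Subgroup (ZMod N)ˣ), Lv N → -1 ∈ H →
  ∀ [CFF Qb (L (GH N H))] (m : ℕ) (A : Act X N H m) (l : ℕ), l.Prime → ¬ l ∣ N → ¬ l ∣ m →
  ∀ g, IsInert l g → A.act g = 1

/-- open kernel -/
def OPEN (X : Mdl) : Prop := ∀ (N : ℕ) (H : Subgroup (ZMod N)ˣ), Lv N → -1 ∈ H →
  ∀ [CFF Qb (L (GH N H))] (m : ℕ) (A : Act X N H m), m ≠ 0 → IsOpen {g : GQ | A.act g = 1}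

/-- change of level: inclusion and norm -/
def LEV (X : Mdl) : Prop := ∀ (N N' : ℕ) (hd : N ∣ N') (H : Subgroup (ZMod N)ˣ)
  (H' : Subgroup (ZMod N')ˣ), Lv N → Lv N' → -1 ∈ H → -1 ∈ H' → ∀ h : GH N' H' ≤ GH N H,
  ∀ [CFF Qb (L (GH N H))] [CFF Qb (L (GH N' H'))] (m : ℕ) (A : Act X N H m) (A' : Act X N' H' m),
  ∃ (io : HA Qb (L (GH N H)) m →+ HA Qb (L (GH N' H')) m)
    (nm : HA Qb (L (GH N' H')) m →+ HA Qb (L (GH N H)) m), Rep (fun x => x) io ∧ IsNm h nm ∧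
    (∀ g x, io (A.act g x) = A'.act g (io x)) ∧ (∀ g y, nm (A'.act g y) = A.act g (nm y)) ∧
    (∀ l, ¬ l ∣ N' → (∀ x, io (A.T l x) = A'.T l (io x)) ∧ ∀ y, nm (A'.T l y) = A.T l (nm y)) ∧
    (∀ a x, io (A.dia (ZMod.unitsMap hd a) x) = A'.dia a (io x)) ∧
    (∀ a y, nm (A'.dia a y) = A.dia (ZMod.unitsMap hd a) (nm y)) ∧
    ∀ x, nm (io x) = (GH N' H').relIndex (GH N H) • x

/-- `al 1 q d none` is an Atkin-Lehner matrix at `q` for the level `N q` -/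
def IsAL (N q : ℕ) (d : SL(2, ℤ)) : Prop := IsDel 1 N q d ∧ (q : ℤ) ∣ d 1 1

/-- the preimage of `H` at level `N q`: `GH (N q) (up H q) = Γ_H(N) ∩ Γ₀(q)` -/
def up {N : ℕ} (H : Subgroup (ZMod N)ˣ) (q : ℕ) : Subgroup (ZMod (N * q))ˣ :=
  H.comap (ZMod.unitsMap (dvd_mul_right N q))

/-- the Atkin-Lehner operator -/
def ALK (X : Mdl) : Prop := ∀ (N q : ℕ) (hq : q.Prime) (H : Subgroup (ZMod N)ˣ), Lv N → -1 ∈ H →
  ¬ q ∣ N → ∀ d, IsAL N q d → ∀ [CFF Qb (L (GH (N * q) (up H q)))] (m : ℕ)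
    (A : Act X (N * q) (up H q) m),
  (∀ x ∈ L (GH (N * q) (up H q)), X.pb (al 1 q d none) (al_pos hq.pos d none) x ∈
    L (GH (N * q) (up H q)) ∧ ∀ g, X.gal g (X.pb (al 1 q d none) (al_pos hq.pos d none) x) =
      X.pb (al 1 q d none) (al_pos hq.pos d none) (X.gal g x)) ∧
  ∃ W : AddMonoid.End (HA Qb (L (GH (N * q) (up H q))) m),
    Rep (X.pb (al 1 q d none) (al_pos hq.pos d none)) W ∧ Function.Bijective W ∧
    (∀ g, Commute W (A.act g)) ∧ (∀ l, ¬ l ∣ N * q → Commute W (A.T l)) ∧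
    ∀ a, Commute W (A.dia a)

end Vale.Agent.P027M.M
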