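import Vale.Agent.P027M.M.Dp2
import Vale.Agent.P027M.M.Hk

/-! # P027, block M, part D': rows NORMF, ACT, COMM, OPEN -/

set_option linter.all false
set_option autoImplicit false

open UpperHalfPlane Matrix
open scoped MatrixGroups IntermediateField

noncomputable section

namespace Vale.Agent.P027M.M

open Vale.Agent.P022 Vale.Agent.P022.H218.L3 Vale.Agent.P022.H231.L3 Vale.Agent.P019P P025H816
  P025H492 Vale.Agent.P027M.TW Dp

theorem normf (X : Mdl) (hF : FAITH X) : NORMF X := by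
  intro N Γ Γ' h m m' I _ g h1 h2 x
  refine norm_eq X hF h m m' ⟨h1, fun γ hγ => (h2 γ hγ).exists, fun i j e => ?_⟩ x
  exact (h2 _ (h1 i)).unique (by simpa using Γ'.one_mem) e

namespace Dp

section
variable {Γ Γ' : Subgroup SL(2, ℤ)} [CFF Qb (L Γ)] [CFF Qb (L Γ')] {m : ℕ}

/-- a multiplicative map which keeps the level and the divisibility of the orders acts on classes -/
theorem exists_rep (φ : FF →* FF) (hL : ∀ x ∈ L Γ, φ x ∈ L Γ')
    (hD : ∀ x, DU Γ m x → DU Γ' m (φ x)) :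
    ∃ f : HA Qb (L Γ) m →+ HA Qb (L Γ') m, Rep φ f := by
  let ψ : L Γ →* L Γ' :=
    { toFun := fun x => ⟨φ x, hL x x.2⟩
      map_one' := Subtype.ext (map_one φ)
      map_mul' := fun x y => Subtype.ext (map_mul φ (x : FF) y) }
  refine ⟨ind (Units.map ψ) fun x hx => DU.mem (hD _ (DU.of_mem hx)), ?_⟩
  exact (rep_iff (u := Units.map ψ) fun _ => rfl).2 (isInd_ind _ _)

theorem rep_eq {φ ψ : FF → FF} {f g : HA Qb (L Γ) m →+ HA Qb (L Γ') m} (hf : Rep φ f) (hg : Rep ψ g)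
    (h : ∀ x ∈ L Γ, φ x = ψ x) : f = g :=
  (hf.congr fun x hx _ => h x hx).unique hg

theorem rep_comm {φ ψ : FF → FF} {f g : AddMonoid.End (HA Qb (L Γ) m)} (hf : Rep φ f) (hg : Rep ψ g)
    (h : ∀ x ∈ L Γ, φ (ψ x) = ψ (φ x)) : Commute f g :=
  rep_eq (hf.comp hg) (hg.comp hf) h

end

end Dp

theorem act' (X : Mdl) (hF : FAITH X) (hG : GRP) (hC : CFFS) (hX : GALX X) (h1 : HEC1 X)
    (h3 : HEC3 X) : ACT X := by
  intro N H hN hH _ m
  have hg : ∀ g, ∀ x ∈ L (GH N H), X.gal g x ∈ L (GH N H) := fun g x hx => (h3 N H hN hH x hx g).1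
  have nm := ((hG N hN).2.2.2.2.2.2.2 H).2.2
  have e1 : ∀ g : GQ, ∃ f : HA Qb (L (GH N H)) m →+ HA Qb (L (GH N H)) m, Rep (X.gal g) f :=
    fun g => exists_rep (X.gal g : FF →* FF) (hg g) fun x hx => hx.gal hX hg g
  have e2 : ∀ a : (ZMod N)ˣ, ∃ f : HA Qb (L (GH N H)) m →+ HA Qb (L (GH N H)) m,
      ∀ γ : SL(2, ℤ), (N : ℤ) ∣ γ 1 0 → (a : ZMod N) = ((γ 1 1 : ℤ) : ZMod N) → Rep (X.pg γ) f := by
    intro a
    obtain ⟨δ, d1, d2⟩ := exists_unit_row hN.pos a
    obtain ⟨f, hf⟩ := exists_rep (m := m) (X.pg δ : FF →* FF)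
      (fun x hx => (h1 N H hN x hx).1 δ d1) fun x hx => hx.pg (nm δ d1)
    refine ⟨f, fun γ g1 g2 => hf.congr fun x hx _ => (h1 N H hN x hx).2.1 δ γ d1 g1 ?_⟩
    rw [← ZMod.intCast_zmod_eq_zero_iff_dvd]
    push_cast
    rw [← d2, ← g2, sub_self]
  have e3 : ∀ l : ℕ, ∃ f : HA Qb (L (GH N H)) m →+ HA Qb (L (GH N H)) m,
      (∀ (hl : l.Prime), ¬ l ∣ N → ∀ d, IsDel 1 N l d → Rep (X.T hl.pos d) f) ∧
      (∀ (hl : l.Prime), l ∣ N → Rep (X.U hl.pos) f) ∧ (¬ l.Prime → f = AddMonoidHom.id _) := by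
    intro l
    by_cases hl : l.Prime
    · by_cases hd : l ∣ N
      · obtain ⟨f, hf⟩ := exists_rep (m := m) (X.U hl.pos)
          (fun x hx => ((h1 N H hN x hx).2.2.2 l hl hd).1) fun x hx => by
            rw [U_eq]; exact hx.hecke hF hG hC hN hH hl.pos (reps_U hl hd H)
        exact ⟨f, fun _ h => absurd hd h, fun _ _ => hf, fun h => absurd hl h⟩
      · obtain ⟨d, d1, d2, d3⟩ := exists_del hl hd
        obtain ⟨f, hf⟩ := exists_rep (m := m) (X.T hl.pos d)
          (fun x hx => ((h1 N H hN x hx).2.2.1 l hl hd d d3).1) fun x hx => by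
            rw [T_eq X hl.pos d d1]; exact hx.hecke hF hG hC hN hH hl.pos (reps_T hl H d d1 d2)
        exact ⟨f, fun _ _ d' hd' => hf.congr fun x hx _ =>
          ((h1 N H hN x hx).2.2.1 l hl hd d d3).2.1 d' hd', fun _ h => absurd h hd,
          fun h => absurd hl h⟩
    · exact ⟨AddMonoidHom.id _, fun h => absurd h hl, fun h => absurd h hl, fun _ => rfl⟩
  choose a ha using e1
  choose D hD using e2
  choose T hT using e3
  refine ⟨⟨⟨⟨a, ?_⟩, fun g h => ?_⟩, T, ⟨⟨D, ?_⟩, fun a b => ?_⟩, ha, fun l => (hT l).1,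
    fun l => (hT l).2.1, fun l => (hT l).2.2, hD⟩⟩
  · exact rep_eq (ha 1) rep_id fun x _ => by rw [map_one]; rfl
  · exact rep_eq (ha (g * h)) ((ha g).comp (ha h)) fun x _ => by rw [map_mul]; rfl
  · exact rep_eq (hD 1 1 (by simp) (by simp)) rep_id fun x _ => pg_one X x
  · obtain ⟨γ, g1, g2⟩ := exists_unit_row hN.pos a
    obtain ⟨δ, d1, d2⟩ := exists_unit_row hN.pos b
    refine rep_eq (hD (a * b) (δ * γ) ?_ ?_) ((hD a γ g1 g2).comp (hD b δ d1 d2))
      fun x _ => pg_mul X δ γ x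
    · rw [mul10]; exact dvd_add (d1.mul_right _) (g1.mul_left _)
    · rw [mul11, Units.val_mul, g2, d2]
      push_cast
      rw [(ZMod.intCast_zmod_eq_zero_iff_dvd _ _).2 d1]
      ring

theorem comm (X : Mdl) (h1 : HEC1 X) (h3 : HEC3 X) (h4 : HEC4 X) : COMM X := by
  intro N H hN hH _ m A
  have key : ∀ (l : ℕ) (ψ : FF → FF) (g : AddMonoid.End (HA Qb (L (GH N H)) m)), Rep ψ g →
      (∀ (hl : l.Prime), ¬ l ∣ N → ∀ d, IsDel 1 N l d → ∀ x ∈ L (GH N H),
        X.T hl.pos d (ψ x) = ψ (X.T hl.pos d x)) →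
      (∀ (hl : l.Prime), l ∣ N → ∀ x ∈ L (GH N H), X.U hl.pos (ψ x) = ψ (X.U hl.pos x)) →
      Commute (A.T l) g := by
    intro l ψ g hg hT hU
    by_cases hl : l.Prime
    · by_cases hd : l ∣ N
      · exact rep_comm (A.U_rep l hl hd) hg (hU hl hd)
      · obtain ⟨d, -, -, d3⟩ := exists_del hl hd
        exact rep_comm (A.T_rep l hl hd d d3) hg (hT hl hd d d3)
    · rw [A.T_one l hl]; exact Commute.one_left _
  refine ⟨fun l l' => ?_, fun l a => ?_, fun l g => ?_, fun a g => ?_, fun a ha => ?_⟩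
  · by_cases hl : l'.Prime
    · by_cases hd : l' ∣ N
      · exact key l _ _ (A.U_rep l' hl hd)
          (fun p q d r x hx => (h4 N H hN x hx).2.1 l l' p hl q hd d r)
          fun p q x hx => (h4 N H hN x hx).2.2 l l' p hl q hd
      · obtain ⟨d', -, -, d3⟩ := exists_del hl hd
        exact key l _ _ (A.T_rep l' hl hd d' d3)
          (fun p q d r x hx => (h4 N H hN x hx).1 l l' p hl q hd d d' r d3)
          fun p q x hx => ((h4 N H hN x hx).2.1 l' l hl p hd q d' d3).symm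
    · rw [A.T_one l' hl]; exact Commute.one_right _
  · obtain ⟨γ, g1, g2⟩ := exists_unit_row hN.pos a
    exact key l _ _ (A.dia_rep a γ g1 g2)
      (fun p q d r x hx => (((h1 N H hN x hx).2.2.1 l p q d r).2.2 γ g1).symm)
      fun p q x hx => (((h1 N H hN x hx).2.2.2 l p q).2 γ g1).symm
  · exact key l _ _ (A.act_rep g)
      (fun p q d r x hx => ((h3 N H hN hH x hx g).2.2.1 l p q d r).symm)
      fun p q x hx => ((h3 N H hN hH x hx g).2.2.2 l p q).symm
  · obtain ⟨γ, g1, g2⟩ := exists_unit_row hN.pos a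
    exact rep_comm (A.dia_rep a γ g1 g2) (A.act_rep g)
      fun x hx => ((h3 N H hN hH x hx g).2.1 γ g1).symm
  · obtain ⟨γ, g1, g2⟩ := exists_unit_row hN.pos a
    exact rep_eq (A.dia_rep a γ g1 g2) rep_id fun x hx => pg_self X hx ⟨g1, a, ha, g2⟩

theorem opn (X : Mdl) (hX : GALX X) : OPEN X := by
  intro N H hN hH _ m A hm
  haveI : Finite (HA Qb (L (GH N H)) m) := HA_finite (by exact_mod_cast hm)
  choose x hx e using fun y : HA Qb (L (GH N H)) m => cl_surj y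
  have ho : IsOpen (⋂ y, {g : GQ | X.gal g ((x y : L (GH N H)) : FF) = ((x y : L (GH N H)) : FF)}) :=
    isOpen_iInter_of_finite fun y => hX.2.2.2.2.2 _
  refine Subgroup.isOpen_of_mem_nhds A.act.ker (g := 1) (Filter.mem_of_superset (ho.mem_nhds ?_) ?_)
  · exact Set.mem_iInter.2 fun y => by
      show X.gal 1 _ = _
      rw [map_one]; rfl
  · intro g hg
    refine AddMonoidHom.ext fun y => ?_
    obtain ⟨z, hz, h1, h2⟩ := A.act_rep g (x y) (hx y)
    obtain rfl : z = x y := Units.ext (Subtype.ext (h1.trans (Set.mem_iInter.1 hg y)))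
    rw [e] at h2
    exact h2

end Vale.Agent.P027M.M
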