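import Vale.Agent.P027M.M.DpAct

/-! # P027, block M, part D': row LEV -/

set_option linter.all false
set_option autoImplicit false

open UpperHalfPlane Matrix
open scoped MatrixGroups IntermediateField

noncomputable section

namespace Vale.Agent.P027M.M

open Vale.Agent.P022 Vale.Agent.P022.H218.L3 Vale.Agent.P022.H231.L3 Vale.Agent.P019P P025H816
  P025H492 Vale.Agent.P027M.TW Dp

namespace Dp

theorem norm_semi {K K' : Type} [Field K] [Field K'] [Algebra K K'] (e₁ : K ≃+* K) (e₂ : K' ≃+* K')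
    (he : ∀ a, algebraMap K K' (e₁ a) = e₂ (algebraMap K K' a)) (x : K') :
    Algebra.norm K (e₂ x) = e₁ (Algebra.norm K x) := by
  rw [Algebra.norm_eq_of_equiv_equiv e₁ e₂ (RingHom.ext he) x, RingEquiv.apply_symm_apply]

/-- an automorphism of `FF` on a stable level field -/
def resL (s : FF ≃+* FF) {Γ : Subgroup SL(2, ℤ)} (h : ∀ x ∈ L Γ, s x ∈ L Γ)
    (h' : ∀ x ∈ L Γ, s.symm x ∈ L Γ) : L Γ ≃+* L Γ where
  toFun x := ⟨s x, h x x.2⟩
  invFun x := ⟨s.symm x, h' x x.2⟩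
  left_inv x := Subtype.ext (s.symm_apply_apply _)
  right_inv x := Subtype.ext (s.apply_symm_apply _)
  map_mul' x y := Subtype.ext (map_mul s (x : FF) y)
  map_add' x y := Subtype.ext (map_add s (x : FF) y)

variable (X : Mdl)

/-- the product over the cosets -/
def Nm {I : Type} [Fintype I] (c : I → SL(2, ℤ)) : FF →* FF where
  toFun x := ∏ i, X.pg (c i) x
  map_one' := by simp
  map_mul' x y := by simp [Finset.prod_mul_distrib]

theorem Nm_apply {I : Type} [Fintype I] (c : I → SL(2, ℤ)) (x : FF) :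
    Nm X c x = ∏ i, X.pg (c i) x := rfl

variable {X}

section
variable (hF : FAITH X) {N : ℕ} {Γ Γ' : Subgroup SL(2, ℤ)} (h : Γ' ≤ Γ) (m : Mid N Γ)
  (m' : Mid N Γ') {I : Type} [Fintype I] {c : I → SL(2, ℤ)} (hc : Reps Γ Γ' c)
include hF h m m' hc

theorem Nm_mem {x : FF} (hx : x ∈ L Γ') : Nm X c x ∈ L Γ := by
  letI := algL h
  have e : _ = Nm X c x := norm_eq X hF h m m' hc ⟨x, hx⟩
  exact e ▸ (Algebra.norm (L Γ) (⟨x, hx⟩ : L Γ')).2

theorem Nm_eq {J : Type} [Fintype J] {c' : J → SL(2, ℤ)} (hc' : Reps Γ Γ' c') {x : FF}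
    (hx : x ∈ L Γ') : Nm X c x = Nm X c' x :=
  (norm_eq X hF h m m' hc ⟨x, hx⟩).symm.trans (norm_eq X hF h m m' hc' ⟨x, hx⟩)

theorem Nm_semi (s : FF ≃+* FF) (h1 : ∀ x ∈ L Γ, s x ∈ L Γ) (h2 : ∀ x ∈ L Γ, s.symm x ∈ L Γ)
    (h3 : ∀ x ∈ L Γ', s x ∈ L Γ') (h4 : ∀ x ∈ L Γ', s.symm x ∈ L Γ') {x : FF} (hx : x ∈ L Γ') :
    Nm X c (s x) = s (Nm X c x) := by
  letI := algL h
  have e := norm_semi (resL s h1 h2) (resL s h3 h4) (fun _ => rfl) ⟨x, hx⟩
  have e1 := norm_eq X hF h m m' hc ⟨x, hx⟩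
  have e2 := norm_eq X hF h m m' hc (resL s h3 h4 ⟨x, hx⟩)
  rw [e] at e2
  exact e2.symm.trans (congrArg s e1)

end

theorem Nm_Nm {I J : Type} [Fintype I] [Fintype J] (c : I → SL(2, ℤ)) (t : J → SL(2, ℤ)) (x : FF) :
    Nm X c (Nm X t x) = Nm X (fun p : I × J => t p.2 * c p.1) x := by
  rw [Nm_apply, Nm_apply, Nm_apply, Fintype.prod_prod_type]
  refine Finset.prod_congr rfl fun i _ => ?_
  rw [map_prod]
  exact Finset.prod_congr rfl fun j _ => (pg_mul X _ _ x).symm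

theorem exists_low {l N : ℕ} (hl : l.Prime) (hd : ¬ l ∣ N) (H : Subgroup (ZMod N)ˣ) (γ : SL(2, ℤ)) :
    ∃ δ ∈ GH N H, (l : ℤ) ∣ (δ * γ) 1 0 := by
  have hc := cop hl hd
  by_cases h : (l : ℤ) ∣ γ 0 0
  · obtain ⟨x, y, e⟩ := hc
    refine ⟨mk 1 (-y) N (x * l) (by linear_combination e),
      mem_GH_one H dvd_rfl ⟨-y, by rw [mk11]; linear_combination e⟩, ?_⟩
    rw [mul10, mk10, mk11]
    exact dvd_add (h.mul_left _) ((Dvd.intro_left _ rfl).mul_right _)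
  · have h2 : IsCoprime (l : ℤ) (γ 0 0) :=
      ((Nat.prime_iff_prime_int.1 hl).irreducible.coprime_iff_not_dvd).2 h
    obtain ⟨x, y, e⟩ := hc.mul_right h2
    refine ⟨mk 1 0 (N * (-y * γ 1 0)) 1 (by ring),
      mem_GH_one H (Dvd.intro _ rfl) (by rw [mk11]; simp), ?_⟩
    rw [mul10, mk10, mk11]
    exact ⟨x * γ 1 0, by linear_combination (-γ 1 0) * e⟩

theorem reps_rl {l N N' : ℕ} (hl : l.Prime) (hd : ¬ l ∣ N) (hd' : ¬ l ∣ N') {H : Subgroup (ZMod N)ˣ}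
    {H' : Subgroup (ZMod N')ˣ} (h : GH N' H' ≤ GH N H) {J : Type} {c g : J → SL(2, ℤ)}
    (hc : Reps (GH N H ⊓ Gu l) (GH N' H' ⊓ Gu l) c) (hg : ∀ j, Rl l (c j) (g j)) :
    Reps (GH N H) (GH N' H') g := by
  refine ⟨fun j => (hg j).gh hl.pos (hc.mem j).1, fun γ hγ => ?_, fun i j e => ?_⟩
  · obtain ⟨δ, d1, d2⟩ := exists_low hl hd' H' γ
    obtain ⟨β, hβ⟩ := exists_rl' d2
    obtain ⟨i, hi⟩ := hc.cov β ⟨hβ.gh' hl.pos (cop hl hd) ((GH N H).mul_mem (h d1) hγ), hβ.gu⟩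
    have := (GH N' H').mul_mem ((GH N' H').inv_mem d1)
      ((hβ.mul ((hg i).inv hl.pos)).gh hl.pos hi.1)
    exact ⟨i, by rwa [← mul_assoc, inv_mul_cancel_left] at this⟩
  · have r := (hg i).mul ((hg j).inv hl.pos)
    exact hc.inj i j ⟨r.gh' hl.pos (cop hl hd') e, r.gu⟩

/-- the norm commutes with `T_l` -/
theorem Nm_T (hF : FAITH X) (hG : GRP) {l N N' : ℕ} (hl : l.Prime) (hN : N ∣ N') (hd' : ¬ l ∣ N')
    {H : Subgroup (ZMod N)ˣ} {H' : Subgroup (ZMod N')ˣ} (h : GH N' H' ≤ GH N H)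
    (m : Mid N' (GH N H)) (m' : Mid N' (GH N' H')) {I : Type} [Fintype I] {c : I → SL(2, ℤ)}
    (hc : Reps (GH N H) (GH N' H') c) (d : SL(2, ℤ)) (d1 : d 1 1 = l) (d2 : (N' : ℤ) ∣ d 1 0)
    {y : FF} (hy : y ∈ L (GH N' H')) : Nm X c (X.T hl.pos d y) = X.T hl.pos d (Nm X c y) := by
  have hd : ¬ l ∣ N := fun e => hd' (e.trans hN)
  have m3 := mid_gu hG m' hl.pos
  haveI := Mid.fin hG m3
  obtain ⟨c', hc'⟩ := exists_reps (GH N H ⊓ Gu l) (GH N' H' ⊓ Gu l)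
  letI := Fintype.ofFinite ((GH N H ⊓ Gu l : Subgroup SL(2, ℤ)) ⧸
    (GH N' H' ⊓ Gu l).subgroupOf (GH N H ⊓ Gu l))
  choose g hg using fun j => exists_rl (hc'.mem j).2
  have t1 := reps_T hl H d d1 ((Int.natCast_dvd_natCast.2 hN).trans d2)
  have t2 := reps_T hl H' d d1 d2
  have e : X.pb (dg l) (dg_pos hl.pos) (Nm X g y) = Nm X c' (X.pb (dg l) (dg_pos hl.pos) y) := by
    rw [Nm_apply, Nm_apply, map_prod]
    exact Finset.prod_congr rfl fun j _ => (pg_pb X _ _ (hg j) y).symm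
  rw [T_eq X hl.pos d d1, T_eq X hl.pos d d1, Nm_eq hF h m m' hc (reps_rl hl hd hd' h hc' hg) hy, e,
    ← Nm_apply, ← Nm_apply, Nm_Nm, Nm_Nm]
  exact Nm_eq hF (inf_le_left.trans h) (mid_up hG m hl.pos) m3 (hc.trans t2 h inf_le_left)
    (t1.trans hc' inf_le_left (inf_le_inf_right _ h)) (pb_mem X _ (cj_dg hl.pos H') hy)

end Dp

theorem lev (X : Mdl) (hF : FAITH X) (hG : GRP) (h1 : HEC1 X) (h3 : HEC3 X) : LEV X := by
  intro N N' hd H H' hN hN' hH hH' h _ _ m A A'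
  have hdz : (N : ℤ) ∣ N' := Int.natCast_dvd_natCast.2 hd
  have m' := mid_gh hG hN' hH'
  have m0 : Mid N' (GH N H) := ⟨hN', m'.lo.trans h, (mid_gh hG hN hH).hi⟩
  haveI := Mid.fin hG m'
  obtain ⟨c, hc⟩ := exists_reps (GH N H) (GH N' H')
  letI := Fintype.ofFinite (GH N H ⧸ (GH N' H').subgroupOf (GH N H))
  obtain ⟨io, hio⟩ := exists_rep (m := m) (MonoidHom.id FF) (fun x hx => L_mono h hx)
    fun x hx => hx.mono h
  replace hio : Rep (fun x => x) io := hio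
  obtain ⟨nm, hnm⟩ := exists_rep (m := m) (Nm X c) (fun x hx => Nm_mem hF h m0 m' hc hx)
    fun x hx => hx.norm hF h m0 m' hc
  have dia : ∀ (a : (ZMod N')ˣ) (γ : SL(2, ℤ)), (N' : ℤ) ∣ γ 1 0 →
      (a : ZMod N') = ((γ 1 1 : ℤ) : ZMod N') → Rep (X.pg γ) (A.dia (ZMod.unitsMap hd a)) := by
    intro a γ g1 g2
    refine A.dia_rep _ γ (hdz.trans g1) ?_
    rw [ZMod.unitsMap_val, g2, ZMod.cast_intCast hd]
  refine ⟨io, nm, hio, ?_, fun g => DFunLike.congr_fun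
      (rep_eq (hio.comp (A.act_rep g)) ((A'.act_rep g).comp hio) fun _ _ => rfl),
    fun g => DFunLike.congr_fun
      (rep_eq (hnm.comp (A'.act_rep g)) ((A.act_rep g).comp hnm) fun y hy => ?_),
    fun l hl' => ?_, fun a => ?_, fun a => ?_, fun x => ?_⟩
  · letI := algL h
    exact (rep_iff (u := P027M.K.nU (L (GH N H))) (φ := Nm X c)
      fun x : (L (GH N' H'))ˣ => by exact Dp.norm_eq X hF h m0 m' hc x.val).1 hnm
  · have inv : ∀ x, (X.gal g).symm x = X.gal g⁻¹ x := fun x => by rw [map_inv]; rfl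
    exact Nm_semi hF h m0 m' hc (X.gal g) (fun x hx => (h3 N H hN hH x hx g).1)
      (fun x hx => inv x ▸ (h3 N H hN hH x hx g⁻¹).1) (fun x hx => (h3 N' H' hN' hH' x hx g).1)
      (fun x hx => inv x ▸ (h3 N' H' hN' hH' x hx g⁻¹).1) hy
  · by_cases hl : l.Prime
    · obtain ⟨d, d1, d2, d3⟩ := exists_del hl hl'
      have r := A.T_rep l hl (fun e => hl' (e.trans hd)) d ⟨hdz.trans d3.1, d3.2.1, hdz.trans d3.2.2⟩
      have r' := A'.T_rep l hl hl' d d3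
      exact ⟨DFunLike.congr_fun (rep_eq (hio.comp r) (r'.comp hio) fun _ _ => rfl),
        DFunLike.congr_fun (rep_eq (hnm.comp r') (r.comp hnm) fun y hy =>
          Nm_T hF hG hl hd hl' h m0 m' hc d d1 d2 hy)⟩
    · rw [A.T_one l hl, A'.T_one l hl]
      exact ⟨fun _ => rfl, fun _ => rfl⟩
  · obtain ⟨γ, g1, g2⟩ := exists_unit_row hN'.pos a
    exact DFunLike.congr_fun
      (rep_eq (hio.comp (dia a γ g1 g2)) ((A'.dia_rep a γ g1 g2).comp hio) fun _ _ => rfl)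
  · obtain ⟨γ, g1, g2⟩ := exists_unit_row hN'.pos a
    have g3 : (N' : ℤ) ∣ (γ⁻¹) 1 0 := by rw [inv10]; exact g1.neg_right
    have inv : ∀ x, (X.pg γ : FF ≃+* FF).symm x = X.pg γ⁻¹ x := fun x => by
      rw [RingEquiv.symm_apply_eq]
      show x = X.pg γ (X.pg γ⁻¹ x)
      rw [← pg_mul, inv_mul_cancel, pg_one]
    refine DFunLike.congr_fun
      (rep_eq (hnm.comp (A'.dia_rep a γ g1 g2)) ((dia a γ g1 g2).comp hnm) fun y hy => ?_)
    exact Nm_semi hF h m0 m' hc (X.pg γ : FF ≃+* FF)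
      (fun x hx => (h1 N H hN x hx).1 γ (hdz.trans g1))
      (fun x hx => inv x ▸ (h1 N H hN x hx).1 γ⁻¹ (hdz.trans g3))
      (fun x hx => (h1 N' H' hN' x hx).1 γ g1) (fun x hx => inv x ▸ (h1 N' H' hN' x hx).1 γ⁻¹ g3) hy
  · obtain ⟨z, hz, rfl⟩ := cl_surj x
    obtain ⟨y, hy, e1, e2⟩ := (hnm.comp hio) z hz
    rw [hc.card, ← cl_pow]
    obtain rfl : y = z ^ Fintype.card (GH N H ⧸ (GH N' H').subgroupOf (GH N H)) := by
      refine Units.ext (Subtype.ext (e1.trans ?_))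
      show ∏ i, X.pg (c i) ((z : L (GH N H)) : FF) = _
      rw [Finset.prod_congr rfl fun i _ => pg_self X (z : L (GH N H)).2 (hc.mem i),
        Finset.prod_const, Finset.card_univ, Units.val_pow_eq_pow_val]
      rfl
    exact e2

end Vale.Agent.P027M.M
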