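import Vale.Agent.P027M.M.Hk

/-! # P027, block M: the Eichler-Shimura relation and unramifiedness on Kummer classes -/

set_option autoImplicit false

open Matrix
open scoped MatrixGroups

noncomputable section

namespace Vale.Agent.P027M.M

open Vale.Agent.P022 Vale.Agent.P022.H218.L3 Vale.Agent.P022.H231.L3 Vale.Agent.P022.H236.L3
  Vale.Agent.P022.H542.L3 Vale.Agent.P019P P025H816 P025H492 Vale.Agent.P027M.TW

namespace EsH

theorem exM_pow {N : ℕ} {s : LS} {x : Mer} (h : ExM N s x) (n : ℕ) : ExM N (s ^ n) (x ^ n) := by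
  have := ExM.prod (N := N) (Finset.range n) (X := fun _ => s) (x := fun _ => x) fun _ _ => h
  rwa [Finset.prod_const, Finset.prod_const, Finset.card_range] at this

theorem ex1 (hE : EXP) (hG : GRP) {N : ℕ} {H : Subgroup (ZMod N)ˣ} (hN : Lv N) (x : L (GH N H)) :
    ∃ s, ExM 1 s (cv (x : FF)) ∧ Alg s :=
  hE.2.2.1 1 x one_pos (x.2 _ (pow_mem ((hG N hN).2.2.2.2.2.2.2 H).1 1))

theorem ne_zero {Γ : Subgroup SL(2, ℤ)} (x : (L Γ)ˣ) : ((x : L Γ) : FF) ≠ 0 :=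
  fun h => x.ne_zero (Subtype.ext h)

theorem ne_two {N l : ℕ} (hN : Lv N) (h : ¬ l ∣ N) : l ≠ 2 := by
  rintro rfl
  exact h (Dvd.dvd.trans (by norm_num) hN.four)

/-- the key lemma, up to a constant, in the period `1` -/
theorem key' (hK : KEY) {N : ℕ} {H : Subgroup (ZMod N)ˣ} (hN : Lv N) (h1 : -1 ∈ H)
    [CFF Qb (L (GH N H))] {m p : ℕ} (hp : p.Prime) (hm : ¬ p ∣ m) (hpN : ¬ p ∣ N)
    {O : ValuationSubring ℂ} (hO : O.valuation (p : ℂ) < 1) {W : ValuationSubring LS}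
    (hW : Wok O W) {f : (L (GH N H))ˣ} (hf : f ∈ divU Qb (L (GH N H)) m) {s : LS}
    (hs : ExM 1 s (cv ((f : L (GH N H)) : FF))) {c : Qb} (hc : c ≠ 0)
    (hv : W.valuation (sb N hN.pos (HahnSeries.C (io c) * s) - 1) < 1) :
    f ∈ powU (L (GH N H)) m := by
  have m0 : 0 < m := Nat.pos_of_ne_zero fun e => hm (e ▸ dvd_zero p)
  obtain ⟨b, hb⟩ := IsAlgClosed.exists_pow_nat_eq c m0
  let k : (L (GH N H))ˣ := Units.mk0 (algebraMap Qb (L (GH N H)) c) ((_root_.map_ne_zero _).2 hc)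
  have hk : k ∈ powU (L (GH N H)) m :=
    mem_powU'.2 ⟨algebraMap Qb (L (GH N H)) b, by rw [← map_pow, hb]; rfl⟩
  have e : cv (((k * f : (L (GH N H))ˣ) : L (GH N H)) : FF) =
      algebraMap ℂ Mer (io c) * cv ((f : L (GH N H)) : FF) := by
    rw [← cv_alg, ← map_mul]
    rfl
  have h2 := exM_period hN.pos one_ne_zero ((ExM.const 1 (io c)).mul hs)
  rw [one_mul, ← e] at h2
  have h3 := hK N H hN h1 m p hp hm hpN O hO W hW (k * f) (mul_mem (powU_le m hk) hf) _ h2 hv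
  have h4 := mul_mem (inv_mem hk) h3
  rwa [inv_mul_cancel_left] at h4

end EsH

open EsH in
theorem unr (X : Mdl) (hK : KEY) (hS : ESS) (hE : EXP) (hC : CF) (hX : GALX X) (hG : GRP) :
    UNR X := by
  intro N H hN h1 _ m A l hl hlN hlm g ⟨P, hP, hlP, hg⟩
  obtain ⟨O, W, hO, hW, hS⟩ := hS l hl (ne_two hN hlN) P hP hlP
  refine AddMonoidHom.ext fun z => ?_
  obtain ⟨x, hx, rfl⟩ := cl_surj z
  obtain ⟨y, hy, e1, e2⟩ := A.act_rep g x hx
  obtain ⟨s, hs, as⟩ := ex1 hE hG hN (x : L (GH N H))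
  obtain ⟨s', hs'⟩ := (hC g).2.1 s as
  obtain ⟨c, c0, hv⟩ := (hS g _ _ s s' s s' (ne_zero x) (ne_zero x) hs hs hs' hs' N hN.pos).1 hg
  refine e2.trans ((cl_eq hy hx).2 ?_)
  refine key' hK hN h1 hl hlm hlN hO hW (div_mem hy hx) ?_ c0 hv
  have h2 := hX.1 g _ 1 s s' one_pos hs hs'
  rw [← e1] at h2
  have e : cv (((y / x : (L (GH N H))ˣ) : L (GH N H)) : FF) =
      cv ((y : L (GH N H)) : FF) / cv ((x : L (GH N H)) : FF) := by
    rw [← map_div₀, Units.val_div_eq_div_val]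
    rfl
  rw [e]
  exact h2.div one_ne_zero hs

open EsH in
theorem es (X : Mdl) (hK : KEY) (hS : ESS) (h2 : HEC2 X) (hE : EXP) (hC : CF) (hX : GALX X)
    (hG : GRP) : ES X := by
  intro N H hN h1 _ m A l hl hlN hlm g ⟨P, hP, hlP, hg⟩ a ha z
  obtain ⟨O, W, hO, hW, hS⟩ := hS l hl (ne_two hN hlN) P hP hlP
  obtain ⟨x, hx, rfl⟩ := cl_surj z
  obtain ⟨d, hd⟩ := IsDel.exists 1 N l (by
    rw [one_mul]
    exact Nat.isCoprime_iff_coprime.2 ((Nat.Prime.coprime_iff_not_dvd hl).2 hlN))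
  have had : (a : ZMod N) = ((d 1 1 : ℤ) : ZMod N) := by
    rw [ha, ← Int.cast_natCast, ZMod.intCast_eq_intCast_iff_dvd_sub]
    exact hd.2.2
  obtain ⟨yT, hT, eT, cT⟩ := A.T_rep l hl hlN d hd x hx
  obtain ⟨y1, hy1, e1, c1⟩ := A.act_rep g x hx
  obtain ⟨y2, hy2, e2, c2⟩ := A.dia_rep a d hd.1 had x hx
  obtain ⟨y3, hy3, e3, c3⟩ := A.act_rep g⁻¹ y2 hy2
  obtain ⟨s, hs, as⟩ := ex1 hE hG hN (x : L (GH N H))
  obtain ⟨s', hs'⟩ := (hC g).2.1 s as
  obtain ⟨r, hr, ar⟩ := ex1 hE hG hN (y3 : L (GH N H))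
  obtain ⟨r', hr'⟩ := (hC g).2.1 r ar
  obtain ⟨sT, hsT, -⟩ := ex1 hE hG hN (yT : L (GH N H))
  have a1 := hX.1 g _ 1 s s' one_pos hs hs'
  rw [← e1] at a1
  have a2 := hX.1 g _ 1 r r' one_pos hr hr'
  have e4 : X.gal g ((y3 : L (GH N H)) : FF) = X.pg d ((x : L (GH N H)) : FF) := by
    rw [e3, e2, ← RingAut.mul_apply, ← map_mul, mul_inv_cancel, map_one, RingAut.one_apply]
  rw [e4] at a2
  have hζ := Complex.isPrimitiveRoot_exp l hl.ne_zero
  have a3 := (h2 _ s r' sT l hl _ hζ hs).1 d a2 (eT ▸ hsT)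
  obtain ⟨c, c0, hv⟩ :=
    (hS g _ _ s s' r r' (ne_zero x) (ne_zero y3) hs hr hs' hr' N hN.pos).2 hg _ hζ sT a3
  have goal : cl yT hT = cl y1 hy1 + l • cl y3 hy3 := by
    rw [← cl_pow, ← cl_mul, cl_eq]
    refine key' hK hN h1 hl hlm hlN hO hW (div_mem hT (mul_mem hy1 (pow_mem hy3 l))) ?_ c0 hv
    have e : cv (((yT / (y1 * y3 ^ l) : (L (GH N H))ˣ) : L (GH N H)) : FF) =
        cv ((yT : L (GH N H)) : FF) /
          (cv ((y1 : L (GH N H)) : FF) * cv ((y3 : L (GH N H)) : FF) ^ l) := by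
      rw [← map_pow, ← map_mul, ← map_div₀, Units.val_div_eq_div_val, Units.val_mul,
        Units.val_pow_eq_pow_val]
      rfl
    rw [e]
    exact hsT.div one_ne_zero (a1.mul (exM_pow hr l))
  exact cT.trans (goal.trans (congrArg₂ (· + ·) c1.symm
    (congrArg (l • ·) (c3.symm.trans (congrArg (A.act g⁻¹) c2.symm)))))

end Vale.Agent.P027M.M
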