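import Vale.Agent.P027M.M.Spec

/-! # P027, block M, row EXP: calculus of expansions -/

set_option autoImplicit false
set_option linter.all false

open UpperHalfPlane Matrix Function.Periodic Filter
open scoped MatrixGroups Manifold IntermediateField

noncomputable section

namespace Vale.Agent.P027M.M

open Vale.Agent.P022 Vale.Agent.P022.H218.L3 Vale.Agent.P022.H231.L3 Vale.Agent.P022.H236.L3
  Vale.Agent.P022.H542.L3 Vale.Agent.P022.H236

namespace Exp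

theorem inj {N : ℕ} {s : LS} {x y : Mer} (h : ExM N s x) (h' : ExM N s y) : x = y := by
  obtain ⟨g, k, hg, hk, G, H, h0, hG, hH, rfl, rfl⟩ := h
  obtain ⟨g', k', hg', hk', G', H', h0', hG', hH', rfl, e⟩ := h'
  rw [div_eq_div_iff (hH.ne_zero hk h0) (hH'.ne_zero hk' h0')] at e
  have h1 := (hG.mul hH').sub (hG'.mul hH)
  rw [e, sub_self] at h1
  have h2 := h1.hol_zero (Hol.sub_mem (Hol.mul_mem hg hk') (Hol.mul_mem hg' hk))
  rw [div_eq_div_iff (inc_ne_zero hk h0) (inc_ne_zero hk' h0'), ← inc_mul, ← inc_mul]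
  exact inc_congr _ (sub_eq_zero.1 h2)

theorem exL_aff {N a d : ℕ} (b : ℤ) (ha : 0 < a) (hd : 0 < d) (hN : 0 < N) {x : LS} {f : ℍ → ℂ}
    (hf : ExL N x f) {u : ℍ → ℍ} (hu : ∀ τ : ℍ, ((u τ : ℍ) : ℂ) = (a * (τ : ℂ) + b) / d) :
    ExL (N * d) (sb a ha (rs (ze (N * d) b) (ze_ne _ _) x)) (fun τ => f (u τ)) := by
  obtain ⟨m, F, rfl, hF⟩ := hf
  have hz : ze (N * d) b ≠ 0 := ze_ne _ _
  have hNC : (N : ℂ) ≠ 0 := by exact_mod_cast hN.ne'
  have hdC : (d : ℂ) ≠ 0 := by exact_mod_cast hd.ne'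
  have e3 : HahnSeries.C (ze (N * d) b ^ m) * ls m (PowerSeries.rescale (ze (N * d) b) F) =
      ls m (ze (N * d) b ^ m • PowerSeries.rescale (ze (N * d) b) F) := by
    rw [PowerSeries.smul_eq_C_mul, ← ls_C, ls_mul, zero_add]
  rw [rs_apply, rsF_ls hz, e3, sb_ls ha.ne' ha]
  have him : ∀ τ, (u τ).im = (a / d : ℝ) * τ.im := by
    intro τ
    have := congrArg Complex.im (hu τ)
    rw [← Complex.ofReal_natCast d, Complex.div_ofReal_im] at this
    simp only [coe_im, Complex.add_im, Complex.mul_im, Complex.natCast_re, Complex.natCast_im,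
      Complex.intCast_im, zero_mul, add_zero] at this
    rw [this]
    ring
  have h1 := (tendsto_scale (div_pos (by exact_mod_cast ha) (by exact_mod_cast hd)) him).eventually hF
  refine Exq.exL ?_
  filter_upwards [h1] with τ h
  have e : qParam N (u τ) = ze (N * d) b * qParam (N * d : ℕ) τ ^ a := by
    rw [hu, ze, qParam, qParam, ← Complex.exp_nat_mul, ← Complex.exp_add]
    congr 1
    push_cast
    field_simp
    ring
  rw [e] at h
  rw [ev_expand_iff]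
  have h3 := h.rescale.smul (ze (N * d) b ^ m)
  have e2 : ze (N * d) b ^ m * (f (u τ) * (ze (N * d) b * qParam (N * d : ℕ) τ ^ a) ^ (-m)) =
      f (u τ) * qParam (N * d : ℕ) τ ^ (-((a : ℤ) * m)) := by
    rw [mul_zpow, _root_.zpow_neg (ze (N * d) b), ← _root_.zpow_natCast, ← _root_.zpow_mul, mul_neg]
    have := zpow_ne_zero m hz
    field_simp
  rw [e2] at h3
  exact h3

theorem aff {N a d : ℕ} (b : ℤ) (ha : 0 < a) (hd : 0 < d) (hN : 0 < N)
    (hA : 0 < (!![(a : ℤ), b; 0, (d : ℤ)] : M2).det) {s : LS} {x : Mer} (h : ExM N s x) :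
    ExM (N * d) (sb a ha (rs (ze (N * d) b) (ze_ne _ _) s))
      (pbz !![(a : ℤ), b; 0, (d : ℤ)] hA x) := by
  obtain ⟨g, k, hg, hk, G, H, h0, hG, hH, rfl, rfl⟩ := h
  obtain ⟨hg', hk', n, e⟩ := pb_pbz _ hA g k hg hk h0
  have hu : ∀ τ : ℍ, ((gl _ hA • τ : ℍ) : ℂ) = (a * (τ : ℂ) + b) / d := fun τ => by
    rw [coe_gl_smul]
    simp
  rw [e, map_div₀, map_div₀]
  exact (exL_aff b ha hd hN hG hu).exM hg' hk' n (exL_aff b ha hd hN hH hu)

theorem T_coe (b : ℤ) (τ : ℍ) : ((ModularGroup.T ^ b • τ : ℍ) : ℂ) = τ + b :=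
  ModularGroup.coe_T_zpow_smul_eq τ

theorem act_inc (γ : SL(2, ℤ)) {f : ℍ → ℂ} (hf : f ∈ Hol) :
    act γ⁻¹ (inc f hf) = inc (fun τ => f (γ • τ)) (comp_mem γ hf) := by
  unfold inc
  rw [act_algebraMap]
  congr 1
  exact Subtype.ext (funext fun τ => by rw [actH_apply, inv_inv])

/-- translation -/
theorem tr {N : ℕ} (hN : 0 < N) (b : ℤ) {s : LS} {x : Mer} (h : ExM N s x) :
    ExM N (rs (ze N b) (ze_ne _ _) s) (act (ModularGroup.T ^ b)⁻¹ x) := by
  obtain ⟨g, k, hg, hk, G, H, h0, hG, hH, rfl, rfl⟩ := h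
  rw [map_div₀, map_div₀, act_inc, act_inc]
  refine (hG.tauAdd hN.ne' b (T_coe b)).exM _ _ (fun e => ?_) (hH.tauAdd hN.ne' b (T_coe b))
  have := act_inc (ModularGroup.T ^ b) hk
  rw [(inc_eq_zero _).2 e, map_eq_zero] at this
  exact inc_ne_zero hk h0 this

theorem exL_down {N M : ℕ} (hM : 0 < M) (hN : 0 < N) {x : LS} {f : ℍ → ℂ}
    (hf : ExL (N * M) (sb M hM x) f) : ExL N x f := by
  rw [ls_rep x] at hf ⊢
  rw [sb_ls hM.ne' hM] at hf
  refine Exq.exL ?_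
  filter_upwards [hf.exq] with τ h
  have hNC : (N : ℂ) ≠ 0 := by exact_mod_cast hN.ne'
  have hMC : (M : ℂ) ≠ 0 := by exact_mod_cast hM.ne'
  have e : qParam N τ = qParam (N * M : ℕ) τ ^ M := by
    rw [qParam, qParam, ← Complex.exp_nat_mul]
    congr 1
    push_cast
    field_simp
  rw [ev_expand_iff] at h
  rw [e, ← _root_.zpow_natCast (qParam (N * M : ℕ) τ) M, ← _root_.zpow_mul, mul_neg,
    _root_.zpow_natCast]
  exact h

theorem ze_pow {N M : ℕ} (hN : 0 < N) (hM : 0 < M) (j : ℤ) :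
    ze (N * M) (N * j) = Complex.exp (2 * Real.pi * Complex.I / M) ^ j := by
  have hNC : (N : ℂ) ≠ 0 := by exact_mod_cast hN.ne'
  have hMC : (M : ℂ) ≠ 0 := by exact_mod_cast hM.ne'
  rw [ze, ← Complex.exp_int_mul]
  congr 1
  push_cast
  field_simp

/-- a series which is fixed by a primitive root of unity -/
theorem exists_sb {M : ℕ} (hM : 0 < M) {ζ : ℂ} (hζ : IsPrimitiveRoot ζ M) {z : LS}
    (h : rsF ζ z = z) : ∃ y, sb M hM y = z := by
  refine ⟨HahnSeries.ofSuppBddBelow (fun n => z.coeff (M * n)) ⟨-|z.order|, fun n hn => ?_⟩, ?_⟩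
  · have h1 := HahnSeries.order_le_of_coeff_ne_zero hn
    have h2 := neg_abs_le z.order
    have h3 := abs_nonneg z.order
    by_contra c
    have h4 : (1 : ℤ) * (-n) ≤ M * (-n) := mul_le_mul_of_nonneg_right (by omega) (by omega)
    rw [mul_neg (M : ℤ)] at h4
    omega
  · ext n
    by_cases d : (M : ℤ) ∣ n
    · obtain ⟨k, rfl⟩ := d
      rw [coeff_sb_mul]
      rfl
    · rw [coeff_sb_of_not_dvd _ _ _ _ d]
      have h1 : ζ ^ n * z.coeff n = z.coeff n := congrArg (fun w : LS => w.coeff n) h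
      by_contra c
      exact d ((hζ.zpow_eq_one_iff_dvd n).1 ((mul_eq_right₀ (Ne.symm c)).1 h1))

theorem rsF_rsF {a b : ℂ} (z : LS) : rsF a (rsF b z) = rsF (a * b) z := by
  ext n
  rw [coeff_rsF, coeff_rsF, coeff_rsF, mul_zpow, mul_assoc]

theorem rsF_one (z : LS) : rsF 1 z = z := by
  ext n
  rw [coeff_rsF, _root_.one_zpow, one_mul]

theorem down {N M : ℕ} (hM : 0 < M) (hN : 0 < N) {s : LS} {x : Mer}
    (h : ExM (N * M) (sb M hM s) x) : ExM N s x := by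
  obtain ⟨g, k, hg, hk, G, H, h0, hG, hH, rfl, e⟩ := h
  have hζ := Complex.isPrimitiveRoot_exp M hM.ne'
  obtain ⟨ζ, eζ⟩ : ∃ ζ, ζ = Complex.exp (2 * Real.pi * Complex.I / M) := ⟨_, rfl⟩
  rw [← eζ] at hζ
  have z0 := hζ.ne_zero hM.ne'
  have H0 := hH.ne_zero hk h0
  obtain ⟨L, rfl⟩ : ∃ L, M = L + 1 := ⟨M - 1, by omega⟩
  let kj : ℕ → ℍ → ℂ := fun j τ => k (ModularGroup.T ^ ((N : ℤ) * j) • τ)
  have m : ∀ j, kj j ∈ Hol := fun j => comp_mem _ hk
  have t : ∀ j : ℕ, ExL (N * (L + 1)) (rsF (ζ ^ j) H) (kj j) := fun j => by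
    have := hH.tauAdd (Nat.mul_pos hN hM).ne' ((N : ℤ) * j) (T_coe _)
    have e1 := ze_pow hN hM j
    rw [← eζ, _root_.zpow_natCast] at e1
    rw [← e1]
    exact this
  have p := ExL.prod (Finset.range L) fun j _ => t (j + 1)
  have pm := hol_prod (Finset.range L) fun j _ => m (j + 1)
  have n1 : ∀ j : ℕ, rsF (ζ ^ j) H ≠ 0 := fun j c => by
    rw [← rs_apply _ (pow_ne_zero _ z0), map_eq_zero] at c
    exact H0 c
  have P0 : ∏ j ∈ Finset.range L, rsF (ζ ^ (j + 1)) H ≠ 0 := Finset.prod_ne_zero_iff.2 fun j _ => n1 _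
  have p0 : ∏ j ∈ Finset.range L, kj (j + 1) ≠ 0 := fun c => by
    rw [c] at p
    exact P0 (p.unique (Nat.mul_pos hN hM).ne' (ExL.zero _))
  have e0 : H * ∏ j ∈ Finset.range L, rsF (ζ ^ (j + 1)) H =
      ∏ j ∈ Finset.range (L + 1), rsF (ζ ^ j) H := by
    rw [Finset.prod_range_succ', pow_zero, rsF_one, mul_comm]
  obtain ⟨H₀, e1⟩ := exists_sb hM hζ (z := H * ∏ j ∈ Finset.range L, rsF (ζ ^ (j + 1)) H) (by
    conv_lhs => rw [e0, ← rs_apply _ z0, map_prod]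
    simp only [rs_apply, rsF_rsF, ← pow_succ']
    rw [Finset.prod_range_succ, hζ.pow_eq_one, rsF_one, mul_comm])
  have e2 : G * ∏ j ∈ Finset.range L, rsF (ζ ^ (j + 1)) H = sb (L + 1) hM (s * H₀) := by
    rw [map_mul, e1, e, ← mul_assoc, div_mul_cancel₀ _ H0]
  have a1 := hG.mul p
  have a2 := hH.mul p
  rw [e2] at a1
  rw [← e1] at a2
  have n2 : H₀ ≠ 0 := fun c => by
    rw [c, map_zero] at e1
    exact mul_ne_zero H0 P0 e1.symm
  have n3 := inc_ne_zero pm p0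
  have r := (exL_down hM hN a1).exM (Hol.mul_mem hg pm) (Hol.mul_mem hk pm) (fun c => by
    rw [← inc_eq_zero (Hol.mul_mem hk pm), inc_mul hk pm] at c
    exact mul_ne_zero (inc_ne_zero hk h0) n3 c) (exL_down hM hN a2)
  rwa [mul_div_cancel_right₀ _ n2, inc_mul hg pm, inc_mul hk pm, mul_div_mul_right _ _ n3] at r

theorem alg_of_sb {M : ℕ} (hM : 0 < M) {s : LS} (h : Alg (sb M hM s)) : Alg s := fun n => by
  rw [← coeff_sb_mul M hM s n]
  exact h _

theorem alg {N : ℕ} (hN : 0 < N) {x : FF} {s : LS} (h : ExM N s (cv x)) : Alg s := by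
  obtain ⟨M, hM, -, s₀, h1, h2⟩ := mem_FS.1 (cv_mem x)
  have a := exM_period hM hN.ne' h
  have b := exM_period hN hM.ne' h1
  rw [mul_comm] at b
  refine alg_of_sb hM ?_
  rw [a.unique (Nat.mul_pos hN hM).ne' b]
  exact h2.sb N hN

theorem per {N : ℕ} (hN : 0 < N) {x : Mer} {s : LS} (h : ExM N s x) :
    act (ModularGroup.T ^ N) x = x := by
  have a := tr hN N h
  have hNC : (N : ℂ) ≠ 0 := by exact_mod_cast hN.ne'
  have e : ze N N = 1 := by
    rw [ze, Int.cast_natCast, mul_div_cancel_right₀ _ hNC, Complex.exp_two_pi_mul_I]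
  rw [rs_apply, e, rsF_one, _root_.zpow_natCast] at a
  conv_lhs => rw [← inj a h, ← AlgEquiv.mul_apply, ← map_mul, mul_inv_cancel, map_one]
  rfl

theorem ex {N : ℕ} (hN : 0 < N) {x : FF} (h : act (ModularGroup.T ^ N) (cv x) = cv x) :
    ∃ s, ExM N s (cv x) := by
  obtain ⟨M, hM, -, s₀, h1, -⟩ := mem_FS.1 (cv_mem x)
  have b := exM_period hN hM.ne' h1
  rw [mul_comm] at b
  have a := tr (Nat.mul_pos hN hM) (N * 1) b
  have e : act (ModularGroup.T ^ N)⁻¹ (cv x) = cv x := by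
    conv_lhs => rw [← h, ← AlgEquiv.mul_apply, ← map_mul, inv_mul_cancel, map_one]
    rfl
  rw [rs_apply, ze_pow hN hM, _root_.zpow_one, mul_one, _root_.zpow_natCast, e] at a
  obtain ⟨s, hs⟩ := exists_sb hM (Complex.isPrimitiveRoot_exp M hM.ne')
    (a.unique (Nat.mul_pos hN hM).ne' b)
  rw [← hs] at b
  exact ⟨s, down hM hN b⟩

end Exp

theorem exp : EXP :=
  ⟨fun _ _ _ _ _ h h' => Exp.inj h h', fun _ _ _ b ha hd hN hA _ _ h => Exp.aff b ha hd hN hA h,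
    fun _ _ hN h => (Exp.ex hN h).imp fun _ k => ⟨k, Exp.alg hN k⟩,
    fun _ _ _ hN h => ⟨Exp.alg hN h, Exp.per hN h⟩, fun _ _ hM _ _ hN h => Exp.down hM hN h⟩

end Vale.Agent.P027M.M
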