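import Vale.Agent.P027M.M.Spec

/-! # P027, block M: the action on the level fields is faithful; degrees -/

set_option autoImplicit false

open UpperHalfPlane Matrix
open scoped MatrixGroups Manifold IntermediateField

noncomputable section

namespace Vale.Agent.P027M.M

open Vale.Agent.P022 Vale.Agent.P022.H218.L3 Vale.Agent.P022.H231.L3 Vale.Agent.P022.H236.L3
  Vale.Agent.P022.H542.L3

namespace Faith

theorem cv_pg (X : Mdl) (γ : SL(2, ℤ)) (x : FF) : cv (X.pg γ x) = act γ⁻¹ (cv x) := by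
  rw [Mdl.pg, X.pb_coe, pbz_SL]

theorem nz_mul {N : ℕ} {v : Fin 2 → ℤ} (hv : NZ N v) (γ : SL(2, ℤ)) : NZ N (v ᵥ* (γ : M2)) := by
  intro h
  apply hv
  have e : v = (v ᵥ* (γ : M2)) ᵥ* ((γ⁻¹ : SL(2, ℤ)) : M2) := by
    rw [vecMul_vecMul, show (γ : M2) * ((γ⁻¹ : SL(2, ℤ)) : M2) = 1 from
      congrArg Subtype.val (mul_inv_cancel γ), vecMul_one]
  intro i
  rw [e]
  exact Finset.dvd_sum (s := Finset.univ) fun j _ => (h j).mul_right (((γ⁻¹ : SL(2, ℤ)) : M2) j i)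

theorem nz_low {N : ℕ} {a : ℤ} (h : ¬ (N : ℤ) ∣ a) {v : Fin 2 → ℤ} (e : v 1 = a) : NZ N v :=
  fun c => h (e ▸ c 1)

theorem den_ne (hS : SER) {N : ℕ} (hN : Lv N) : Xs N (p4 N) - Xs N (p1 N) ≠ 0 := by
  obtain ⟨M, rfl⟩ := hN.four
  have hM : (0 : ℤ) < M := by have := hN.pos; omega
  have e1 : p1 (4 * M) 1 = 2 * M := by simp only [p1]; simp; omega
  have e4 : p4 (4 * M) 1 = M := by simp [p4]
  have k : ∀ a : ℤ, 0 < a → a < 4 * M → ¬ ((4 * M : ℕ) : ℤ) ∣ a := fun a h1 h2 c => by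
    have := Int.le_of_dvd h1 c
    push_cast at this
    omega
  refine (hS _ hN.pos _ _ (nz_low (k M hM (by omega)) e4) (nz_low (k _ (by omega) (by omega)) e1)
    (nz_low (a := -M) (fun c => k M hM (by omega) (dvd_neg.1 c)) ?_)
    (nz_low (k (3 * M) (by omega) (by omega)) ?_)).ne
  · rw [Pi.sub_apply, e1, e4]; ring
  · rw [Pi.add_apply, e1, e4]; ring

theorem one (X : Mdl) (hS : SER) {N : ℕ} (hN : Lv N) {γ : SL(2, ℤ)} (hγ : γ ∈ G0)
    (h : ∀ v, NZ N v → X.pg γ (X.r N v) = X.r N v) : γ ∈ Gt N := by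
  have key : ∀ v, NZ N v → (∀ i, (N : ℤ) ∣ (v ᵥ* (γ : M2) - v) i) ∨
      ∀ i, (N : ℤ) ∣ (v ᵥ* (γ : M2) + v) i := fun v hv => by
    by_contra c
    rw [not_or] at c
    refine (hS N hN.pos _ _ (nz_mul hv γ) hv c.1 c.2).ne ?_
    have r1 := X.rex N hN v hv 1
    have r2 := X.rex N hN _ (nz_mul hv γ) 1
    rw [← X.law N hN v hv γ hγ, ← cv_pg, h v hv] at r2
    have r3 := r2.unique hN.pos.ne' r1
    have o : ∀ w : Fin 2 → ℤ, w ᵥ* ((1 : SL(2, ℤ)) : M2) = w := fun w => vecMul_one w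
    simp only [o] at r3
    rw [div_left_inj' (den_ne hS hN), sub_left_inj] at r3
    rw [r3, sub_self]
  have n1 : ¬ (N : ℤ) ∣ 1 := fun c => by
    have := Int.le_of_dvd one_pos c
    have := Nat.le_of_dvd hN.pos hN.four
    omega
  have k1 := key ![1, 0] fun c => n1 (c 0)
  have k2 := key ![0, 1] fun c => n1 (c 1)
  simp only [Fin.forall_fin_two, Pi.sub_apply, Pi.add_apply, vecMul, dotProduct, Fin.sum_univ_two,
    cons_val_zero, cons_val_one, one_mul, zero_mul, add_zero, zero_add, sub_zero] at k1 k2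
  exact mem_Gp.2 ⟨k2.elim And.left And.left, k1.elim And.right And.right, k2.imp And.right And.right⟩

theorem r_mem (X : Mdl) {N : ℕ} (hN : Lv N) {v : Fin 2 → ℤ} (hv : NZ N v) : X.r N v ∈ L (Gt N) := by
  rw [X.gen N hN]
  exact IntermediateField.subset_adjoin _ _ ⟨v, hv, rfl⟩

theorem two (X : Mdl) (hS : SER) (hG : GRP) (hA : ARTIN X) {N : ℕ} {Γ : Subgroup SL(2, ℤ)}
    (hΓ : Mid N Γ) {γ : SL(2, ℤ)} (hγ : γ ∈ G0) (h : ∀ x ∈ L Γ, X.pg γ x = x) : γ ∈ Γ := by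
  obtain ⟨fi, nm, m1, -⟩ := hG N hΓ.lv
  obtain ⟨σ, hσ⟩ := ((hA G0 (Gt N) m1.hi fi).2 fun a _ => nm a).2.2 γ hγ
  letI := algL m1.hi
  letI := algL hΓ.lo
  obtain ⟨δ, hδ, e⟩ := ((hA Γ (Gt N) hΓ.lo fi).2 fun a _ => nm a).2.1
    (AlgEquiv.ofRingEquiv (f := (σ : L (Gt N) ≃+* L (Gt N))) fun x =>
      Subtype.ext ((hσ _).trans (h x x.2)))
  have k : γ * δ⁻¹ ∈ Gt N := one X hS hΓ.lv (G0.mul_mem hγ (G0.inv_mem (hΓ.hi hδ))) fun v hv => by
    have e1 := congrArg cv ((hσ ⟨_, r_mem X hΓ.lv hv⟩).symm.trans (e ⟨_, r_mem X hΓ.lv hv⟩))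
    apply cv_inj
    rw [cv_pg, cv_pg] at e1
    rw [cv_pg, _root_.mul_inv_rev, inv_inv, map_mul, AlgEquiv.mul_apply, e1, ← AlgEquiv.mul_apply,
      ← map_mul, mul_inv_cancel, map_one, AlgEquiv.one_apply]
  simpa using Γ.mul_mem (hΓ.lo k) hδ

theorem top (X : Mdl) (hS : SER) (hG : GRP) (hA : ARTIN X) {N : ℕ} {Γ : Subgroup SL(2, ℤ)}
    (hΓ : Mid N Γ) :
    letI := algL hΓ.lo
    Module.finrank (L Γ) (L (Gt N)) = (Gt N).relIndex Γ := by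
  obtain ⟨fi, nm, m1, -⟩ := hG N hΓ.lv
  letI := algL hΓ.lo
  obtain ⟨fd, h⟩ := hA Γ (Gt N) hΓ.lo fi
  obtain ⟨gal, h1, h2⟩ := h fun a _ => nm a
  choose σ hσ using h2
  have cσ : ∀ (γ : Γ) (x : L (Gt N)),
      cv (σ γ⁻¹ (Γ.inv_mem γ.2) x : L (Gt N)) = act (γ : SL(2, ℤ)) (cv x) := fun γ x => by
    rw [hσ, cv_pg, inv_inv]
  let φ : Γ →* (L (Gt N) ≃ₐ[L Γ] L (Gt N)) := MonoidHom.mk' (fun γ => σ γ⁻¹ (Γ.inv_mem γ.2))
    fun a b => AlgEquiv.ext fun x => Subtype.ext (cv_inj (by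
      rw [cσ, AlgEquiv.mul_apply, cσ, cσ, Subgroup.coe_mul, map_mul, AlgEquiv.mul_apply]))
  have sj : φ.range = ⊤ := MonoidHom.range_eq_top.2 fun τ => by
    obtain ⟨γ, hγ, e⟩ := h1 τ
    exact ⟨⟨γ⁻¹, Γ.inv_mem hγ⟩, AlgEquiv.ext fun x => Subtype.ext (cv_inj
      ((cσ _ x).trans (by rw [e, cv_pg])))⟩
  have kr : φ.ker = (Gt N).subgroupOf Γ := by
    ext γ
    rw [MonoidHom.mem_ker, Subgroup.mem_subgroupOf]
    constructor
    · intro e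
      refine (Gt N).inv_mem_iff.1 (two X hS hG hA m1 (G0.inv_mem (hΓ.hi γ.2)) fun x hx => cv_inj ?_)
      rw [cv_pg, inv_inv, ← cσ γ ⟨x, hx⟩]
      exact congrArg (fun z : L (Gt N) => cv z) (AlgEquiv.congr_fun e ⟨x, hx⟩)
    · exact fun e => AlgEquiv.ext fun x => Subtype.ext (cv_inj ((cσ γ x).trans (x.2 _ e)))
  rw [Subgroup.relIndex, ← kr, Subgroup.index_ker, sj, Subgroup.card_top,
    IsGalois.card_aut_eq_finrank]

end Faith

theorem faith (X : Mdl) (hS : SER) (hG : GRP) (hA : ARTIN X) : FAITH X := by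
  refine ⟨fun N hN γ hγ h => Faith.one X hS hN hγ h,
    fun N Γ hΓ γ hγ h => Faith.two X hS hG hA hΓ hγ h, fun N Γ Γ' h m m' => ?_⟩
  have e := Faith.top X hS hG hA m
  have e' := Faith.top X hS hG hA m'
  letI := algL h
  letI := algL m.lo
  letI := algL m'.lo
  haveI : IsScalarTower (L Γ) (L Γ') (L (Gt N)) := IsScalarTower.of_algebraMap_eq fun _ => rfl
  haveI := (hG N m.lv).1
  have t := Module.finrank_mul_finrank (L Γ) (L Γ') (L (Gt N))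
  rw [e, e', ← Subgroup.relIndex_mul_relIndex (Gt N) Γ' Γ m'.lo h, mul_comm] at t
  exact Nat.eq_of_mul_eq_mul_left (Nat.pos_of_ne_zero
    (Subgroup.FiniteIndex.index_ne_zero (H := (Gt N).subgroupOf Γ'))) t

end Vale.Agent.P027M.M
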