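import Vale.Agent.P027M.M.Spec

/-! # P027, block M: row GALX -/

set_option autoImplicit false

open UpperHalfPlane Matrix
open scoped MatrixGroups Manifold IntermediateField

noncomputable section

namespace Vale.Agent.P027M.M

open Vale.Agent.P022 Vale.Agent.P022.H218.L3 Vale.Agent.P022.H231.L3 Vale.Agent.P022.H236.L3
  Vale.Agent.P022.H542.L3

namespace Galx

theorem act_neg (γ : SL(2, ℤ)) : act (-γ) = act γ := by
  have h : actH (-γ) = actH γ := by
    ext f τ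
    rw [actH_apply, actH_apply, ← neg_inv, ModularGroup.SL_neg_smul]
  unfold act
  rw [MonoidHom.comp_apply, MonoidHom.comp_apply, h]

theorem g1 (X : Mdl) (hCF : CF) (hE : EXP) (g : GQ) (x : FF) (N : ℕ) (s s' : LS) (hN : 0 < N)
    (hs : ExM N s (cv x)) (hc : Cf g s s') : ExM N s' (cv (X.gal g x)) := by
  obtain ⟨M, hM, s0, s0', h1, h2, h3⟩ := X.gal_spec g x
  have h4 := exM_period hN hM.ne' h1
  have h5 := exM_period hM hN.ne' hs
  have h6 := exM_period hN hM.ne' h2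
  rw [mul_comm] at h4 h6
  have h7 : sb N hN s0 = sb M hM s := h4.unique (Nat.mul_pos hN hM).ne' h5
  have h8 := ((hCF g).2.2.2.2.2.2.1 s0 s0' N hN).2 h3
  have h9 := ((hCF g).2.2.2.2.2.2.1 s s' M hM).2 hc
  rw [h7] at h8
  rw [(hCF g).1 _ _ _ h8 h9] at h6
  exact hE.2.2.2.2 N M hM _ s' hN h6

theorem g2 (X : Mdl) (hCF : CF) (hE : EXP) (g : GQ) (a : Qb) :
    X.gal g (algebraMap Qb FF a) = algebraMap Qb FF (g a) := by
  have h1 : ∀ b : Qb, ExM 1 (HahnSeries.C (io b)) (cv (algebraMap Qb FF b)) := fun b => by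
    rw [cv_alg]; exact ExM.const 1 _
  exact cv_inj (hE.1 1 _ _ _ one_pos
    (g1 X hCF hE g _ 1 _ _ one_pos (h1 a) ((hCF g).2.2.2.2.2.1 a)) (h1 _))

theorem rex1 (X : Mdl) {N : ℕ} (hN : Lv N) {v : Fin 2 → ℤ} (hv : NZ N v) :
    ExM N ((Xs N v - Xs N (p1 N)) / (Xs N (p4 N) - Xs N (p1 N))) (cv (X.r N v)) := by
  have h := X.rex N hN v hv 1
  simpa using h

theorem r_congr (X : Mdl) (hE : EXP) (h0 : SER0) {N : ℕ} (hN : Lv N) {v w : Fin 2 → ℤ}
    (hv : NZ N v) (hw : NZ N w) (h : ∀ i, (N : ℤ) ∣ v i - w i) : X.r N v = X.r N w := by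
  have h1 := rex1 X hN hv
  rw [(h0 N hN.pos v w).1 h] at h1
  exact cv_inj (hE.1 N _ _ _ hN.pos h1 (rex1 X hN hw))

theorem nz_tw {N : ℕ} {k : ℤ} (hk : IsCoprime k (N : ℤ)) {v : Fin 2 → ℤ} (hv : NZ N v) :
    NZ N ![v 0, k * v 1] := by
  intro h
  apply hv
  intro i
  fin_cases i
  · exact h 0
  · exact hk.symm.dvd_of_dvd_mul_left (h 1)

theorem odd_of {N : ℕ} (hN : Lv N) {k : ℤ} (hk : IsCoprime k (N : ℤ)) : Odd k := by
  obtain ⟨m, rfl⟩ := hN.four
  obtain ⟨a, b, h⟩ := hk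
  by_contra hc
  obtain ⟨c, rfl⟩ := Int.not_odd_iff_even.1 hc
  push_cast at h
  have : (2 : ℤ) ∣ 1 := ⟨a * c + b * 2 * m, by linear_combination -h⟩
  omega

theorem g4 (X : Mdl) (hCF : CF) (hE : EXP) (hG : SERG) (h0 : SER0) (N : ℕ) (hN : Lv N) (g : GQ)
    (k : ℤ) (hk : Cyc N g k) (v : Fin 2 → ℤ) (hv : NZ N v) :
    X.gal g (X.r N v) = X.r N ![v 0, k * v 1] := by
  obtain ⟨hc, hX⟩ := (hG N hN.pos g).2 k hk
  obtain ⟨c, rfl⟩ := odd_of hN hc
  have hN0 := hN.pos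
  obtain ⟨m, hm⟩ := hN.four
  have e2 : N / 2 = 2 * m := by omega
  have e4 : N / 4 = m := by omega
  have h1 : Cf g (Xs N (p1 N)) (Xs N (p1 N)) := by
    have e : Xs N ![p1 N 0, (2 * c + 1) * p1 N 1] = Xs N (p1 N) := by
      refine (h0 N hN0 _ (p1 N)).1 fun i => ?_
      fin_cases i
      · simp [p1]
      · simp only [p1, e2]
        exact ⟨c, by simp [hm]; ring⟩
    have h := hX (p1 N)
    rw [e] at h
    exact h
  have h4 : Cf g (Xs N (p4 N)) (Xs N (p4 N)) := by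
    have e : Xs N ![p4 N 0, (2 * c + 1) * p4 N 1] = Xs N (p4 N) := by
      rcases Int.even_or_odd c with ⟨d, rfl⟩ | ⟨d, rfl⟩
      · refine (h0 N hN0 _ (p4 N)).1 fun i => ?_
        fin_cases i
        · simp [p4]
        · simp only [p4, e4]
          exact ⟨d, by simp [hm]; ring⟩
      · refine ((h0 N hN0 _ (-p4 N)).1 fun i => ?_).trans (h0 N hN0 (p4 N) (p4 N)).2.1
        fin_cases i
        · simp [p4]
        · simp only [p4, e4]
          exact ⟨d + 1, by simp [hm]; ring⟩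
    have h := hX (p4 N)
    rw [e] at h
    exact h
  have hA := (hCF g).2.2.2.2.1
  have h5 := (hA _ _ _ _ (hA _ _ _ _ (hX v) h1).2.2.1 (hA _ _ _ _ h4 h1).2.2.1).2.2.2
  exact cv_inj (hE.1 N _ _ _ hN0 (g1 X hCF hE g _ N _ _ hN0 (rex1 X hN hv) h5)
    (rex1 X hN (nz_tw hc hv)))

theorem g3 (X : Mdl) (hCF : CF) (hE : EXP) (hG : SERG) (h0 : SER0) (g : GQ) :
    X.gal g X.t = X.t := by
  have hN : Lv 4 := ⟨by norm_num, dvd_rfl⟩
  obtain ⟨k, hc, hk⟩ := (hG 4 hN.pos g).1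
  have n2 : NZ 4 (p2 4) := fun h => by
    have := h 0
    simp [p2] at this
  have n3 : NZ 4 (p3 4) := fun h => by
    have := h 0
    simp [p3] at this
  obtain ⟨c, rfl⟩ := odd_of hN hc
  rw [X.t_eq 4 hN, map_sub, map_neg, g4 X hCF hE hG h0 4 hN g _ hk _ n2,
    g4 X hCF hE hG h0 4 hN g _ hk _ n3, r_congr X hE h0 hN (nz_tw hc n2) n2,
    r_congr X hE h0 hN (nz_tw hc n3) n3]
  · intro i
    fin_cases i
    · simp
    · exact ⟨c, by simp [p3]; ring⟩
  · intro i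
    fin_cases i
    · simp
    · simp [p2]

theorem mem_Gamma {N0 : ℕ} {γ : SL(2, ℤ)} (h1 : (N0 : ℤ) ∣ γ 1 0) (h2 : (N0 : ℤ) ∣ γ 0 1)
    (h3 : (N0 : ℤ) ∣ γ 1 1 - 1) : γ ∈ CongruenceSubgroup.Gamma N0 := by
  have e1 := (ZMod.intCast_zmod_eq_zero_iff_dvd _ _).2 h1
  have e2 := (ZMod.intCast_zmod_eq_zero_iff_dvd _ _).2 h2
  have e3 := (ZMod.intCast_zmod_eq_zero_iff_dvd _ _).2 h3
  rw [Int.cast_sub, Int.cast_one, sub_eq_zero] at e3
  have hdet := γ.det_coe
  rw [Matrix.det_fin_two] at hdet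
  have h4 := congrArg (Int.cast : ℤ → ZMod N0) hdet
  push_cast at h4
  rw [e1, e3, mul_one, mul_zero, sub_zero] at h4
  exact CongruenceSubgroup.Gamma_mem.2 ⟨h4, e2, e1, e3⟩

theorem g5 (x : FF) : ∃ N, Lv N ∧ x ∈ L (Gt N) := by
  obtain ⟨N0, hN0, h1, -⟩ := mem_FS.1 (cv_mem x)
  refine ⟨4 * N0, ⟨by omega, dvd_mul_right _ _⟩, fun γ hγ => ?_⟩
  obtain ⟨h2, h3, h4⟩ := mem_Gp.1 hγ
  have hd : (N0 : ℤ) ∣ ((4 * N0 : ℕ) : ℤ) := ⟨4, by push_cast; ring⟩
  rcases h4 with h4 | h4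
  · exact act_eq_self h1 (mem_Gamma (hd.trans h2) (hd.trans h3) (hd.trans h4))
  · rw [← act_neg]
    refine act_eq_self h1 (mem_Gamma ?_ ?_ ?_)
    · simpa using hd.trans h2
    · simpa using hd.trans h3
    · have : (-γ) 1 1 - 1 = -(γ 1 1 + 1) := by simp; ring
      rw [this]
      exact (hd.trans h4).neg_right

/-- the stabiliser of a function -/
def St (X : Mdl) (x : FF) : Subgroup GQ where
  carrier := {g | X.gal g x = x}
  one_mem' := by simp
  mul_mem' {g h} hg hh := by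
    have h1 : X.gal g x = x := hg
    have h2 : X.gal h x = x := hh
    show X.gal (g * h) x = x
    rw [map_mul, RingAut.mul_apply, h2, h1]
  inv_mem' {g} hg := by
    have h1 : X.gal g x = x := hg
    show X.gal g⁻¹ x = x
    rw [map_inv]
    exact ((X.gal g).symm_apply_eq).2 h1.symm

theorem stab_open (a : Qb) : IsOpen (MulAction.stabilizer GQ a : Set GQ) :=
  haveI : Algebra.IsAlgebraic ℚ Qb := AlgebraicClosure.isAlgebraic ℚ
  stabilizer_isOpen_of_isIntegral a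

theorem g6 (X : Mdl) (hCF : CF) (hE : EXP) (hG : SERG) (h0 : SER0) (x : FF) :
    IsOpen {g : GQ | X.gal g x = x} := by
  obtain ⟨N, hN, hx⟩ := g5 x
  rw [X.gen N hN] at hx
  show IsOpen (St X x : Set GQ)
  have two : ∀ y z w : FF, IsOpen (St X y : Set GQ) → IsOpen (St X z : Set GQ) →
      (∀ g, X.gal g y = y → X.gal g z = z → X.gal g w = w) → IsOpen (St X w : Set GQ) :=
    fun y z w hy hz h => Subgroup.isOpen_mono (H₁ := St X y ⊓ St X z)
      (fun g hg => h g hg.1 hg.2) (hy.inter hz)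
  induction hx using IntermediateField.adjoin_induction with
  | mem y hy =>
    obtain ⟨v, hv, rfl⟩ := hy
    have key : ∀ g, Cyc N g 1 → X.gal g (X.r N v) = X.r N v := fun g hg => by
      rw [g4 X hCF hE hG h0 N hN g 1 hg v hv]
      congr 1
      ext i
      fin_cases i <;> simp
    by_cases hz : ∃ a : Qb, io a = ze N 1
    · obtain ⟨a, ha⟩ := hz
      refine Subgroup.isOpen_mono (H₁ := MulAction.stabilizer GQ a) (fun g hg => key g ?_)
        (stab_open a)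
      intro b hb
      have h1 : b = a := (io : Qb →+* ℂ).injective (hb.trans ha.symm)
      have h2 : g a = a := hg
      rw [h1, h2, ha]
    · refine Subgroup.isOpen_mono (H₁ := ⊤) (fun g _ => key g fun b hb => absurd ⟨b, hb⟩ hz) ?_
      exact isOpen_univ
  | algebraMap a =>
    refine Subgroup.isOpen_mono (H₁ := MulAction.stabilizer GQ a) (fun g hg => ?_) (stab_open a)
    have h2 : g a = a := hg
    show X.gal g _ = _
    rw [g2 X hCF hE, h2]
  | add y z _ _ hy hz => exact two y z _ hy hz fun g h1 h2 => by rw [map_add, h1, h2]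
  | inv y _ hy => exact two y y _ hy hy fun g h1 _ => by rw [map_inv₀, h1]
  | mul y z _ _ hy hz => exact two y z _ hy hz fun g h1 h2 => by rw [map_mul, h1, h2]

end Galx

/-- row GALX -/
theorem galx (X : Mdl) (hCF : CF) (hE : EXP) (hG : SERG) (h0 : SER0) (_ : GRP) : GALX X :=
  ⟨Galx.g1 X hCF hE, Galx.g2 X hCF hE, Galx.g3 X hCF hE hG h0, Galx.g4 X hCF hE hG h0, Galx.g5,
    Galx.g6 X hCF hE hG h0⟩

end Vale.Agent.P027M.M
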