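import Vale.Agent.P027M.M.Spec
import Vale.Agent.P027M.M.A4

/-! # P027 block M, row GOOD: calculus of good series -/

set_option linter.all false

noncomputable section

namespace Vale.Agent.P027M.M

open Vale.Agent.P022 Vale.Agent.P022.H236.L3 Vale.Agent.P022.H542.L3

theorem ZN_le {N : ℕ} (hN : 0 < N) (O : ValuationSubring ℂ) (h : (N : ℂ)⁻¹ ∈ O) :
    ∀ a ∈ ZN N, a ∈ O := by
  have h1 : ze N 1 ∈ O := by
    rw [← O.valuation_le_one_iff]
    have e := congrArg O.valuation (ze_prim hN).pow_eq_one
    rw [map_pow, map_one] at e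
    exact (pow_le_one_iff hN.ne').1 e.le
  intro a ha
  induction ha using Algebra.adjoin_induction with
  | mem x hx =>
    rcases hx with rfl | rfl
    · exact h1
    · exact h
  | algebraMap r => exact intCast_mem O.toSubring r
  | add x y _ _ i j => exact add_mem i j
  | mul x y _ _ i j => exact mul_mem i j

theorem good : GOOD := fun N hN =>
  ⟨fun _ _ _ _ h h' => h.mul h', fun _ _ h => h.inv, fun _ _ h => h.neg, ZN_le hN,
    fun O W hO hW k s h => by
      have a := (W.valuation_le_one_iff _).2 (hW.mem s fun n => ZN_le hN O hO _ (h.int n))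
      have b := (W.valuation_le_one_iff _).2 (hW.mem s⁻¹ fun n => ZN_le hN O hO _ (h.inv.int n))
      rw [map_inv₀, inv_le_one₀ ((Valuation.pos_iff _).2 h.ne)] at b
      exact le_antisymm a b⟩

end Vale.Agent.P027M.M
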