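import Vale.Agent.P027M.M.Spec

/-! # P027, block M: group theory (row **GRP**) -/

set_option autoImplicit false
set_option linter.all false

open Matrix
open scoped MatrixGroups

noncomputable section

namespace Vale.Agent.P027M.M

open Vale.Agent.P022 Vale.Agent.P022.H231.L3

namespace GrpA

theorem cj (γ δ : SL(2, ℤ)) :
    (γ * δ * γ⁻¹) 1 0 = γ 1 0 * γ 1 1 * (δ 0 0 - δ 1 1) + γ 1 1 ^ 2 * δ 1 0 - γ 1 0 ^ 2 * δ 0 1 ∧
    (γ * δ * γ⁻¹) 0 1 = γ 0 0 * γ 0 1 * (δ 1 1 - δ 0 0) - γ 0 1 ^ 2 * δ 1 0 + γ 0 0 ^ 2 * δ 0 1 ∧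
    (γ * δ * γ⁻¹) 1 1 = δ 1 1 + γ 0 1 * γ 1 0 * (δ 1 1 - δ 0 0) - γ 0 1 * γ 1 1 * δ 1 0 +
      γ 0 0 * γ 1 0 * δ 0 1 := by
  have hdet := γ.det_coe
  rw [Matrix.det_fin_two] at hdet
  simp only [Matrix.SpecialLinearGroup.coe_mul, Matrix.SpecialLinearGroup.coe_inv,
    Matrix.adjugate_fin_two, Matrix.mul_apply, Fin.sum_univ_two, Matrix.of_apply, Matrix.cons_val',
    Matrix.cons_val_zero, Matrix.cons_val_one, Matrix.cons_val_fin_one]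
  refine ⟨by ring, by ring, ?_⟩
  linear_combination δ 1 1 * hdet

theorem g0 {N : ℕ} (h : Lv N) {γ : SL(2, ℤ)} (hγ : (N : ℤ) ∣ γ 1 0) : γ ∈ G0 := by
  rw [CongruenceSubgroup.Gamma0_mem]
  exact (ZMod.intCast_zmod_eq_zero_iff_dvd _ 4).2 ((Int.natCast_dvd_natCast.2 h.four).trans hγ)

end GrpA

open GrpA in
theorem grp : GRP := by
  intro N h
  haveI : NeZero N := ⟨h.pos.ne'⟩
  have h1 : CongruenceSubgroup.Gamma N ≤ Gt N := Gamma_le _ N dvd_rfl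
  have h2 : Gt N ≤ G0 := fun γ hγ => g0 h hγ.1
  refine ⟨Subgroup.finiteIndex_of_le h1, fun γ δ hδ => ?_, ⟨h, le_rfl, h2⟩, ⟨h, h2, le_rfl⟩, ?_, h1,
    fun M hM => ⟨⟨Nat.mul_pos h.pos hM, h.four.mul_right M⟩, fun γ hγ => ?_⟩,
    fun H => ⟨?_, fun hH => ⟨h, fun γ hγ => ⟨hγ.1, ?_⟩, fun γ hγ => g0 h hγ.1⟩,
      fun γ hγ δ hδ => ?_⟩⟩
  · obtain ⟨e1, e2, e3⟩ := cj γ δ
    obtain ⟨ε, -, r⟩ := mem_Gp'.1 hδ
    have d : (N : ℤ) ∣ δ 1 1 - δ 0 0 := by simpa using dvd_sub r.h11 r.h00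
    have k : (N : ℤ) ∣ γ 0 1 * γ 1 0 * (δ 1 1 - δ 0 0) - γ 0 1 * γ 1 1 * δ 1 0 +
        γ 0 0 * γ 1 0 * δ 0 1 :=
      dvd_add (dvd_sub (d.mul_left _) (hδ.1.mul_left _)) (hδ.2.1.mul_left _)
    rw [mem_Gp, e1, e2, e3]
    refine ⟨dvd_sub (dvd_add ((dvd_sub_comm.1 d).mul_left _) (hδ.1.mul_left _))
      (hδ.2.1.mul_left _), dvd_add (dvd_sub (d.mul_left _) (hδ.1.mul_left _))
      (hδ.2.1.mul_left _), hδ.2.2.imp (fun t => ?_) fun t => ?_⟩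
    · exact (dvd_add t k).trans (dvd_of_eq (by ring))
    · exact (dvd_add t k).trans (dvd_of_eq (by ring))
  · rw [mem_Gp, ← zpow_natCast]
    have e := ModularGroup.coe_T_zpow (N : ℤ)
    have e' : ∀ i j, (ModularGroup.T ^ (N : ℤ)) i j = !![(1 : ℤ), N; 0, 1] i j := fun i j =>
      congrFun (congrFun e i) j
    rw [e', e', e']
    simp
  · have d : (N : ℤ) ∣ ((N * M : ℕ) : ℤ) := Int.natCast_dvd_natCast.2 (dvd_mul_right N M)
    exact ⟨d.trans hγ.1, d.trans hγ.2.1, hγ.2.2.imp d.trans d.trans⟩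
  · exact ⟨by simp [ModularGroup.coe_T], 1, H.one_mem, by simp [ModularGroup.coe_T]⟩
  · rcases hγ.2.2 with t | t
    · refine ⟨1, H.one_mem, ?_⟩
      have := (ZMod.intCast_zmod_eq_zero_iff_dvd _ _).2 t
      push_cast at this
      rw [Units.val_one]
      linear_combination -this
    · refine ⟨-1, hH, ?_⟩
      have := (ZMod.intCast_zmod_eq_zero_iff_dvd _ _).2 t
      push_cast at this
      rw [Units.val_neg, Units.val_one]
      linear_combination -this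
  · obtain ⟨e1, -, e3⟩ := cj γ δ
    obtain ⟨d1, a, ha, d2⟩ := hδ
    rw [mem_GH, e1, e3]
    refine ⟨dvd_sub (dvd_add ((hγ.mul_right _).mul_right _) (d1.mul_left _))
      ((hγ.pow two_ne_zero).mul_right _), a, ha, ?_⟩
    push_cast
    rw [d2, (ZMod.intCast_zmod_eq_zero_iff_dvd _ _).2 hγ,
      (ZMod.intCast_zmod_eq_zero_iff_dvd _ _).2 d1]
    ring

end Vale.Agent.P027M.M
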