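import Vale.Agent.P027M.M.Spec

/-! # P027, block M: Hecke operators on functions, stability and diamonds -/

set_option autoImplicit false

open Matrix
open scoped MatrixGroups

noncomputable section

namespace Vale.Agent.P027M.M

open Vale.Agent.P022.H218.L3 Vale.Agent.P022.H231.L3

namespace Hec

variable (X : Mdl)

theorem det_mul_pos {A B : M2} (hA : 0 < A.det) (hB : 0 < B.det) : 0 < (A * B).det := by
  rw [Matrix.det_mul]
  exact mul_pos hA hB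

theorem pb_congr {A B : M2} (e : A = B) (hA : 0 < A.det) (hB : 0 < B.det) (x : FF) :
    X.pb A hA x = X.pb B hB x := by
  subst e
  rfl

theorem pb_mul {A B C : M2} (e : A * B = C) (hA : 0 < A.det) (hB : 0 < B.det) (hC : 0 < C.det)
    (x : FF) : X.pb B hB (X.pb A hA x) = X.pb C hC x := by
  subst e
  apply cv_inj
  rw [X.pb_coe, X.pb_coe, X.pb_coe, pbz_mul hA hB]

theorem pb_swap {A B C D : M2} (e : A * B = C * D) (hA : 0 < A.det) (hB : 0 < B.det)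
    (hC : 0 < C.det) (hD : 0 < D.det) (x : FF) :
    X.pb B hB (X.pb A hA x) = X.pb D hD (X.pb C hC x) := by
  rw [pb_mul X e hA hB (det_mul_pos hC hD), pb_mul X rfl hC hD (det_mul_pos hC hD)]

theorem cv_pg (γ : SL(2, ℤ)) (x : FF) : cv (X.pg γ x) = act γ⁻¹ (cv x) := by
  rw [Mdl.pg, X.pb_coe, pbz_SL]

theorem pg_mul (γ δ : SL(2, ℤ)) (x : FF) : X.pg δ (X.pg γ x) = X.pg (γ * δ) x :=
  pb_mul X (Matrix.SpecialLinearGroup.coe_mul γ δ).symm _ _ _ x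

theorem mem_L_iff {Γ : Subgroup SL(2, ℤ)} {x : FF} : x ∈ L Γ ↔ ∀ γ ∈ Γ, X.pg γ x = x := by
  refine ⟨fun h γ hγ => cv_inj ?_, fun h γ hγ => ?_⟩
  · rw [cv_pg]
    exact h _ (Γ.inv_mem hγ)
  · have := congrArg cv (h _ (Γ.inv_mem hγ))
    rwa [cv_pg, inv_inv] at this

theorem pg_one (x : FF) : X.pg 1 x = x := (mem_L_iff X (Γ := ⊥)).1
  (fun γ h => by rw [Subgroup.mem_bot.1 h, map_one]; rfl) 1 (one_mem _)

theorem T_apply {l : ℕ} (h0 : 0 < l) (d : SL(2, ℤ)) (x : FF) :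
    X.T h0 d x = ∏ i, X.pb (al 1 l d i) (al_pos h0 d i) x := rfl

theorem U_apply {l : ℕ} (h0 : 0 < l) (x : FF) :
    X.U h0 x = ∏ j : Fin l, X.pb (al 1 l 1 (some j)) (al_pos h0 1 (some j)) x := rfl

/-- `T_l = U_l · V_l D_l` -/
theorem T_eq {l : ℕ} (h0 : 0 < l) (d : SL(2, ℤ)) (x : FF) :
    X.T h0 d x = X.U h0 x * X.pb !![(l : ℤ), 0; 0, 1] (diag_pos h0) (X.pg d x) := by
  rw [T_apply, Fintype.prod_option, mul_comm, Mdl.pg, pb_mul X rfl _ _ (al_pos (P := 1) h0 d none)]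
  rfl

theorem mul_inv_mem {N : ℕ} (H : Subgroup (ZMod N)ˣ) {γ γ' : SL(2, ℤ)} (h : (N : ℤ) ∣ γ 1 0)
    (h' : (N : ℤ) ∣ γ' 1 0) (e : (N : ℤ) ∣ γ 1 1 - γ' 1 1) : γ * γ'⁻¹ ∈ GH N H := by
  have hdet := γ'.det_coe
  rw [Matrix.det_fin_two] at hdet
  have e1 : (γ * γ'⁻¹) 1 0 = γ 1 0 * γ' 1 1 - γ 1 1 * γ' 1 0 := by
    simp [Matrix.mul_apply, Fin.sum_univ_two, Matrix.SpecialLinearGroup.coe_inv,
      Matrix.adjugate_fin_two]
    ring
  have e2 : (γ * γ'⁻¹) 1 1 = γ 1 1 * γ' 0 0 - γ 1 0 * γ' 0 1 := by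
    simp [Matrix.mul_apply, Fin.sum_univ_two, Matrix.SpecialLinearGroup.coe_inv,
      Matrix.adjugate_fin_two]
    ring
  refine ⟨by rw [e1]; exact dvd_sub (h.mul_right _) (h'.mul_left _), 1, H.one_mem, ?_⟩
  obtain ⟨a, ha⟩ := h
  obtain ⟨b, hb⟩ := h'
  obtain ⟨c, hc⟩ := e
  have e3 : (γ * γ'⁻¹) 1 1 = 1 + N * (c * γ' 0 0 + γ' 0 1 * b - a * γ' 0 1) := by
    rw [e2]
    linear_combination hdet + γ' 0 0 * hc + γ' 0 1 * hb - γ' 0 1 * ha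
  rw [e3]
  simp

theorem pg_congr {N : ℕ} {H : Subgroup (ZMod N)ˣ} {x : FF} (hx : x ∈ L (GH N H))
    {γ γ' : SL(2, ℤ)} (h : (N : ℤ) ∣ γ 1 0) (h' : (N : ℤ) ∣ γ' 1 0)
    (e : (N : ℤ) ∣ γ 1 1 - γ' 1 1) : X.pg γ x = X.pg γ' x := by
  conv_rhs => rw [← (mem_L_iff X).1 hx _ (mul_inv_mem H h h' e), pg_mul, inv_mul_cancel_right]

end Hec

open Hec in
theorem hec1 (X : Mdl) (hS : STEP) (hG : GRP) : HEC1 X := by
  intro N H hN x hx
  have cj := ((hG N hN).2.2.2.2.2.2.2 H).2.2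
  refine ⟨fun γ hγ => (mem_L_iff X).2 fun δ hδ => ?_, fun γ γ' => pg_congr X hx,
    fun l hl h d hd => ?_, fun q hq h => ?_⟩
  · conv_rhs => rw [← (mem_L_iff X).1 hx _ (cj γ hγ δ hδ), pg_mul, inv_mul_cancel_right]
    rw [pg_mul]
  · have key : ∀ γ : SL(2, ℤ), (N : ℤ) ∣ γ 1 0 →
        X.pg γ (X.T hl.pos d x) = X.T hl.pos d (X.pg γ x) := fun γ hγ => by
      obtain ⟨π, g, e⟩ := (hS N l hN.pos hl).1 h d hd γ hγ
      rw [T_apply, T_apply, map_prod]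
      refine Eq.trans (Finset.prod_congr rfl fun i _ => ?_) (Equiv.prod_comp π _)
      rw [← pg_congr X hx (e i).2.1 hγ (e i).2.2]
      exact pb_swap X (e i).1 _ _ _ _ x
    refine ⟨(mem_L_iff X).2 fun γ hγ => ?_, fun d' hd' => ?_, key⟩
    · rw [key γ hγ.1, (mem_L_iff X).1 hx γ hγ]
    · rw [T_eq, T_eq, pg_congr X hx hd.1 hd'.1]
      have := dvd_sub hd.2.2 hd'.2.2
      rwa [sub_sub_sub_cancel_right] at this
  · have key : ∀ γ : SL(2, ℤ), (N : ℤ) ∣ γ 1 0 →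
        X.pg γ (X.U hq.pos x) = X.U hq.pos (X.pg γ x) := fun γ hγ => by
      obtain ⟨π, g, e⟩ := (hS N q hN.pos hq).2 h γ hγ
      rw [U_apply, U_apply, map_prod]
      refine Eq.trans (Finset.prod_congr rfl fun i _ => ?_) (Equiv.prod_comp π _)
      rw [← pg_congr X hx (e i).2.1 hγ (e i).2.2]
      exact pb_swap X (e i).1 _ _ _ _ x
    exact ⟨(mem_L_iff X).2 fun γ hγ => by rw [key γ hγ.1, (mem_L_iff X).1 hx γ hγ], key⟩

end Vale.Agent.P027M.M
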