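import Vale.Agent.P027M.M.Spec

/-! # P027, block M: the expansions of `T_l x` and `U_q x` -/

set_option autoImplicit false

open UpperHalfPlane Matrix
open scoped MatrixGroups

noncomputable section

namespace Vale.Agent.P027M.M

open Vale.Agent.P022 Vale.Agent.P022.H218.L3 Vale.Agent.P022.H231.L3 Vale.Agent.P022.H236.L3
  Vale.Agent.P022.H542.L3

namespace Hec2

theorem sb_one (s : LS) : sb 1 one_pos s = s := by
  ext n
  simpa using coeff_sb_mul 1 one_pos s n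

theorem rs_zero (N : ℕ) (s : LS) : rs (ze N 0) (ze_ne _ _) s = s := by
  ext n
  simp [ze]

theorem prod_prim {M : Type*} [CommMonoid M] {l : ℕ} (h0 : 0 < l) {ζ ξ : ℂ}
    (h : IsPrimitiveRoot ζ l) (h' : IsPrimitiveRoot ξ l) (f : ℂ → M) :
    ∏ j ∈ Finset.range l, f (ζ ^ j) = ∏ j ∈ Finset.range l, f (ξ ^ j) := by
  classical
  have : NeZero l := ⟨h0.ne'⟩
  have sub : ∀ {a b : ℂ}, IsPrimitiveRoot a l → IsPrimitiveRoot b l →
      (Finset.range l).image (a ^ ·) ⊆ (Finset.range l).image (b ^ ·) := fun {a b} ha hb c hc => by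
    obtain ⟨j, -, rfl⟩ := Finset.mem_image.1 hc
    obtain ⟨i, h1, h2⟩ := hb.eq_pow_of_pow_eq_one (ξ := a ^ j) (by
      rw [← pow_mul, mul_comm, pow_mul, ha.pow_eq_one, one_pow])
    exact Finset.mem_image.2 ⟨i, Finset.mem_range.2 h1, h2⟩
  rw [← Finset.prod_image (f := f) h.injOn_pow, ← Finset.prod_image (f := f) h'.injOn_pow,
    Finset.Subset.antisymm (sub h h') (sub h' h)]

theorem up (he : EXP) (X : Mdl) {x : FF} {s : LS} {l : ℕ} (h0 : 0 < l) {ζ : ℂ}
    (hζ : IsPrimitiveRoot ζ l) (hs : ExM 1 s (cv x)) (d : SL(2, ℤ)) :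
    ExM (1 * l) (∏ j ∈ Finset.range l, rs (ζ ^ j) (pow_ne_zero _ (hζ.ne_zero h0.ne')) s)
      (∏ j : Fin l, cv (X.pb (al 1 l d (some j)) (al_pos h0 d (some j)) x)) := by
  have p : IsPrimitiveRoot (ze (1 * l) 1) l := by
    simpa [ze] using Complex.isPrimitiveRoot_exp l h0.ne'
  have e : ∏ j ∈ Finset.range l, rs (ζ ^ j) (pow_ne_zero _ (hζ.ne_zero h0.ne')) s =
      ∏ j : Fin l, rsF (ze (1 * l) 1 ^ (j : ℕ)) s := by
    rw [Fin.prod_univ_eq_prod_range (fun j => rsF (ze (1 * l) 1 ^ j) s) l]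
    exact prod_prim h0 hζ p fun c => rsF c s
  rw [e]
  refine ExM.prod _ fun j _ => ?_
  have e1 : (!![((1 : ℕ) : ℤ), ((j : ℕ) : ℤ); 0, (l : ℤ)] : M2) = al 1 l d (some j) := by simp [al]
  have := he.2.1 1 1 l (j : ℕ) one_pos h0 one_pos (e1 ▸ al_pos h0 d (some j)) s _ hs
  rw [sb_one, pbz_congr e1 _ (al_pos h0 d (some j)), rs_apply] at this
  rw [X.pb_coe, show ze (1 * l) 1 ^ (j : ℕ) = ze (1 * l) (j : ℕ) by
    rw [ze, ze, ← Complex.exp_nat_mul]
    congr 1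
    push_cast
    ring]
  exact this

end Hec2

open Hec2 in
theorem hec2 (X : Mdl) (he : EXP) : HEC2 X := by
  intro x s s' sT l hl ζ hζ hs
  refine ⟨fun d h1 h2 => ?_, fun h2 => ?_⟩
  · refine (exM_period hl.pos one_ne_zero h2).unique (by simpa using hl.ne_zero) ?_
    have e1 : (!![(l : ℤ), 0; 0, ((1 : ℕ) : ℤ)] : M2) = !![(l : ℤ), 0; 0, 1] := by simp
    have a := he.2.1 1 l 1 0 hl.pos one_pos one_pos (e1 ▸ diag_pos hl.pos) s' _ h1
    rw [rs_zero, pbz_congr e1 _ (diag_pos hl.pos), Mdl.pg, X.pb_coe, pbz_SL,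
      ← pbz_none (P := 1) hl.pos, ← X.pb_coe] at a
    have b := exM_period hl.pos one_ne_zero a
    rw [sb_sb] at b
    have c := (up he X hl.pos hζ hs d).mul b
    rwa [mul_comm (∏ j : Fin l, _), ← Fintype.prod_option
      fun i => cv (X.pb (al 1 l d i) (al_pos hl.pos d i) x), ← map_prod] at c
  · refine (exM_period hl.pos one_ne_zero h2).unique (by simpa using hl.ne_zero) ?_
    have c := up he X hl.pos hζ hs 1
    rwa [← map_prod] at c

end Vale.Agent.P027M.M
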