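import Vale.Agent.P027M.M.Spec

/-! # P027, block M: the Hecke operators commute with the Galois action -/

set_option autoImplicit false

open UpperHalfPlane Matrix
open scoped MatrixGroups Manifold IntermediateField

noncomputable section

namespace Vale.Agent.P027M.M

open Vale.Agent.P022 Vale.Agent.P022.H218.L3 Vale.Agent.P022.H231.L3 Vale.Agent.P022.H236.L3
  Vale.Agent.P022.H542.L3 Vale.Agent.P019P P025H816 P025H492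

namespace Hec3

theorem cv_pg (X : Mdl) (γ : SL(2, ℤ)) (x : FF) : cv (X.pg γ x) = act γ⁻¹ (cv x) := by
  rw [Mdl.pg, X.pb_coe, pbz_SL]

theorem pg_eq (X : Mdl) {Γ : Subgroup SL(2, ℤ)} {x : FF} (hx : x ∈ L Γ) {γ : SL(2, ℤ)}
    (h : γ ∈ Γ) : X.pg γ x = x :=
  cv_inj (by rw [cv_pg]; exact hx _ (Γ.inv_mem h))

theorem mem_of_pg (X : Mdl) {Γ : Subgroup SL(2, ℤ)} {x : FF} (h : ∀ γ ∈ Γ, X.pg γ x = x) :
    x ∈ L Γ := by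
  intro γ hγ
  have e := congrArg cv (h _ (Γ.inv_mem hγ))
  rwa [cv_pg, inv_inv] at e

theorem ent (j : ℤ) (γ : SL(2, ℤ)) :
    (ModularGroup.T ^ j * γ) 0 0 = γ 0 0 + j * γ 1 0 ∧
    (ModularGroup.T ^ j * γ) 0 1 = γ 0 1 + j * γ 1 1 ∧
    (ModularGroup.T ^ j * γ) 1 0 = γ 1 0 ∧ (ModularGroup.T ^ j * γ) 1 1 = γ 1 1 := by
  have e : ∀ a b, (ModularGroup.T ^ j * γ) a b =
      ((!![1, j; 0, 1] : M2) * (γ : M2)) a b := fun a b => by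
    rw [← ModularGroup.coe_T_zpow, ← Matrix.SpecialLinearGroup.coe_mul]
  simp only [e]
  simp [Matrix.mul_apply, Fin.sum_univ_two]

/-- the twist of a matrix of `Γ₀(N)` -/
theorem tw_right {N : ℕ} (k : ℤ) {γ : SL(2, ℤ)} (h : (N : ℤ) ∣ γ 1 0) :
    ∃ j : ℤ, Tw N k γ (ModularGroup.T ^ j * γ) := by
  have hdet := γ.det_coe
  rw [Matrix.det_fin_two] at hdet
  obtain ⟨c, hc⟩ := h
  obtain ⟨e1, e2, e3, e4⟩ := ent (γ 0 0 * (k - 1) * γ 0 1) γ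
  refine ⟨γ 0 0 * (k - 1) * γ 0 1, ⟨γ 0 0 * (k - 1) * γ 0 1 * c, ?_⟩,
    ⟨(k - 1) * γ 0 1 * γ 0 1 * c, ?_⟩, ⟨(k - 1) * c, ?_⟩, ⟨0, ?_⟩⟩
  · rw [e1, hc]; ring
  · rw [e2]; linear_combination ((k - 1) * γ 0 1) * hdet + ((k - 1) * γ 0 1 * γ 0 1) * hc
  · rw [e3, hc]; ring
  · rw [e4]; ring

theorem tw_left {N : ℕ} {k : ℤ} (hk : IsCoprime k (N : ℤ)) {γ : SL(2, ℤ)} (h : (N : ℤ) ∣ γ 1 0) :
    ∃ j : ℤ, Tw N k (ModularGroup.T ^ j * γ) γ := by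
  have hdet := γ.det_coe
  rw [Matrix.det_fin_two] at hdet
  obtain ⟨c, hc⟩ := h
  obtain ⟨u, v, huv⟩ := hk
  obtain ⟨e1, e2, e3, e4⟩ := ent (γ 0 0 * (u - 1) * γ 0 1) γ
  refine ⟨γ 0 0 * (u - 1) * γ 0 1, ⟨-(γ 0 0 * (u - 1) * γ 0 1 * c), ?_⟩,
    ⟨v * γ 0 1 - k * (u - 1) * γ 0 1 * γ 0 1 * c, ?_⟩, ⟨(k - 1) * c, ?_⟩, ⟨0, ?_⟩⟩
  · rw [e1, hc]; ring
  · rw [e2]
    linear_combination (-k * (u - 1) * γ 0 1) * hdet - (k * (u - 1) * γ 0 1 * γ 0 1) * hc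
      - γ 0 1 * huv
  · rw [e3, hc]; ring
  · rw [e4]; ring

end Hec3

open Hec3

theorem hec3 (X : Mdl) (hS : SHIM X) (hG : GALX X) (h1 : HEC1 X) (h2 : HEC2 X) (hC : CF)
    (hE : EXP) (hSG : SERG) (hR : GRP) : HEC3 X := by
  intro N H hN hH
  obtain ⟨-, -, -, -, -, -, -, hR8⟩ := hR N hN
  obtain ⟨hT, hM, -⟩ := hR8 H
  have lo : L (GH N H) ≤ L (Gt N) := L_mono (hM hH).lo
  have A : ∀ x ∈ L (GH N H), ∀ g : GQ, X.gal g x ∈ L (GH N H) := by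
    intro x hx g
    obtain ⟨⟨k, hk, hc⟩, -⟩ := hSG N hN.pos g
    refine mem_of_pg X fun γ hγ => ?_
    obtain ⟨j, hj⟩ := tw_left hk hγ.1
    rw [← (hS N hN g k hc).2 _ _ hj x (lo hx), pg_eq X hx (mul_mem (zpow_mem hT j) hγ)]
  have B : ∀ x ∈ L (GH N H), ∀ g : GQ, ∀ γ : SL(2, ℤ), (N : ℤ) ∣ γ 1 0 →
      X.gal g (X.pg γ x) = X.pg γ (X.gal g x) := by
    intro x hx g γ hγ
    obtain ⟨⟨k, -, hc⟩, -⟩ := hSG N hN.pos g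
    obtain ⟨j, hj⟩ := tw_right k hγ
    obtain ⟨-, -, e3, e4⟩ := ent j γ
    rw [(hS N hN g k hc).2 _ _ hj x (lo hx)]
    exact (h1 N H hN _ (A x hx g)).2.1 _ _ (by rwa [e3]) hγ (by rw [e4, sub_self]; exact dvd_zero _)
  have ex : ∀ x ∈ L (GH N H), ∃ s, ExM 1 s (cv x) ∧ Alg s := fun x hx =>
    hE.2.2.1 1 x one_pos (by rw [pow_one]; exact hx _ hT)
  intro x hx g
  obtain ⟨-, c2, -, -, -, -, -, σ, -, c8⟩ := hC g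
  have exg : ∀ y ∈ L (GH N H), ∃ s, ExM 1 s (cv y) ∧ ExM 1 (cm σ s) (cv (X.gal g y)) := by
    intro y hy
    obtain ⟨s, hs, ha⟩ := ex y hy
    obtain ⟨s', hs'⟩ := c2 s ha
    exact ⟨s, hs, c8 s s' hs' ▸ hG.1 g y 1 s s' one_pos hs hs'⟩
  have root : ∀ l : ℕ, l.Prime → ∃ ζ : ℂ, IsPrimitiveRoot ζ l ∧ IsPrimitiveRoot (σ ζ) l :=
    fun l hl => ⟨_, Complex.isPrimitiveRoot_exp l hl.ne_zero,
      (Complex.isPrimitiveRoot_exp l hl.ne_zero).map_of_injective σ.injective⟩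
  have prd : ∀ (l : ℕ) (hl : l.Prime) (ζ : ℂ) (hζ : IsPrimitiveRoot ζ l)
      (hζ' : IsPrimitiveRoot (σ ζ) l) (s : LS),
      cm σ (∏ j ∈ Finset.range l, rs (ζ ^ j) (pow_ne_zero _ (hζ.ne_zero hl.ne_zero)) s) =
      ∏ j ∈ Finset.range l, rs (σ ζ ^ j) (pow_ne_zero _ (hζ'.ne_zero hl.ne_zero)) (cm σ s) := by
    intro l hl ζ hζ hζ' s
    rw [map_prod]
    refine Finset.prod_congr rfl fun j _ => ?_
    rw [cm_rs]
    congr 2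
    exact map_pow σ ζ j
  obtain ⟨s, hs, gs⟩ := exg x hx
  obtain ⟨a1, -, a3, a4⟩ := h1 N H hN x hx
  obtain ⟨-, -, b3, b4⟩ := h1 N H hN _ (A x hx g)
  refine ⟨A x hx g, B x hx g, fun l hl hlN d hd => ?_, fun q hq hqN => ?_⟩
  · obtain ⟨ζ, hζ, hζ'⟩ := root l hl
    obtain ⟨s', hs', gs'⟩ := exg _ (a1 d hd.1)
    obtain ⟨sT, hsT, gsT⟩ := exg _ (a3 l hl hlN d hd).1
    obtain ⟨uT, huT, -⟩ := ex _ (b3 l hl hlN d hd).1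
    rw [B x hx g d hd.1] at gs'
    have e1 := congrArg (cm σ) ((h2 x s s' sT l hl ζ hζ hs).1 d hs' hsT)
    have e2 := (h2 _ _ _ uT l hl _ hζ' gs).1 d gs' huT
    rw [map_mul, prd l hl ζ hζ hζ', cm_sb, cm_sb, ← e2] at e1
    rw [(sb l hl.pos).injective e1] at gsT
    exact cv_inj (hE.1 1 _ _ _ one_pos gsT huT)
  · obtain ⟨ζ, hζ, hζ'⟩ := root q hq
    obtain ⟨sT, hsT, gsT⟩ := exg _ (a4 q hq hqN).1
    obtain ⟨uT, huT, -⟩ := ex _ (b4 q hq hqN).1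
    have e1 := congrArg (cm σ) ((h2 x s s sT q hq ζ hζ hs).2 hsT)
    have e2 := (h2 _ _ s uT q hq _ hζ' gs).2 huT
    rw [prd q hq ζ hζ hζ', cm_sb, ← e2] at e1
    rw [(sb q hq.pos).injective e1] at gsT
    exact cv_inj (hE.1 1 _ _ _ one_pos gsT huT)

end Vale.Agent.P027M.M
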