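import Vale.Agent.P027M.M.Hec1

/-! # P027, block M: the Hecke operators commute -/

set_option autoImplicit false

open Matrix
open scoped MatrixGroups

noncomputable section

namespace Vale.Agent.P027M.M

open Vale.Agent.P022.H218.L3 Vale.Agent.P022.H231.L3

namespace Hec

variable (X : Mdl)

theorem tri_pos {a d : ℕ} (ha : 0 < a) (hd : 0 < d) (b : ℤ) :
    0 < (!![(a : ℤ), b; 0, (d : ℤ)] : M2).det := by
  rw [Matrix.det_fin_two_of, mul_zero, sub_zero]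
  exact_mod_cast Nat.mul_pos ha hd

/-- `y ↦ y ((a τ + b) / d)` -/
def tri {a d : ℕ} (ha : 0 < a) (hd : 0 < d) (b : ℤ) : FF ≃ₐ[Vale.Agent.P022.Qb] FF :=
  X.pb !![(a : ℤ), b; 0, (d : ℤ)] (tri_pos ha hd b)

theorem tri_tri {a d a' d' : ℕ} (ha : 0 < a) (hd : 0 < d) (ha' : 0 < a') (hd' : 0 < d') (b b' : ℤ)
    (y : FF) : tri X ha' hd' b' (tri X ha hd b y) =
      tri X (Nat.mul_pos ha ha') (Nat.mul_pos hd hd') (a * b' + b * d') y := by
  refine pb_mul X ?_ _ _ _ y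
  ext i j
  fin_cases i <;> fin_cases j <;> simp [Matrix.mul_apply, Fin.sum_univ_two]

theorem tri_congr {a d a' d' : ℕ} (ha : 0 < a) (hd : 0 < d) (ha' : 0 < a') (hd' : 0 < d')
    {b b' : ℤ} (e1 : a = a') (e2 : d = d') (e3 : b = b') (y : FF) :
    tri X ha hd b y = tri X ha' hd' b' y := by
  subst e1 e2 e3
  rfl

theorem U_tri {l : ℕ} (h0 : 0 < l) (y : FF) :
    X.U h0 y = ∏ j : Fin l, tri X one_pos h0 (j : ℕ) y := by
  rw [U_apply]
  refine Finset.prod_congr rfl fun j _ => pb_congr X ?_ _ _ y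
  simp [al]

theorem T_tri {l : ℕ} (h0 : 0 < l) (d : SL(2, ℤ)) (y : FF) :
    X.T h0 d y = X.U h0 y * tri X h0 one_pos 0 (X.pg d y) := by
  rw [T_eq]
  congr 1

theorem UU_eq {l l' : ℕ} (h : 0 < l) (h' : 0 < l') (y : FF) : X.U h (X.U h' y) =
    ∏ n : Fin (l' * l), tri X one_pos (Nat.mul_pos h' h) (n : ℕ) y := by
  rw [← Equiv.prod_comp finProdFinEquiv, Fintype.prod_prod_type, Finset.prod_comm, U_tri]
  refine Finset.prod_congr rfl fun j _ => ?_
  rw [U_tri, map_prod]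
  refine Finset.prod_congr rfl fun j' _ => ?_
  rw [tri_tri]
  refine tri_congr X _ _ _ _ rfl rfl ?_ y
  simp [finProdFinEquiv, mul_comm]

theorem UU {l l' : ℕ} (h : 0 < l) (h' : 0 < l') (y : FF) :
    X.U h (X.U h' y) = X.U h' (X.U h y) := by
  rw [UU_eq, UU_eq, ← Equiv.prod_comp (finCongr (mul_comm l l'))]
  exact Finset.prod_congr rfl fun n _ => tri_congr X _ _ _ _ rfl (mul_comm _ _) rfl y

theorem tri_mod {a d : ℕ} (ha : 0 < a) (hd : 0 < d) {y : FF}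
    (hy : ∀ n : ℤ, X.pg (ModularGroup.T ^ n) y = y) {b b' : ℤ} (e : (d : ℤ) ∣ b - b') :
    tri X ha hd b y = tri X ha hd b' y := by
  obtain ⟨n, hn⟩ := e
  conv_rhs => rw [← hy n]
  refine (pb_mul X ?_ _ _ _ y).symm
  rw [ModularGroup.coe_T_zpow]
  ext i j
  fin_cases i <;> fin_cases j <;> simp [Matrix.mul_apply, Fin.sum_univ_two]
  linear_combination -hn

theorem UV {l l' : ℕ} (h : 0 < l) (h' : 0 < l') (c : l.Coprime l') {y : FF}
    (hy : ∀ n : ℤ, X.pg (ModularGroup.T ^ n) y = y) :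
    X.U h (tri X h' one_pos 0 y) = tri X h' one_pos 0 (X.U h y) := by
  let π : Fin l → Fin l := fun j => ⟨l' * j % l, Nat.mod_lt _ h⟩
  have hi : Function.Injective π := fun i j e => by
    have e1 : l' * i ≡ l' * j [MOD l] := congrArg Fin.val e
    exact Fin.ext (Nat.ModEq.eq_of_lt_of_lt (Nat.ModEq.cancel_left_of_coprime c e1) i.2 j.2)
  rw [U_tri, U_tri, map_prod]
  refine Eq.trans (Finset.prod_congr rfl fun j _ => ?_)
    (Equiv.prod_comp (Equiv.ofBijective π (Finite.injective_iff_bijective.1 hi)) _)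
  rw [tri_tri, tri_tri, tri_congr X _ _ h' h (mul_one _) (one_mul _) rfl,
    tri_congr X (Nat.mul_pos one_pos h') _ h' h (one_mul _) (mul_one _) rfl]
  refine tri_mod X h' h hy ⟨((l' * j / l : ℕ) : ℤ), ?_⟩
  have e : ((l * (l' * j / l) + l' * j % l : ℕ) : ℤ) = (l' * j : ℕ) := by rw [Nat.div_add_mod]
  show ((l' : ℤ) * (j : ℕ) + 0 * l) - ((1 : ℕ) * 0 + ((l' * j % l : ℕ) : ℤ) * (1 : ℕ)) = _
  rw [Nat.cast_add, Nat.cast_mul, Nat.cast_mul] at e
  rw [Nat.cast_one]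
  linear_combination -e

theorem VV {l l' : ℕ} (h : 0 < l) (h' : 0 < l') (y : FF) :
    tri X h one_pos 0 (tri X h' one_pos 0 y) = tri X h' one_pos 0 (tri X h one_pos 0 y) := by
  rw [tri_tri, tri_tri]
  exact tri_congr X _ _ _ _ (mul_comm _ _) rfl (by simp) y

theorem pg_comm {N : ℕ} {H : Subgroup (ZMod N)ˣ} {x : FF} (hx : x ∈ L (GH N H))
    {γ δ : SL(2, ℤ)} (h : (N : ℤ) ∣ γ 1 0) (h' : (N : ℤ) ∣ δ 1 0) :
    X.pg γ (X.pg δ x) = X.pg δ (X.pg γ x) := by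
  have e1 : ∀ γ δ : SL(2, ℤ), (γ * δ) 1 0 = γ 1 0 * δ 0 0 + γ 1 1 * δ 1 0 := fun γ δ => by
    simp [Matrix.mul_apply, Fin.sum_univ_two]
  have e2 : ∀ γ δ : SL(2, ℤ), (γ * δ) 1 1 = γ 1 0 * δ 0 1 + γ 1 1 * δ 1 1 := fun γ δ => by
    simp [Matrix.mul_apply, Fin.sum_univ_two]
  rw [pg_mul, pg_mul]
  refine pg_congr X hx (by rw [e1]; exact dvd_add (h'.mul_right _) (h.mul_left _))
    (by rw [e1]; exact dvd_add (h.mul_right _) (h'.mul_left _)) ?_
  rw [e2, e2, mul_comm (δ 1 1), add_sub_add_right_eq_sub]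
  exact dvd_sub (h'.mul_right _) (h.mul_right _)

end Hec

open Hec in
theorem hec4 (X : Mdl) (h1 : HEC1 X) (hG : GRP) : HEC4 X := by
  intro N H hN x hx
  have hT : ∀ y ∈ L (GH N H), ∀ n : ℤ, X.pg (ModularGroup.T ^ n) y = y := fun y hy n =>
    (mem_L_iff X).1 hy _ (zpow_mem ((hG N hN).2.2.2.2.2.2.2 H).1 n)
  refine ⟨fun l l' hl hl' h h' d d' hd hd' => ?_, fun l q hl hq h h' d hd => ?_,
    fun q q' hq hq' _ _ => UU X _ _ x⟩
  · by_cases c : l = l'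
    · subst c
      obtain ⟨a1, a2, -⟩ := (h1 N H hN x hx).2.2.1 l hl h d hd
      rw [← a2 d' hd', ((h1 N H hN _ a1).2.2.1 l hl h d hd).2.1 d' hd']
    · have cp := (Nat.coprime_primes hl hl').2 c
      rw [T_tri X hl.pos d, T_tri X hl'.pos d' (X.T hl.pos d x),
        ((h1 N H hN x hx).2.2.1 l' hl' h' d' hd').2.2 d hd.1,
        ((h1 N H hN x hx).2.2.1 l hl h d hd).2.2 d' hd'.1]
      simp only [T_tri, map_mul]
      rw [UU X hl.pos hl'.pos, UV X hl.pos hl'.pos cp (hT _ ((h1 N H hN x hx).1 d' hd'.1)),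
        UV X hl'.pos hl.pos cp.symm (hT _ ((h1 N H hN x hx).1 d hd.1)), VV X hl.pos hl'.pos,
        pg_comm X hx hd.1 hd'.1]
      ring
  · have cp : q.Coprime l := (Nat.coprime_primes hq hl).2 fun e => h (e ▸ h')
    rw [T_tri, T_tri, map_mul, ((h1 N H hN x hx).2.2.2 q hq h').2 d hd.1, UU X hl.pos hq.pos,
      UV X hq.pos hl.pos cp (hT _ ((h1 N H hN x hx).1 d hd.1))]

end Vale.Agent.P027M.M
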