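import Vale.Agent.P027M.M.Spec
import Vale.Agent.P022.H406.L3.Fld

/-! # P027 block M: the level fields are unramified over the affine points -/

set_option autoImplicit false

open UpperHalfPlane Matrix
open scoped MatrixGroups Manifold IntermediateField

noncomputable section

namespace Vale.Agent.P027M.M

open Vale.Agent.P022 Vale.Agent.P022.H218.L3 Vale.Agent.P022.H231.L3 Vale.Agent.P022.H236.L3
  Vale.Agent.P022.H542.L3 Vale.Agent.P019P P025H816 P025H492

namespace Pla

/-- the place defined by an embedding in Laurent series -/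
theorem exists_place {k F Ω : Type*} [Field k] [Field F] [Algebra k F] [CFF k F] [Field Ω]
    (φ : F →+* LaurentSeries Ω) (h0 : ∀ c : k, (φ (algebraMap k F c)).order = 0)
    {π : F} (h1 : (φ π).order = 1) : ∃ Q : Plk k F, ∀ x, ord Q x = (φ x).order := by
  have hne : ∀ x : F, x ≠ 0 → φ x ≠ 0 := fun x hx => (_root_.map_ne_zero φ).2 hx
  have hmul : ∀ x y : F, x ≠ 0 → y ≠ 0 → (φ (x * y)).order = (φ x).order + (φ y).order := by
    intro x y hx hy
    rw [map_mul, HahnSeries.order_mul (hne x hx) (hne y hy)]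
  have hadd : ∀ x y : F, x + y ≠ 0 → min (φ x).order (φ y).order ≤ (φ (x + y)).order := by
    intro x y hxy
    have := hne _ hxy
    rw [map_add] at this ⊢
    exact HahnSeries.min_order_le_order_add this
  have hz : (φ 0).order = 0 := by rw [map_zero, HahnSeries.order_zero]
  have hone : (φ 1).order = 0 := by rw [map_one, HahnSeries.order_one]
  have hinv : ∀ x : F, (φ x⁻¹).order = -(φ x).order := by
    intro x
    by_cases hx : x = 0
    · rw [hx, _root_.inv_zero, hz, neg_zero]
    · have := hmul x x⁻¹ hx (inv_ne_zero hx)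
      rw [mul_inv_cancel₀ hx, hone] at this
      omega
  let O : ValuationSubring F :=
    { carrier := {x | 0 ≤ (φ x).order}
      mul_mem' := by
        intro x y hx hy
        show 0 ≤ (φ (x * y)).order
        by_cases h : x = 0
        · rw [h, zero_mul, hz]
        by_cases h' : y = 0
        · rw [h', mul_zero, hz]
        rw [hmul x y h h']
        exact add_nonneg hx hy
      one_mem' := hone.ge
      add_mem' := by
        intro x y hx hy
        show 0 ≤ (φ (x + y)).order
        by_cases h : x + y = 0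
        · rw [h, hz]
        exact (le_min hx hy).trans (hadd x y h)
      zero_mem' := hz.ge
      neg_mem' := by
        intro x hx
        show 0 ≤ (φ (-x)).order
        rw [map_neg, HahnSeries.order_neg]
        exact hx
      mem_or_inv_mem' := by
        intro x
        show 0 ≤ (φ x).order ∨ 0 ≤ (φ x⁻¹).order
        rw [hinv]
        omega }
  have hO : ∀ x, x ∈ O ↔ 0 ≤ (φ x).order := fun x => Iff.rfl
  have hord : IsOrd O fun x => (φ x).order :=
    ⟨hz, hmul, fun x y _ _ h => hadd x y h, fun x => ⟨fun h => Or.inr h, fun h => by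
      rcases h with h | h
      · rw [h]; exact O.zero_mem
      · exact h⟩, ⟨π, h1⟩⟩
  have hT : O ≠ ⊤ := fun ht => by
    have : π⁻¹ ∈ O := ht ▸ ValuationSubring.mem_top _
    rw [hO, hinv, h1] at this
    omega
  let Q : Plk k F := ⟨O, fun a => (h0 a).ge, hT⟩
  exact ⟨Q, fun x => congrFun (IsOrd.unique (ord_spec Q) hord) x⟩

/-- in a rational function field the generator has one zero -/
theorem zero_unique {k F : Type*} [Field k] [Field F] [Algebra k F] [CFF k F] {x : F}
    (hx : k⟮x⟯ = ⊤) {P Q : Plk k F} (hP : 0 < ord P x) (hQ : 0 < ord Q x) : P = Q := by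
  classical
  by_contra hne
  have h1 := sum_ord_le (nc_of_ord (P := P) hP.ne') {P, Q} (by
    intro R hR
    rcases Finset.mem_insert.1 hR with rfl | h
    · exact hP
    · rw [Finset.mem_singleton.1 h]; exact hQ)
  rw [Finset.sum_pair hne, hx, IntermediateField.finrank_top] at h1
  omega

theorem adjoin_tL (X : Mdl) (a : Qb) :
    Qb⟮X.tL (le_refl G0) - algebraMap Qb (L G0) a⟯ = ⊤ := by
  apply IntermediateField.lift_injective
  rw [IntermediateField.lift_adjoin_simple, IntermediateField.lift_top]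
  have e : ((X.tL (le_refl G0) - algebraMap Qb (L G0) a : L G0) : FF) = X.t - algebraMap Qb FF a := rfl
  rw [e, X.base]
  apply le_antisymm
  · rw [IntermediateField.adjoin_simple_le_iff]
    exact sub_mem (IntermediateField.mem_adjoin_simple_self _ _) (IntermediateField.algebraMap_mem _ a)
  · rw [IntermediateField.adjoin_simple_le_iff]
    have := add_mem (IntermediateField.mem_adjoin_simple_self Qb (X.t - algebraMap Qb FF a))
      (IntermediateField.algebraMap_mem _ a)
    rwa [sub_add_cancel] at this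

/-- a place with a simple zero of `t - a` -/
theorem exists_simple (X : Mdl) {Γ : Subgroup SL(2, ℤ)} (h : Γ ≤ G0) [CFF Qb (L Γ)] {a : Qb}
    (h2 : a ≠ 2) (h2' : a ≠ -2) :
    ∃ Q : Plk Qb (L Γ), ord Q (X.tL h - algebraMap Qb (L Γ) a) = 1 := by
  obtain ⟨P, hP, e, hd, -, hs⟩ := X.hol
  obtain ⟨τ, hτ⟩ := hs (io a)
    (fun h => h2 ((io : Qb →+* ℂ).injective (by rw [map_ofNat]; exact h)))
    (fun h => h2' ((io : Qb →+* ℂ).injective (by rw [map_neg, map_ofNat]; exact h)))
  obtain ⟨θ, h1, -⟩ := H406.L3.exists_theta hP τ (hd τ)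
  let φ : L Γ →+* LS := (θ : Mer →+* LS).comp ((cv : FF →+* Mer).comp (L Γ).val)
  have hc : ∀ c : Qb, φ (algebraMap Qb (L Γ) c) = HahnSeries.C (io c) := by
    intro c
    show θ (cv (algebraMap Qb FF c)) = _
    rw [cv_alg, θ.commutes, algMap_ls]
  have ht : (φ (X.tL h - algebraMap Qb (L Γ) a)).order = 1 := by
    rw [map_sub, hc]
    show (θ (cv X.t) - _).order = 1
    rw [e, h1, hτ, add_sub_cancel_left, HahnSeries.order_single one_ne_zero]
  obtain ⟨Q, hQ⟩ := exists_place (k := Qb) φ (fun c => by rw [hc, HahnSeries.order_C]) ht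
  exact ⟨Q, by rw [hQ, ht]⟩

end Pla

open Pla

theorem pla (X : Mdl) (hA : ARTIN X) (hC : CFFS) (hG : GRP) : PLA X := by
  intro N Γ h _ P a h2 h2' hP
  obtain ⟨hfi, hn, hm, -⟩ := hG N h.lv
  have hfi0 : G0.FiniteIndex := Subgroup.finiteIndex_of_le hm.hi
  have c1 : CFF Qb (L (Gt N)) := hC _ hm.hi hfi
  have c0 : CFF Qb (L G0) := hC _ le_rfl hfi0
  obtain ⟨P', hP', hP''⟩ : ∃ P' : Plk Qb (L (Gt N)),
      0 < ord P' (X.tL hm.hi - algebraMap Qb (L (Gt N)) a) ∧
      ord P (X.tL h.hi - algebraMap Qb (L Γ) a) ∣ ord P' (X.tL hm.hi - algebraMap Qb (L (Gt N)) a) := by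
    letI := algL h.lo
    haveI := towerL h.lo
    haveI := (hA Γ (Gt N) h.lo hfi).1
    obtain ⟨P', e⟩ := exists_over (L := L (Gt N)) P
    have e1 : X.tL hm.hi - algebraMap Qb (L (Gt N)) a =
        algebraMap (L Γ) (L (Gt N)) (X.tL h.hi - algebraMap Qb (L Γ) a) := rfl
    refine ⟨P', ?_, ?_⟩
    · rw [e1, ord_up_pos_iff, e]
      exact hP
    · rw [e1, ord_algebraMap, e]
      exact Dvd.intro_left _ rfl
  obtain ⟨Q, hQ⟩ := exists_simple X hm.hi h2 h2'
  have h1 : ord P' (X.tL hm.hi - algebraMap Qb (L (Gt N)) a) = 1 := by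
    letI := algL hm.hi
    haveI := towerL hm.hi
    obtain ⟨f1, f2⟩ := hA G0 (Gt N) hm.hi hfi
    haveI := f1
    haveI := (f2 fun γ _ => hn γ).1
    have e1 : X.tL hm.hi - algebraMap Qb (L (Gt N)) a =
        algebraMap (L G0) (L (Gt N)) (X.tL le_rfl - algebraMap Qb (L G0) a) := rfl
    rw [e1] at hP' hQ ⊢
    have e2 : down (L G0) P' = down (L G0) Q :=
      zero_unique (adjoin_tL X a) ((ord_up_pos_iff _ _).1 hP')
        ((ord_up_pos_iff _ _).1 (by rw [hQ]; exact one_pos))
    rw [ord_algebraMap, ram_eq_of_down_eq e2, e2, ← ord_algebraMap, hQ]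
  rw [h1] at hP''
  exact Int.eq_one_of_dvd_one hP.le hP''

end Vale.Agent.P027M.M
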