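import Vale.Agent.P027M.M.Spec

/-! # P027, block M: expansions are quotients of primitive series -/

set_option autoImplicit false

open UpperHalfPlane Matrix
open scoped MatrixGroups IntermediateField

noncomputable section

namespace Vale.Agent.P027M.M

open Vale.Agent.P022 Vale.Agent.P022.H218.L3 Vale.Agent.P022.H236.L3 Vale.Agent.P022.H542.L3

namespace Prim

/-- algebraic coefficients in a finitely generated group -/
def Bd (s : LS) : Prop := Alg s ∧ ∃ M : Submodule ℤ ℂ, M.FG ∧ ∀ n, s.coeff n ∈ M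

theorem Bd.add {s s' : LS} (h : Bd s) (h' : Bd s') : Bd (s + s') := by
  obtain ⟨a, M, f, m⟩ := h
  obtain ⟨a', M', f', m'⟩ := h'
  exact ⟨a.add a', M ⊔ M', f.sup f', fun n => Submodule.add_mem_sup (m n) (m' n)⟩

theorem Bd.mul {s s' : LS} (h : Bd s) (h' : Bd s') : Bd (s * s') := by
  obtain ⟨a, M, f, m⟩ := h
  obtain ⟨a', M', f', m'⟩ := h'
  refine ⟨a.mul a', M * M', f.mul f', fun n => ?_⟩
  rw [HahnSeries.coeff_mul]
  exact Submodule.sum_mem _ fun ij _ => Submodule.mul_mem_mul (m _) (m' _)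

theorem bd_single (i : ℤ) (a : Qb) : Bd (HahnSeries.single i (io a)) := by
  refine ⟨fun n => ?_, Submodule.span ℤ {io a}, Submodule.fg_span_singleton _, fun n => ?_⟩ <;>
    by_cases h : n = i
  · exact ⟨a, by rw [h, HahnSeries.coeff_single_same]⟩
  · exact ⟨0, by rw [HahnSeries.coeff_single_of_ne h, map_zero]⟩
  · rw [h, HahnSeries.coeff_single_same]; exact Submodule.mem_span_singleton_self _
  · rw [HahnSeries.coeff_single_of_ne h]; exact zero_mem _

theorem bd_C (a : Qb) : Bd (HahnSeries.C (io a)) := bd_single 0 a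

theorem bd_one : Bd 1 := by simpa using bd_C 1

theorem bd_zero : Bd 0 := by simpa using bd_C 0

theorem Bd.sub {s s' : LS} (h : Bd s) (h' : Bd s') : Bd (s - s') := by
  have e : s - s' = s + HahnSeries.C (io (-1)) * s' := by
    rw [map_neg, map_one, map_neg, map_one]; ring
  rw [e]
  exact h.add ((bd_C (-1)).mul h')

theorem Bd.sb {s : LS} (h : Bd s) (m : ℕ) (hm : 0 < m) : Bd (sb m hm s) := by
  obtain ⟨a, M, f, c⟩ := h
  refine ⟨a.sb m hm, M, f, fun n => ?_⟩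
  by_cases hd : (m : ℤ) ∣ n
  · obtain ⟨k, rfl⟩ := hd
    rw [coeff_sb_mul]; exact c k
  · rw [coeff_sb_of_not_dvd _ _ _ _ hd]; exact zero_mem _

theorem bd_Xs (h0 : SER0) {N : ℕ} (hN : 0 < N) {v : Fin 2 → ℤ} (hv : NZ N v) : Bd (Xs N v) := by
  obtain ⟨-, -, a, c⟩ := h0 N hN v v
  have N0 : (N : ℂ) ≠ 0 := by exact_mod_cast hN.ne'
  have hi : IsIntegral ℤ (ze N 1) := by
    refine IsIntegral.of_pow hN ?_
    have : ze N 1 ^ N = 1 := by
      rw [ze, ← Complex.exp_nat_mul, ← Complex.exp_two_pi_mul_I]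
      congr 1
      push_cast
      field_simp
    rw [this]
    exact isIntegral_one
  refine ⟨a, Submodule.span ℤ {((N : ℂ) ^ 2)⁻¹} * Subalgebra.toSubmodule (Algebra.adjoin ℤ {ze N 1}),
    (Submodule.fg_span_singleton _).mul hi.fg_adjoin_singleton, fun n => ?_⟩
  have := Submodule.mul_mem_mul (Submodule.mem_span_singleton_self (R := ℤ) ((N : ℂ) ^ 2)⁻¹)
    (show _ ∈ Subalgebra.toSubmodule (Algebra.adjoin ℤ {ze N 1}) from c hv n)
  rwa [← mul_assoc, inv_mul_cancel₀ (pow_ne_zero 2 N0), one_mul] at this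

/-- quotients of bounded series -/
def QB (s : LS) : Prop := ∃ a b, Bd a ∧ Bd b ∧ b ≠ 0 ∧ s * b = a

theorem Bd.qb {s : LS} (h : Bd s) : QB s := ⟨s, 1, h, bd_one, one_ne_zero, mul_one s⟩

theorem QB.add {s s' : LS} (h : QB s) (h' : QB s') : QB (s + s') := by
  obtain ⟨a, b, ha, hb, b0, rfl⟩ := h
  obtain ⟨a', b', ha', hb', b0', rfl⟩ := h'
  exact ⟨_, b * b', (ha.mul hb').add (ha'.mul hb), hb.mul hb', mul_ne_zero b0 b0', by ring⟩

theorem QB.mul {s s' : LS} (h : QB s) (h' : QB s') : QB (s * s') := by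
  obtain ⟨a, b, ha, hb, b0, rfl⟩ := h
  obtain ⟨a', b', ha', hb', b0', rfl⟩ := h'
  exact ⟨_, b * b', ha.mul ha', hb.mul hb', mul_ne_zero b0 b0', by ring⟩

theorem QB.inv {s : LS} (h : QB s) : QB s⁻¹ := by
  by_cases s0 : s = 0
  · rw [s0, _root_.inv_zero]; exact bd_zero.qb
  obtain ⟨a, b, ha, hb, b0, rfl⟩ := h
  exact ⟨b, s * b, hb, ha, mul_ne_zero s0 b0, by rw [← mul_assoc, inv_mul_cancel₀ s0, one_mul]⟩

theorem QB.sb {s : LS} (h : QB s) (m : ℕ) (hm : 0 < m) : QB (sb m hm s) := by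
  obtain ⟨a, b, ha, hb, b0, rfl⟩ := h
  exact ⟨_, _, ha.sb m hm, hb.sb m hm, (map_ne_zero _).2 b0, (map_mul _ _ _).symm⟩

/-- the coefficients at the multiples of `m` -/
def ex (m : ℕ) (hm : 0 < m) (b : LS) : LS :=
  HahnSeries.ofSuppBddBelow (fun n : ℤ => b.coeff (m * n)) ⟨min 0 b.order, fun n hn => by
    have h1 := HahnSeries.order_le_of_coeff_ne_zero hn
    have h2 : (1 : ℤ) ≤ m := by exact_mod_cast hm
    rcases le_total 0 n with h | h
    · exact (min_le_left _ _).trans h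
    · exact (min_le_right _ _).trans (h1.trans (by nlinarith))⟩

theorem coeff_ex (m : ℕ) (hm : 0 < m) (b : LS) (n : ℤ) : (ex m hm b).coeff n = b.coeff (m * n) := rfl

theorem Bd.ex {s : LS} (h : Bd s) (m : ℕ) (hm : 0 < m) : Bd (ex m hm s) := by
  obtain ⟨a, M, f, c⟩ := h
  exact ⟨fun n => a _, M, f, fun n => c _⟩

theorem ex_mul (m : ℕ) (hm : 0 < m) (s b : LS) : ex m hm (sb m hm s * b) = s * ex m hm b := by
  ext n
  have e : sb m hm s * b = sb m hm (s * ex m hm b) + sb m hm s * (b - sb m hm (ex m hm b)) := by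
    rw [map_mul]; ring
  rw [coeff_ex, e, HahnSeries.coeff_add, coeff_sb_mul, HahnSeries.coeff_mul (x := sb m hm s),
    Finset.sum_eq_zero, add_zero]
  intro ij hij
  have h := (Finset.mem_antidiagonal.1 hij).2.2
  by_cases hd : (m : ℤ) ∣ ij.1
  · obtain ⟨k, hk⟩ : (m : ℤ) ∣ ij.2 := (dvd_add_right hd).1 (h ▸ dvd_mul_right _ _)
    rw [hk, HahnSeries.coeff_sub, coeff_sb_mul, coeff_ex, sub_self, mul_zero]
  · rw [coeff_sb_of_not_dvd _ _ _ _ hd, zero_mul]

theorem QB.desc {s : LS} {m : ℕ} {hm : 0 < m} (h : QB (H542.L3.sb m hm s)) : QB s := by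
  obtain ⟨a, b, ha, hb, b0, rfl⟩ := h
  have h1 := bd_single (-b.order) 1
  refine ⟨_, ex m hm (HahnSeries.single (-b.order) (io 1) * b), (h1.mul ha).ex m hm,
    (h1.mul hb).ex m hm, fun e => ?_, ?_⟩
  · have h2 := congrArg (fun z => z.coeff 0) e
    simp only [coeff_ex, mul_zero, HahnSeries.coeff_zero] at h2
    rw [← add_neg_cancel b.order, HahnSeries.coeff_single_mul_add, map_one, one_mul] at h2
    exact b0 (HahnSeries.coeff_order_eq_zero.1 h2)
  · rw [← ex_mul, mul_left_comm]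

theorem Bd.norm {s : LS} (h : Bd s) (s0 : s ≠ 0) (O : ValuationSubring ℂ) :
    ∃ (c : Qb) (a : LS), c ≠ 0 ∧ Alg a ∧ (∀ k, a.coeff k ∈ O) ∧ (∃ k, a.coeff k = 1) ∧
      s = HahnSeries.C (io c) * a := by
  obtain ⟨al, M, f, m⟩ := h
  obtain ⟨T, hT, e⟩ := (Submodule.fg_span_iff_fg_span_finset_subset (Set.range s.coeff)).1
    (f.of_le (Submodule.span_le.2 (Set.range_subset_iff.2 m)))
  have key : ∀ z : ℂ, (∀ t ∈ T, O.valuation t ≤ O.valuation z) →
      ∀ n, O.valuation (s.coeff n) ≤ O.valuation z := by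
    intro z hz n
    have h1 : s.coeff n ∈ Submodule.span ℤ (T : Set ℂ) := e ▸ Submodule.subset_span ⟨n, rfl⟩
    generalize s.coeff n = y at h1
    induction h1 using Submodule.span_induction with
    | mem x hx => exact hz x hx
    | zero => rw [map_zero]; exact zero_le
    | add x y _ _ hx hy => exact O.valuation.map_add_le hx hy
    | smul k x _ hx =>
      rw [zsmul_eq_mul, map_mul]
      exact (mul_le_of_le_one_left' ((O.valuation_le_one_iff _).2 (intCast_mem O k))).trans hx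
  have n0 : s.coeff s.order ≠ 0 := HahnSeries.coeff_order_eq_zero.not.2 s0
  have nz : ∀ z : ℂ, (∀ t ∈ T, O.valuation t ≤ O.valuation z) → z ≠ 0 := by
    intro z hz z0
    have := key z hz s.order
    rw [z0, map_zero, le_zero_iff, map_eq_zero] at this
    exact n0 this
  rcases T.eq_empty_or_nonempty with rfl | ne
  · exact absurd rfl (nz 0 fun t ht => absurd ht (Finset.notMem_empty t))
  obtain ⟨z, hz, hm⟩ := Finset.exists_max_image T O.valuation ne
  obtain ⟨k, rfl⟩ := hT hz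
  have z0 := nz _ hm
  obtain ⟨c, hc⟩ := al k
  have co : ∀ n, (HahnSeries.C (io c⁻¹) * s).coeff n = (s.coeff k)⁻¹ * s.coeff n := fun n => by
    rw [HahnSeries.C_apply, HahnSeries.coeff_single_zero_mul, map_inv₀, hc]
  refine ⟨c, HahnSeries.C (io c⁻¹) * s, fun c0 => z0 (by rw [hc, c0, map_zero]),
    (alg_C _).mul al, fun n => ?_, ⟨k, by rw [co, inv_mul_cancel₀ z0]⟩, ?_⟩
  · rw [co, ← O.valuation_le_one_iff, map_mul, map_inv₀]
    exact (inv_mul_le_one₀ (zero_lt_iff.2 ((map_ne_zero _).2 z0))).2 (key _ hm n)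
  · rw [← mul_assoc, ← map_mul, map_inv₀, ← hc, mul_inv_cancel₀ z0, map_one, one_mul]

theorem alg_io (a : Qb) : IsAlgebraic ℚ (io a) :=
  ((AlgebraicClosure.isAlgebraic ℚ).isAlgebraic a).algHom io

theorem nz_of {N : ℕ} (k : ℕ) (h0 : 0 < k) (h1 : k < N) : NZ N ![0, (k : ℤ)] := by
  intro h
  have h2 : (N : ℤ) ∣ (k : ℤ) := h 1
  exact absurd (Nat.le_of_dvd h0 (Int.natCast_dvd_natCast.1 h2)) (not_le.2 h1)

theorem level (X : Mdl) (h0 : SER0) {N : ℕ} (hN : Lv N) {x : FF} (hx : x ∈ L (Gt N)) :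
    ∃ s, ExM N s (cv x) ∧ QB s := by
  have N0 := hN.pos
  have N4 := Nat.le_of_dvd N0 hN.four
  rw [X.gen N hN] at hx
  induction hx using IntermediateField.adjoin_induction with
  | mem x hx =>
    obtain ⟨v, hv, rfl⟩ := hx
    have h1 := X.rex N hN v hv 1
    have e1 : ∀ w : Fin 2 → ℤ, w ᵥ* ((1 : SL(2, ℤ)) : M2) = w := fun w => vecMul_one w
    rw [e1, e1, e1, inv_one, map_one, AlgEquiv.one_apply] at h1
    have b1 := bd_Xs h0 N0 (show NZ N (p1 N) from nz_of (N / 2) (by omega) (by omega))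
    have b4 := bd_Xs h0 N0 (show NZ N (p4 N) from nz_of (N / 4) (by omega) (by omega))
    refine ⟨_, h1, ?_⟩
    rw [div_eq_mul_inv]
    exact ((bd_Xs h0 N0 hv).sub b1).qb.mul (b4.sub b1).qb.inv
  | algebraMap a => exact ⟨_, by rw [cv_alg]; exact ExM.const N (io a), (bd_C a).qb⟩
  | add x y _ _ hx hy =>
    obtain ⟨s, e, q⟩ := hx
    obtain ⟨s', e', q'⟩ := hy
    exact ⟨_, by rw [map_add]; exact e.add e', q.add q'⟩
  | inv x _ hx =>
    obtain ⟨s, e, q⟩ := hx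
    exact ⟨_, by rw [map_inv₀]; exact e.inv N0.ne', q.inv⟩
  | mul x y _ _ hx hy =>
    obtain ⟨s, e, q⟩ := hx
    obtain ⟨s', e', q'⟩ := hy
    exact ⟨_, by rw [map_mul]; exact e.mul e', q.mul q'⟩

end Prim

theorem prim (X : Mdl) (h0 : SER0) (hG : GALX X) (hE : EXP) : PRIM := by
  intro x x0 N s hN hs O
  obtain ⟨M, hM, hx⟩ := hG.2.2.2.2.1 x
  obtain ⟨s', e', q'⟩ := Prim.level X h0 hM hx
  have e1 := exM_period hM.pos hN.ne' hs
  have e2 := exM_period hN hM.pos.ne' e'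
  rw [mul_comm] at e2
  have q : Prim.QB (sb M hM.pos s) := by
    rw [e1.unique (Nat.mul_pos hN hM.pos).ne' e2]
    exact q'.sb N hN
  obtain ⟨a, b, ha, hb, b0, e⟩ := q.desc
  have s0 : s ≠ 0 := by
    rintro rfl
    have h1 := ExM.const N 0
    rw [map_zero, map_zero] at h1
    exact x0 (cv_inj ((hE.1 N 0 _ _ hN hs h1).trans (map_zero cv).symm))
  obtain ⟨ca, a', ca0, a1, a2, a3, a4⟩ := ha.norm (e ▸ mul_ne_zero s0 b0) O
  obtain ⟨cb, b', cb0, b1, b2, b3, b4⟩ := hb.norm b0 O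
  have i0 : ∀ c : Qb, c ≠ 0 → io c ≠ 0 := fun c h => (map_ne_zero io).2 h
  refine ⟨io (ca / cb), a', b', i0 _ (div_ne_zero ca0 cb0), Prim.alg_io _,
    fun k => (a1 k).choose_spec ▸ Prim.alg_io _, fun k => (b1 k).choose_spec ▸ Prim.alg_io _,
    a2, b2, a3, b3, ?_⟩
  have c0 : (HahnSeries.C (io cb) : LS) ≠ 0 := (map_ne_zero _).2 (i0 _ cb0)
  refine mul_left_cancel₀ c0 ?_
  rw [mul_left_comm, ← b4, e, a4, ← mul_assoc, ← map_mul, ← map_mul, mul_div_cancel₀ _ cb0]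

end Vale.Agent.P027M.M
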