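import Vale.Agent.P027M.M.Spec
import Vale.Agent.P027M.M.A4

/-! # P027, block M: the leading coefficient of `X_v - X_w` -/

set_option autoImplicit false

noncomputable section

namespace Vale.Agent.P027M.M

theorem ab_eq (N : ℕ) [NeZero N] (a : ZMod N) : A.ab a = a.valMinAbs.natAbs := by
  rw [ZMod.valMinAbs_natAbs_eq_min, A.ab, ZMod.neg_val]
  split_ifs with h
  · simp [h]
  · rfl

theorem ser : SER := by
  intro N hN v w hv hw h1 h2
  have : NeZero N := ⟨hN.ne'⟩
  have := (sa4 N hN).2 v w hv hw h1 h2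
  rwa [A.eo, ab_eq, ab_eq] at this

end Vale.Agent.P027M.M
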