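import Vale.Agent.P027M.M.CDefs

/-! # P027, block M, part C: the series `X_v` under the Galois group -/

set_option autoImplicit false

noncomputable section

namespace Vale.Agent.P027M.M

open Vale.Agent.P022 Vale.Agent.P022.H236.L3

namespace CXs

/-- the coefficients over any field -/
def Yc {K : Type*} [Field K] (z : K) (N : ℕ) (v : Fin 2 → ℤ) (k : ℕ) : K :=
  if k = 0 then (if (N : ℤ) ∣ v 0 then z ^ v 1 / (1 - z ^ v 1) ^ 2 else 0)
  else ∑ j ∈ k.divisors,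
    ((if (N : ℤ) ∣ ((k / j : ℕ) : ℤ) - v 0 then (j : K) * z ^ (v 1 * j) else 0) +
      (if (N : ℤ) ∣ ((k / j : ℕ) : ℤ) + v 0 then (j : K) * z ^ (-(v 1 * j)) else 0))

theorem map_Yc {K K' : Type*} [Field K] [Field K'] (φ : K →+* K') (z : K) (N : ℕ)
    (v : Fin 2 → ℤ) (k : ℕ) : φ (Yc z N v k) = Yc (φ z) N v k := by
  simp only [Yc, apply_ite φ, map_sum, map_add, map_mul, map_natCast, map_zpow₀, map_div₀, map_pow,
    map_sub, map_one, map_zero]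

theorem ze_pow (N : ℕ) (b : ℤ) : ze N 1 ^ b = ze N b := by
  rw [ze, ze, ← Complex.exp_int_mul]
  congr 1
  push_cast
  ring

theorem Xc_eq (N : ℕ) (v : Fin 2 → ℤ) (k : ℕ) : Xc N v k = Yc (ze N 1) N v k := by
  simp only [Xc, Yc, ze_pow]

theorem Yc_pow {K : Type*} [Field K] (z : K) (m : ℤ) (N : ℕ) (v : Fin 2 → ℤ) (k : ℕ) :
    Yc (z ^ m) N v k = Yc z N ![v 0, m * v 1] k := by
  simp only [Yc, ← zpow_mul, Matrix.cons_val_zero, Matrix.cons_val_one, mul_neg, mul_assoc]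
  rfl

theorem prim {N : ℕ} (hN : 0 < N) : IsPrimitiveRoot (ze N 1) N := by
  simpa [ze] using Complex.isPrimitiveRoot_exp N hN.ne'

theorem Yc_neg {K : Type*} [Field K] {z : K} (hz : z ≠ 0) (N : ℕ) (v : Fin 2 → ℤ) (k : ℕ) :
    Yc z N (-v) k = Yc z N v k := by
  simp only [Yc, Pi.neg_apply, dvd_neg, sub_neg_eq_add, neg_mul, neg_neg, ← sub_eq_add_neg]
  split_ifs
  · rw [zpow_neg]
    have h := zpow_ne_zero (v 1) hz
    generalize z ^ v 1 = x at h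
    rw [show 1 - x⁻¹ = -x⁻¹ * (1 - x) by field_simp; ring, mul_pow, div_mul_eq_div_div]
    congr 1
    field_simp
  · rfl
  · exact Finset.sum_congr rfl fun j _ => add_comm _ _

theorem Yc_congr {K : Type*} [Field K] {z : K} {N : ℕ} (hN : 0 < N) (hz : z ^ N = 1)
    {v w : Fin 2 → ℤ} (h : ∀ i, (N : ℤ) ∣ v i - w i) (k : ℕ) : Yc z N v k = Yc z N w k := by
  have z0 : z ≠ 0 := fun e => by simp [e, hN.ne'] at hz
  obtain ⟨a, ha⟩ := h 0
  obtain ⟨b, hb⟩ := h 1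
  have e1 : z ^ v 1 = z ^ w 1 := by
    rw [eq_add_of_sub_eq hb, zpow_add₀ z0, zpow_mul, zpow_natCast, hz, one_zpow, one_mul]
  have e2 : ∀ c : ℤ, (N : ℤ) ∣ c - v 0 ↔ (N : ℤ) ∣ c - w 0 := fun c =>
    dvd_iff_dvd_of_dvd_sub ⟨-a, by linear_combination -ha⟩
  have e3 : ∀ c : ℤ, (N : ℤ) ∣ c + v 0 ↔ (N : ℤ) ∣ c + w 0 := fun c =>
    dvd_iff_dvd_of_dvd_sub ⟨a, by linear_combination ha⟩
  have e4 : (N : ℤ) ∣ v 0 ↔ (N : ℤ) ∣ w 0 := dvd_iff_dvd_of_dvd_sub ⟨a, ha⟩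
  simp only [Yc, zpow_neg, zpow_mul, e1, e2, e3, e4]

theorem exz {N : ℕ} (hN : 0 < N) : ∃ z : Qb, io z = ze N 1 ∧ IsPrimitiveRoot z N := by
  have : NeZero N := ⟨hN.ne'⟩
  obtain ⟨y, hy⟩ := HasEnoughRootsOfUnity.exists_primitiveRoot Qb N
  obtain ⟨i, -, hi⟩ := (hy.map_of_injective (io : Qb →+* ℂ).injective).eq_pow_of_pow_eq_one
    (prim hN).pow_eq_one
  have e : io (y ^ i) = ze N 1 := by rw [map_pow]; exact hi
  exact ⟨_, e, .of_map_of_injective (f := (io : Qb →+* ℂ)) (e ▸ prim hN) (io : Qb →+* ℂ).injective⟩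

theorem cf {N : ℕ} {z : Qb} (hz : io z = ze N 1) (g : GQ) {v w : Fin 2 → ℤ}
    (h : ∀ k, io (g (Yc z N v k)) = Xc N w k) : Cf g (Xs N v) (Xs N w) := by
  intro n
  rcases lt_or_ge n 0 with hn | hn
  · exact ⟨0, by simp [Xs, coeff_ls_of_lt _ _ hn]⟩
  · obtain ⟨k, rfl⟩ := Int.eq_ofNat_of_zero_le hn
    have e : ∀ u, (Xs N u).coeff k = Xc N u k := fun u => by
      simpa [Xs] using coeff_ls 0 (PowerSeries.mk (Xc N u)) k
    exact ⟨_, by rw [e, Xc_eq, ← hz]; exact (map_Yc (io : Qb →+* ℂ) z N v k).symm, by rw [e, h]⟩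

end CXs

open CXs

theorem sXs : SXs := by
  intro N hN
  have : NeZero N := ⟨hN.ne'⟩
  obtain ⟨z, hz, pz⟩ := exz hN
  have key : ∀ (g : GQ) (k : ℤ), Cyc N g k → ∀ v, Cf g (Xs N v) (Xs N ![v 0, k * v 1]) :=
    fun g k h v => cf hz g fun n => by
      rw [Xc_eq, ← Yc_pow, ze_pow, ← h z hz]
      exact (congrArg io (map_Yc (g : Qb →+* Qb) z N v n)).trans (map_Yc (io : Qb →+* ℂ) _ N v n)
  refine ⟨fun v n => (key 1 1 (fun _ h => h) v n).imp fun _ h => h.1, fun v w h => ?_,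
    fun g => ?_, key⟩
  · have c := fun {v w : Fin 2 → ℤ} => Yc_congr (v := v) (w := w) hN (prim hN).pow_eq_one
    refine congrArg (fun f => ls 0 (PowerSeries.mk f)) (funext fun k => ?_)
    rw [Xc_eq, Xc_eq]
    rcases h with h | h
    · exact c (not_not.1 h) k
    · rw [← Yc_neg ((prim hN).ne_zero hN.ne') N w]
      exact c (fun i => by simpa using not_not.1 h i) k
  · have pg : IsPrimitiveRoot (g z) N := pz.map_of_injective g.injective
    obtain ⟨i, -, hi⟩ := pz.eq_pow_of_pow_eq_one pg.pow_eq_one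
    refine ⟨i, Nat.isCoprime_iff_coprime.2 ((pz.pow_iff_coprime hN i).1 (hi ▸ pg)), fun a ha => ?_⟩
    rw [(io : Qb →+* ℂ).injective (ha.trans hz.symm), ← hi, map_pow, hz, ← ze_pow N i, zpow_natCast]

end Vale.Agent.P027M.M
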