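import Vale.Agent.P027M.M.Spec
import Vale.Agent.P027M.M.CXs

/-! # P027, block M: row SERG -/

set_option autoImplicit false
set_option linter.all false

noncomputable section

namespace Vale.Agent.P027M.M

open Vale.Agent.P022

theorem serg : SERG := by
  intro N hN g
  obtain ⟨-, -, h3, h4⟩ := sXs N hN
  refine ⟨h3 g, fun k hk => ⟨?_, h4 g k hk⟩⟩
  obtain ⟨k', c', h'⟩ := h3 g
  obtain ⟨z, hz, -⟩ := CXs.exz hN
  have e : ze N 1 ^ (k - k') = 1 := by
    rw [zpow_sub₀ (ze_ne N 1), CXs.ze_pow, CXs.ze_pow, ← hk z hz, ← h' z hz,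
      div_self (by rw [h' z hz]; exact ze_ne _ _)]
  obtain ⟨m, hm⟩ := ((CXs.prim hN).zpow_eq_one_iff_dvd _).1 e
  rw [show k = k' + N * m by linear_combination hm]
  exact c'.add_mul_left_left m

end Vale.Agent.P027M.M
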