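import Vale.Agent.P027M.M.Spec

/-! # P027, block M: the reciprocity law at the cusps -/

set_option linter.all false

open UpperHalfPlane Matrix
open scoped MatrixGroups Manifold IntermediateField

noncomputable section

namespace Vale.Agent.P027M.M

open Vale.Agent.P022 Vale.Agent.P022.H218.L3 Vale.Agent.P022.H231.L3 Vale.Agent.P022.H236.L3
  Vale.Agent.P022.H542.L3

namespace Shim

theorem vm (u : Fin 2 → ℤ) (γ : SL(2, ℤ)) (i : Fin 2) :
    (u ᵥ* (γ : M2)) i = u 0 * γ 0 i + u 1 * γ 1 i := by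
  simp [Matrix.vecMul, dotProduct, Fin.sum_univ_two]

theorem tw {N : ℕ} {k : ℤ} {γ γ' : SL(2, ℤ)} (h : Tw N k γ γ') {u w : Fin 2 → ℤ}
    (h0 : (N : ℤ) ∣ u 0 - w 0) (h1 : (N : ℤ) ∣ k * u 1 - w 1) (i : Fin 2) :
    (N : ℤ) ∣ ![(u ᵥ* (γ : M2)) 0, k * (u ᵥ* (γ : M2)) 1] i - (w ᵥ* (γ' : M2)) i := by
  obtain ⟨⟨a, ha⟩, ⟨b, hb⟩, ⟨c, hc⟩, ⟨d, hd⟩⟩ := h
  obtain ⟨e, he⟩ := h0
  obtain ⟨f, hf⟩ := h1
  fin_cases i
  · refine ⟨e * γ' 0 0 + f * γ' 1 0 - u 0 * a - u 1 * c, ?_⟩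
    show (u ᵥ* (γ : M2)) 0 - (w ᵥ* (γ' : M2)) 0 = _
    rw [vm, vm]
    linear_combination γ' 0 0 * he + γ' 1 0 * hf - u 0 * ha - u 1 * hc
  · refine ⟨e * γ' 0 1 + f * γ' 1 1 - u 0 * b - k * u 1 * d, ?_⟩
    show k * (u ᵥ* (γ : M2)) 1 - (w ᵥ* (γ' : M2)) 1 = _
    rw [vm, vm]
    linear_combination γ' 0 1 * he + γ' 1 1 * hf - u 0 * hb - k * u 1 * hd

theorem cv_pg (X : Mdl) (γ : SL(2, ℤ)) (x : FF) : cv (X.pg γ x) = act γ⁻¹ (cv x) := by
  rw [Mdl.pg, X.pb_coe, pbz_SL]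

end Shim

open Shim in
theorem shim (X : Mdl) (hG : GALX X) (hC : CF) (hE : EXP) (hS : SERG) (h0 : SER0) : SHIM X := by
  intro N hN g k hk
  obtain ⟨hc, hcf⟩ := (hS N hN.pos g).2 k hk
  obtain ⟨g1, g2, -, g4, -⟩ := hG
  have nz : ∀ v, NZ N v → NZ N ![v 0, k * v 1] := fun v hv h => hv fun i => by
    fin_cases i
    · exact h 0
    · exact hc.symm.dvd_of_dvd_mul_left (h 1)
  obtain ⟨n, hn⟩ := hN.four
  have e2 : ((N / 2 : ℕ) : ℤ) = 2 * n := by omega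
  have e4 : ((N / 4 : ℕ) : ℤ) = n := by omega
  have eN : (N : ℤ) = 4 * n := by omega
  have ko : k % 2 = 1 := by
    obtain ⟨a, b, hab⟩ := hc
    by_contra h
    obtain ⟨m, hm⟩ : (2 : ℤ) ∣ k := by omega
    have : 2 * (a * m + 2 * b * n) = 1 := by rw [← hab, hm, eN]; ring
    omega
  refine ⟨fun x hx => ?_, fun γ γ' hT x hx => ?_⟩
  · rw [X.gen N hN] at hx ⊢
    induction hx using IntermediateField.adjoin_induction with
    | mem x hx =>
      obtain ⟨v, hv, rfl⟩ := hx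
      rw [g4 N hN g k hk v hv]
      exact IntermediateField.subset_adjoin _ _ ⟨_, nz v hv, rfl⟩
    | algebraMap a => rw [g2]; exact IntermediateField.algebraMap_mem _ _
    | add x y _ _ h1 h2 => rw [map_add]; exact add_mem h1 h2
    | inv x _ h1 => rw [map_inv₀]; exact inv_mem h1
    | mul x y _ _ h1 h2 => rw [map_mul]; exact mul_mem h1 h2
  · have key : ∀ u w : Fin 2 → ℤ, (N : ℤ) ∣ u 0 - w 0 → (N : ℤ) ∣ k * u 1 - w 1 →
        Cf g (Xs N (u ᵥ* (γ : M2))) (Xs N (w ᵥ* (γ' : M2))) := fun u w a b => by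
      rw [← (h0 N hN.pos _ _).1 (tw hT a b)]
      exact hcf _
    have c1 : Cf g (Xs N (p1 N ᵥ* (γ : M2))) (Xs N (p1 N ᵥ* (γ' : M2))) := by
      refine key _ _ (by simp) ⟨k / 2, ?_⟩
      show k * ((N / 2 : ℕ) : ℤ) - ((N / 2 : ℕ) : ℤ) = _
      have : k = 2 * (k / 2) + 1 := by omega
      rw [e2, eN]
      linear_combination (2 * n : ℤ) * this
    have c4 : Cf g (Xs N (p4 N ᵥ* (γ : M2))) (Xs N (p4 N ᵥ* (γ' : M2))) := by
      rcases (by omega : k % 4 = 1 ∨ k % 4 = 3) with h | h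
      · refine key _ _ (by simp) ⟨k / 4, ?_⟩
        show k * ((N / 4 : ℕ) : ℤ) - ((N / 4 : ℕ) : ℤ) = _
        have : k = 4 * (k / 4) + 1 := by omega
        rw [e4, eN]
        linear_combination (n : ℤ) * this
      · rw [← (h0 N hN.pos (p4 N ᵥ* (γ' : M2)) 0).2.1, ← Matrix.neg_vecMul]
        refine key _ _ (by simp [p4]) ⟨k / 4 + 1, ?_⟩
        show k * ((N / 4 : ℕ) : ℤ) - -((N / 4 : ℕ) : ℤ) = _
        have : k = 4 * (k / 4) + 3 := by omega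
        rw [e4, eN]
        linear_combination (n : ℤ) * this
    rw [X.gen N hN] at hx
    induction hx using IntermediateField.adjoin_induction with
    | mem x hx =>
      obtain ⟨v, hv, rfl⟩ := hx
      have cv0 := key v ![v 0, k * v 1] (by simp) (by simp)
      have h5 := (hC g).2.2.2.2.1
      have cq := (h5 _ _ _ _ (h5 _ _ _ _ cv0 c1).2.2.1 (h5 _ _ _ _ c4 c1).2.2.1).2.2.2
      have a1 := X.rex N hN v hv γ
      rw [← cv_pg] at a1
      have a2 := X.rex N hN _ (nz v hv) γ'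
      rw [← cv_pg, ← g4 N hN g k hk v hv] at a2
      exact cv_inj (hE.1 N _ _ _ hN.pos (g1 g _ N _ _ hN.pos a1 cq) a2)
    | algebraMap a => rw [AlgEquiv.commutes, g2, AlgEquiv.commutes]
    | add x y _ _ h1 h2 => simp only [map_add, h1, h2]
    | inv x _ h1 => simp only [map_inv₀, h1]
    | mul x y _ _ h1 h2 => simp only [map_mul, h1, h2]

end Vale.Agent.P027M.M
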