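import Vale.Agent.P027M.M.Spec

/-! # P027, block M: the coset lemma -/

set_option autoImplicit false

open Matrix
open scoped MatrixGroups

noncomputable section

namespace Vale.Agent.P027M.M

open Vale.Agent.P022.H231.L3

namespace Step

theorem cop {l N : ℕ} (hl : l.Prime) (h : ¬ l ∣ N) : IsCoprime (l : ℤ) (N : ℤ) :=
  Nat.isCoprime_iff_coprime.2 ((Nat.Prime.coprime_iff_not_dvd hl).2 h)

theorem mul_inv (g : SL(2, ℤ)) : (g : M2) * ((g⁻¹ : SL(2, ℤ)) : M2) = 1 :=
  (Matrix.SpecialLinearGroup.coe_mul g g⁻¹).symm.trans (by rw [mul_inv_cancel]; rfl)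

theorem inv_mul (g : SL(2, ℤ)) : ((g⁻¹ : SL(2, ℤ)) : M2) * (g : M2) = 1 :=
  (Matrix.SpecialLinearGroup.coe_mul g⁻¹ g).symm.trans (by rw [inv_mul_cancel]; rfl)

theorem inj {l : ℕ} (hl : l.Prime) {d γ : SL(2, ℤ)} {i i' j : Option (Fin l)} {g g' : SL(2, ℤ)}
    (e : al 1 l d i * (γ : M2) = (g : M2) * al 1 l d j)
    (e' : al 1 l d i' * (γ : M2) = (g' : M2) * al 1 l d j) : i = i' := by
  have h : ∀ {i : Option (Fin l)} {g : SL(2, ℤ)}, al 1 l d i * (γ : M2) = (g : M2) * al 1 l d j →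
      ((g⁻¹ : SL(2, ℤ)) : M2) * al 1 l d i = al 1 l d j * ((γ⁻¹ : SL(2, ℤ)) : M2) := by
    intro i g e
    calc ((g⁻¹ : SL(2, ℤ)) : M2) * al 1 l d i
        = ((g⁻¹ : SL(2, ℤ)) : M2) * (al 1 l d i * (γ : M2)) * ((γ⁻¹ : SL(2, ℤ)) : M2) := by
          rw [Matrix.mul_assoc, Matrix.mul_assoc, mul_inv, Matrix.mul_one]
      _ = _ := by
          rw [e, ← Matrix.mul_assoc, inv_mul, Matrix.one_mul]
  exact (coset_unique hl isCoprime_one_right ((h e).trans (h e').symm)).1

end Step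

open Step in
theorem step : STEP := by
  intro N l hN hl
  refine ⟨fun h d hd γ hγ => ?_, fun h γ hγ => ?_⟩
  · choose π g e using exists_step_SL (P := 1) hl isCoprime_one_right d γ
    have hi : Function.Injective π := fun i i' c => inj hl (e i) (c ▸ e i')
    refine ⟨Equiv.ofBijective π (Finite.injective_iff_bijective.1 hi), g, fun i => ⟨e i, ?_⟩⟩
    have e2 : (l : ℤ) • (g i : M2) = al 1 l d i * (γ : M2) * Matrix.adjugate (al 1 l d (π i)) := by
      rw [e, Matrix.mul_assoc, Matrix.mul_adjugate, det_al, Matrix.mul_smul, Matrix.mul_one]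
    have hγR : RR 1 N (γ : M2) (γ 0 0) (γ 1 1) := ⟨one_dvd _, hγ, by simp, by simp⟩
    have hR := ((RR.al hd i).mul hγR).mul (RR.al hd (π i)).adj
    rw [← e2] at hR
    obtain ⟨-, r2, -, r4⟩ := hR
    simp only [Matrix.smul_apply, smul_eq_mul] at r2 r4
    refine ⟨(cop hl h).symm.dvd_of_dvd_mul_left r2, (cop hl h).symm.dvd_of_dvd_mul_left ?_⟩
    rw [mul_one, ← mul_sub] at r4
    exact r4
  · have hc : (l : ℤ) ∣ γ 1 0 := (Int.natCast_dvd_natCast.2 h).trans hγ
    have ex : ∀ i : Fin l, ∃ (j : Fin l) (g : SL(2, ℤ)),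
        al 1 l 1 (some i) * (γ : M2) = (g : M2) * al 1 l 1 (some j) := fun i => by
      obtain ⟨j, g, e⟩ := exists_step_SL (P := 1) hl isCoprime_one_right 1 γ (some i)
      cases j with
      | some j => exact ⟨j, g, e⟩
      | none =>
        exfalso
        have c0 := congrFun (congrFun e 0) 0
        simp [al, Matrix.mul_apply, Fin.sum_univ_two] at c0
        obtain ⟨x, hx⟩ := hc
        exact prim_col hl γ ⟨⟨g 0 0 - i * x, by linear_combination c0 - (i : ℕ) * hx⟩, x, hx⟩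
    choose π g e using ex
    have hi : Function.Injective π := fun i i' c =>
      Option.some_injective _ (inj hl (e i) (c ▸ e i'))
    refine ⟨Equiv.ofBijective π (Finite.injective_iff_bijective.1 hi), g, fun i => ⟨e i, ?_⟩⟩
    have c0 := congrFun (congrFun (e i) 1) 0
    have c1 := congrFun (congrFun (e i) 1) 1
    simp [al, Matrix.mul_apply, Fin.sum_univ_two] at c0 c1
    have l0 : (l : ℤ) ≠ 0 := by exact_mod_cast hl.ne_zero
    have c2 : g i 1 1 - γ 1 1 = -(γ 1 0 * (π i : ℕ)) := by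
      apply mul_left_cancel₀ l0
      linear_combination -c1 + ((π i : ℕ) : ℤ) * c0
    rw [← c0, c2]
    exact ⟨hγ.mul_left _, (hγ.mul_right _).neg_right⟩

end Vale.Agent.P027M.M
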