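import Vale.Agent.P027M.M.CAll
import Vale.Agent.P027M.M.Cf2
import Vale.Agent.P027M.M.Bc
import Vale.Agent.P027M.M.Ser0
import Vale.Agent.P027M.M.Ser
import Vale.Agent.P027M.M.Serg
import Vale.Agent.P027M.M.Good
import Vale.Agent.P027M.M.Exp
import Vale.Agent.P027M.M.Grp
import Vale.Agent.P027M.M.Artin
import Vale.Agent.P027M.M.Cffs
import Vale.Agent.P027M.M.Faith
import Vale.Agent.P027M.M.Galx
import Vale.Agent.P027M.M.Shim
import Vale.Agent.P027M.M.Pla
import Vale.Agent.P027M.M.Plc
import Vale.Agent.P027M.M.Unram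
import Vale.Agent.P027M.M.Prim
import Vale.Agent.P027M.M.Step
import Vale.Agent.P027M.M.Hec1
import Vale.Agent.P027M.M.Hec2
import Vale.Agent.P027M.M.Hec3
import Vale.Agent.P027M.M.Hec4
import Vale.Agent.P027M.M.Ess
import Vale.Agent.P027M.M.EsH
import Vale.Agent.P027M.M.DpAct
import Vale.Agent.P027M.M.DpLev

/-! # P027, block M: the rows as closed terms -/

set_option autoImplicit false

noncomputable section

namespace Vale.Agent.P027M.M

theorem x_faith (X : Mdl) : FAITH X := faith X ser grp (artin X)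
theorem x_galx (X : Mdl) : GALX X := galx X cf2 exp serg ser0 grp
theorem x_shim (X : Mdl) : SHIM X := shim X (x_galx X) cf2 exp serg ser0
theorem x_cffs : CFFS := mdl.elim fun X => cffs X (artin X)
theorem x_pla (X : Mdl) : PLA X := pla X (artin X) x_cffs grp
theorem x_plc (X : Mdl) : PLC X := plc X (artin X) ser exp grp x_cffs
theorem x_unram : UNRAM := mdl.elim fun X => unram X (x_pla X) (x_plc X) (artin X) grp x_cffs
theorem x_prim : PRIM := mdl.elim fun X => prim X ser0 (x_galx X) exp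
theorem x_hec1 (X : Mdl) : HEC1 X := hec1 X step grp
theorem x_hec2 (X : Mdl) : HEC2 X := hec2 X exp
theorem x_hec3 (X : Mdl) : HEC3 X :=
  hec3 X (x_shim X) (x_galx X) (x_hec1 X) (x_hec2 X) cf2 exp serg grp
theorem x_hec4 (X : Mdl) : HEC4 X := hec4 X (x_hec1 X) grp
theorem x_ess : ESS := ess' x_prim
theorem x_normf (X : Mdl) : NORMF X := normf X (x_faith X)
theorem x_act (X : Mdl) : ACT X :=
  act' X (x_faith X) grp x_cffs (x_galx X) (x_hec1 X) (x_hec3 X)
theorem x_comm (X : Mdl) : COMM X := comm X (x_hec1 X) (x_hec3 X) (x_hec4 X)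
theorem x_open (X : Mdl) : OPEN X := opn X (x_galx X)
theorem x_lev (X : Mdl) : LEV X := lev X (x_faith X) grp (x_hec1 X) (x_hec3 X)
theorem x_es (hK : KEY) (X : Mdl) : ES X := es X hK x_ess (x_hec2 X) exp cf2 (x_galx X) grp
theorem x_unr (hK : KEY) (X : Mdl) : UNR X := unr X hK x_ess exp cf2 (x_galx X) grp
theorem x_bc : BC := mdl.elim fun X => bc X grp (x_faith X)
theorem x_autc : AUTC :=
  mdl.elim fun X => autc X x_bc exp (x_galx X) (x_shim X) (x_hec3 X) grp serg
theorem x_frb : FRB := mdl.elim fun X => frb X ser0 (x_galx X)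

end Vale.Agent.P027M.M
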