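import Vale.Agent.P027M.M.CDefs

/-! # P027, block M, part C: pull-backs preserve the field `FS` -/

set_option autoImplicit false

open UpperHalfPlane Matrix
open scoped MatrixGroups Manifold IntermediateField

noncomputable section

namespace Vale.Agent.P027M.M

open Vale.Agent.P022 Vale.Agent.P022.H218.L3 Vale.Agent.P022.H231.L3 Vale.Agent.P022.H236.L3
  Vale.Agent.P022.H542.L3

namespace Pb

theorem exL_div {N d : ℕ} (hd : 0 < d) {x : LS} {f : ℍ → ℂ} (hf : ExL N x f) {u : ℍ → ℍ}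
    (hu : ∀ τ : ℍ, ((u τ : ℍ) : ℂ) = (τ : ℂ) / d) : ExL (N * d) x fun τ => f (u τ) := by
  obtain ⟨k, F, rfl, hF⟩ := hf
  refine H236.Exq.exL ?_
  have d0 : (0 : ℝ) < d := by exact_mod_cast hd
  have him : ∀ τ, (u τ).im = (d : ℝ)⁻¹ * τ.im := fun τ => by
    have := congrArg Complex.im (hu τ)
    rw [Complex.div_natCast_im] at this
    rw [inv_mul_eq_div]
    exact this
  filter_upwards [(H236.tendsto_scale (inv_pos.2 d0) him).eventually hF] with τ h
  have e : Function.Periodic.qParam N (u τ) = Function.Periodic.qParam (N * d : ℕ) τ := by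
    rw [hu, Function.Periodic.qParam, Function.Periodic.qParam]
    congr 1
    push_cast
    ring
  rw [e] at h
  exact h

theorem exM_div {N d : ℕ} (hd : 0 < d) {s : LS} {x : Mer} (hX : ExM N s x) {u : ℍ → ℍ}
    {φ : Mer → Mer} (hφ : H236.L3.Pb u φ) (hu : ∀ τ : ℍ, ((u τ : ℍ) : ℂ) = (τ : ℂ) / d) :
    ExM (N * d) s (φ x) := by
  obtain ⟨g, h, hg, hh, G, H, h0, hG, hH, rfl, rfl⟩ := hX
  obtain ⟨hg', hh', n, e⟩ := hφ g h hg hh h0
  rw [e]
  exact (exL_div hd hG hu).exM hg' hh' n (exL_div hd hH hu)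

theorem low_pos {d : ℕ} (hd : 0 < d) : 0 < (!![1, 0; 0, (d : ℤ)] : M2).det := by
  rw [Matrix.det_fin_two_of]; simpa using hd

theorem up_mem (hP : SPbM) {a : ℕ} (ha : 0 < a) {x : Mer} (hx : x ∈ FS) :
    pbz _ (diag_pos ha) x ∈ FS := by
  obtain ⟨N, hN, h1, s, h2, h3⟩ := hx
  have h4 := (hP _ (diag_pos ha)).1 N hN x h1
  rw [show (!![(a : ℤ), 0; 0, 1] : M2).det.natAbs = a by simp [Matrix.det_fin_two_of]] at h4
  exact ⟨N * a, Nat.mul_pos hN ha, h4, _,
    exM_period ha hN.ne' (h2.mulTau ha (pb_pbz _ _) (dg_coe ha)), (h3.sb a ha).sb a ha⟩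

theorem low_mem (hP : SPbM) {d : ℕ} (hd : 0 < d) {x : Mer} (hx : x ∈ FS) :
    pbz _ (low_pos hd) x ∈ FS := by
  obtain ⟨N, hN, h1, s, h2, h3⟩ := hx
  have h4 := (hP _ (low_pos hd)).1 N hN x h1
  rw [show (!![1, 0; 0, (d : ℤ)] : M2).det.natAbs = d by simp [Matrix.det_fin_two_of]] at h4
  exact ⟨N * d, Nat.mul_pos hN hd, h4, s,
    exM_div hd h2 (pb_pbz _ _) fun τ => by rw [coe_gl_smul]; simp, h3⟩

theorem mem (hP : SPbM) (hS : SAct) (A : M2) (hA : 0 < A.det) {x : Mer} (hx : x ∈ FS) :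
    pbz A hA x ∈ FS := by
  obtain ⟨γ, a, d, b, ha, hd, e⟩ := (hP A hA).2
  let T : SL(2, ℤ) := ⟨!![1, b; 0, 1], by simp [Matrix.det_fin_two_of]⟩
  have e' : A = (γ : M2) * !![1, 0; 0, (d : ℤ)] * (T : M2) * !![(a : ℤ), 0; 0, 1] := by
    rw [e, mul_assoc, mul_assoc]
    congr 1
    simp [T]
  have p1 : 0 < ((γ : M2) * !![1, 0; 0, (d : ℤ)]).det := by
    rw [Matrix.det_mul]; exact mul_pos (SL_pos γ) (low_pos hd)
  have p2 : 0 < ((γ : M2) * !![1, 0; 0, (d : ℤ)] * (T : M2)).det := by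
    rw [Matrix.det_mul]; exact mul_pos p1 (SL_pos T)
  rw [pbz_congr e' hA (e' ▸ hA), pbz_mul p2 (diag_pos ha), pbz_mul p1 (SL_pos T),
    pbz_mul (SL_pos γ) (low_pos hd), pbz_SL, pbz_SL]
  exact up_mem hP ha (hS _ _ (low_mem hP hd (hS _ _ hx)))

theorem scal {A : M2} (hA : 0 < A.det) {c : ℤ} (hc : c ≠ 0) (e : A = c • (1 : M2)) (x : Mer) :
    pbz A hA x = x := by
  refine ext_Mer (φ := pbz A hA) (ψ := AlgEquiv.refl) (fun f => ?_) x
  rw [pbz, pb_algebraMap, AlgEquiv.coe_refl, id]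
  congr 1
  refine Subtype.ext (funext fun τ => ?_)
  show (f : ℍ → ℂ) (gl A hA • τ) = (f : ℍ → ℂ) τ
  refine congrArg _ (UpperHalfPlane.ext ?_)
  have : (c : ℂ) ≠ 0 := by exact_mod_cast hc
  rw [coe_gl_smul, e]
  simp [this]

theorem adj_pos {A : M2} (hA : 0 < A.det) : 0 < A.adjugate.det := by
  rw [Matrix.det_adjugate]; simpa using hA

end Pb

theorem sPb (hP : SPbM) (hS : SAct) : SPb := by
  refine ⟨fun A hA =>
    { toFun := fun x => mkF (pbz A hA (cv x)) (Pb.mem hP hS A hA (cv_mem x))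
      invFun := fun x => mkF (pbz _ (Pb.adj_pos hA) (cv x)) (Pb.mem hP hS _ _ (cv_mem x))
      left_inv := fun x => cv_inj ?_
      right_inv := fun x => cv_inj ?_
      map_mul' := fun x y => cv_inj (by simp only [cv_mkF, map_mul])
      map_add' := fun x y => cv_inj (by simp only [cv_mkF, map_add])
      commutes' := fun a => cv_inj (by rw [cv_mkF, cv_alg]; exact (pbz A hA).commutes _) },
    fun _ _ _ => rfl⟩
  · have p : 0 < (A * A.adjugate).det := by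
      rw [Matrix.det_mul]; exact mul_pos hA (Pb.adj_pos hA)
    rw [cv_mkF, cv_mkF, ← pbz_mul hA _ p]
    exact Pb.scal p hA.ne' (Matrix.mul_adjugate A) _
  · have p : 0 < (A.adjugate * A).det := by
      rw [Matrix.det_mul]; exact mul_pos (Pb.adj_pos hA) hA
    rw [cv_mkF, cv_mkF, ← pbz_mul _ hA p]
    exact Pb.scal p hA.ne' (Matrix.adjugate_mul A) _

end Vale.Agent.P027M.M
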