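import Vale.Agent.P027M.M.DpLev
import Vale.Agent.P027M.J.W2

/-! # P027, block M: row ALK -/

set_option linter.all false
set_option autoImplicit false

open UpperHalfPlane Matrix
open scoped MatrixGroups IntermediateField

noncomputable section

namespace Vale.Agent.P027M.M

open Vale.Agent.P022 Vale.Agent.P022.H218.L3 Vale.Agent.P022.H231.L3 Vale.Agent.P019P P025H816
  P025H492 Vale.Agent.P027M.TW Dp Vale.Agent.P027M.J

namespace Alk2

variable (X : Mdl) {M q : ℕ} (h0 : 0 < q) {γ : SL(2, ℤ)}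

theorem conj (h : AL M q γ) {δ : SL(2, ℤ)} (hδ : ((M * q : ℕ) : ℤ) ∣ δ 1 0) :
    ∃ δ' : SL(2, ℤ), ((M * q : ℕ) : ℤ) ∣ δ' 1 0 ∧ (M : ℤ) ∣ δ' 1 1 - δ 1 1 ∧
      al 1 q γ none * (δ : M2) = (δ' : M2) * al 1 q γ none ∧
      ∀ l, γ ∈ Gu l → δ ∈ Gu l → δ' ∈ Gu l := by
  obtain ⟨c, hc⟩ := h.c
  obtain ⟨d, hd⟩ := h.d
  obtain ⟨z, hz⟩ := hδ
  push_cast at hz
  have hdet := det1 γ
  have hdet' := det1 δ
  let ε : SL(2, ℤ) := mk (δ 0 0) (q * δ 0 1) (M * z) (δ 1 1) (by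
    rw [hz] at hdet'; linear_combination hdet')
  have e00 : ε 0 0 = δ 0 0 := rfl
  have e01 : ε 0 1 = q * δ 0 1 := rfl
  have e10 : ε 1 0 = M * z := rfl
  have e11 : ε 1 1 = δ 1 1 := rfl
  obtain ⟨i1, i2, i3, i4⟩ := inv_ent γ
  refine ⟨γ * ε * γ⁻¹, ⟨c * d * (δ 0 0 - δ 1 1) + q * d ^ 2 * z - M * c ^ 2 * δ 0 1, ?_⟩,
    ⟨c * (γ 0 1 * (δ 1 1 - δ 0 0) + γ 0 0 * q * δ 0 1) - γ 0 1 * γ 1 1 * z, ?_⟩, ?_,
    fun l h1 h2 => mul_mem (mul_mem h1 (mem_Gu.2 (e01 ▸ (mem_Gu.1 h2).mul_left _))) (inv_mem h1)⟩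
  · simp only [mul_ent, i1, i2, i3, i4, e00, e01, e10, e11]
    rw [hc, hd]; push_cast; ring
  · simp only [mul_ent, i1, i2, i3, i4, e00, e01, e10, e11]
    linear_combination δ 1 1 * hdet +
      (γ 0 1 * (δ 1 1 - δ 0 0) + γ 0 0 * q * δ 0 1) * hc
  · have e1 : al 1 q γ none = (γ : M2) * !![(q : ℤ), 0; 0, 1] := rfl
    have e2 : !![(q : ℤ), 0; 0, 1] * (δ : M2) = (ε : M2) * !![(q : ℤ), 0; 0, 1] := by
      ext i j
      fin_cases i <;> fin_cases j <;>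
        simp [Matrix.mul_apply, Fin.sum_univ_two, e00, e01, e10, e11, hz] <;> ring
    rw [e1, Matrix.mul_assoc, e2, ← Matrix.mul_assoc, ← Matrix.mul_assoc,
      ← Matrix.SpecialLinearGroup.coe_mul, ← Matrix.SpecialLinearGroup.coe_mul,
      inv_mul_cancel_right]

theorem conj_up (H : Subgroup (ZMod M)ˣ) {δ δ' : SL(2, ℤ)} (hδ : δ ∈ GH (M * q) (up H q))
    (h1 : ((M * q : ℕ) : ℤ) ∣ δ' 1 0) (h2 : (M : ℤ) ∣ δ' 1 1 - δ 1 1) :
    δ' ∈ GH (M * q) (up H q) := by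
  obtain ⟨-, -, a, ha, e⟩ := J.mem_up.1 hδ
  exact J.mem_up.2 ⟨h1, (Int.natCast_dvd_natCast.2 (dvd_mul_right M q)).trans h1, a, ha,
    e.trans (cast_eq h2).symm⟩

theorem cj (h : AL M q γ) (H : Subgroup (ZMod M)ˣ) :
    Cj (al 1 q γ none) (GH (M * q) (up H q)) (GH (M * q) (up H q)) := fun δ hδ => by
  obtain ⟨δ', h1, h2, h3, -⟩ := conj h hδ.1
  exact ⟨δ', conj_up H hδ h1 h2, h3⟩

theorem cj' (h : AL M q γ) (H : Subgroup (ZMod M)ˣ) {l : ℕ} (hl : γ ∈ Gu l) :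
    Cj (al 1 q γ none) (GH (M * q) (up H q) ⊓ Gu l) (GH (M * q) (up H q) ⊓ Gu l) := fun δ hδ => by
  obtain ⟨δ', h1, h2, h3, h4⟩ := conj h hδ.1.1
  exact ⟨δ', ⟨conj_up H hδ.1 h1 h2, h4 l hl hδ.2⟩, h3⟩

theorem sq (h : AL M q γ) : ∃ D : SL(2, ℤ), ((M * q : ℕ) : ℤ) ∣ D 1 0 ∧ γ 0 1 ∣ D 0 1 ∧
    ∀ x, Wq X h0 γ (Wq X h0 γ x) = X.pg D x := by
  obtain ⟨c, hc⟩ := h.c
  obtain ⟨d, hd⟩ := h.d
  have hdet := det1 γ
  refine ⟨⟨!![q * γ 0 0 ^ 2 + γ 0 1 * γ 1 0, γ 0 1 * (γ 0 0 + d);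
    q * γ 1 0 * (γ 0 0 + d), γ 0 1 * γ 1 0 + q * d ^ 2], ?_⟩, ⟨c * (γ 0 0 + d), ?_⟩,
    ⟨γ 0 0 + d, rfl⟩, fun x => ?_⟩
  · rw [Matrix.det_fin_two_of]
    rw [hd] at hdet
    linear_combination (γ 0 0 * (q * d) - γ 0 1 * γ 1 0 + 1) * hdet
  · show q * γ 1 0 * (γ 0 0 + d) = _
    rw [hc]; push_cast; ring
  · have hp := mul_pos' (al_pos (P := 1) h0 γ none) (al_pos (P := 1) h0 γ none)
    rw [Wq, ← Dp.pb_mul X _ _ hp]
    refine pb_smul X (c := q) (by exact_mod_cast h0.ne') ?_ _ _ x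
    rw [al_none]
    ext i j
    fin_cases i <;> fin_cases j <;> simp [Matrix.mul_apply, Fin.sum_univ_two, hd] <;> ring

/-- the operator commutes with `T_l` -/
theorem W_T (hF : FAITH X) (hG : GRP) (h1 : HEC1 X) (hq : q.Prime) (hM : Lv M) (hqM : ¬ q ∣ M)
    {H : Subgroup (ZMod M)ˣ} (hH : -1 ∈ H) (h : AL M q γ) {l : ℕ} (hl : l.Prime)
    (hd : ¬ l ∣ M * q) (d : SL(2, ℤ)) (d1 : d 1 1 = l) (d2 : ((M * q : ℕ) : ℤ) ∣ d 1 0)
    (d3 : IsDel 1 (M * q : ℕ) l d) {x : FF} (hx : x ∈ L (GH (M * q) (up H q))) :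
    Wq X hq.pos γ (X.T hl.pos d x) = X.T hl.pos d (Wq X hq.pos γ x) := by
  have hc : IsCoprime (M : ℤ) q := (cop hq hqM).symm
  have hc2 : IsCoprime (q : ℤ) l := by
    have := cop hl hd
    rw [Nat.cast_mul] at this
    exact this.of_mul_right_right.symm
  obtain ⟨a, b, e⟩ := hc.symm.mul_right (hc2.mul_right hc2)
  let g : SL(2, ℤ) := mk a (-(l * b)) (M * l) q (by linear_combination e)
  let g' : SL(2, ℤ) := mk a (-b) (M * (l * l)) q (by linear_combination e)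
  have hg : AL M q g := ⟨dvd_mul_right (M : ℤ) l, dvd_refl (q : ℤ)⟩
  have hg' : AL M q g' := ⟨dvd_mul_right (M : ℤ) (l * l), dvd_refl (q : ℤ)⟩
  have hgu : g ∈ Gu l := mem_Gu.2 (Dvd.intro (-b) (by rw [mk01]; ring))
  have m := (J.mid_up hG hq.pos hM hH).2
  have key : ∀ y ∈ L (GH (M * q) (up H q)),
      Wq X hq.pos g (X.T hl.pos d y) = X.T hl.pos d (Wq X hq.pos g y) := by
    intro y hy
    obtain ⟨D, D1, D2, D3⟩ := sq X hq.pos hg
    have hD : D⁻¹ ∈ Gu l := inv_mem (mem_Gu.2 ((mem_Gu.1 hgu).trans D2))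
    have es : ∀ z, (Wq X hq.pos g).symm z = Wq X hq.pos g (X.pg D⁻¹ z) := fun z => by
      rw [AlgEquiv.symm_apply_eq, D3, pg_inv']
    have nm := ((hG _ m.lv).2.2.2.2.2.2.2 (up H q)).2.2 D⁻¹ (inv_dvd D1)
    have e1 := Nm_semi hF inf_le_left (Dp.mid_up hG m hl.pos) (mid_gu hG m hl.pos)
      (reps_T hl (up H q) d d1 d2) (Wq X hq.pos g : FF ≃+* FF)
      (fun z hz => pb_mem X _ (cj hg H) hz)
      (fun z hz => by
        show (Wq X hq.pos g).symm z ∈ _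
        rw [es]
        exact pb_mem X _ (cj hg H) (pg_mem X (inv_dvd D1) hz))
      (fun z hz => pb_mem X _ (cj' hg H hgu) hz)
      (fun z hz => by
        show (Wq X hq.pos g).symm z ∈ _
        rw [es]
        exact pb_mem X _ (cj' hg H hgu) (pb_mem X _ (cj_SL
          (Γ' := GH (M * q) (up H q) ⊓ Gu l) fun δ hδ => Subgroup.mem_inf.2
          ⟨nm δ hδ.1, mul_mem (mul_mem hD hδ.2) (inv_mem hD)⟩) hz))
      (pb_mem X (dg_pos hl.pos) (cj_dg hl.pos _) hy)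
    have e2 : Wq X hq.pos g (X.pb (dg l) (dg_pos hl.pos) y) =
        X.pb (dg l) (dg_pos hl.pos) (Wq X hq.pos g' y) := by
      rw [Wq, Wq, ← Dp.pb_mul X _ _ (mul_pos' (dg_pos hl.pos) (al_pos hq.pos g none)),
        ← Dp.pb_mul X _ _ (mul_pos' (al_pos hq.pos g' none) (dg_pos hl.pos))]
      refine Dp.pb_congr X ?_ _ _ y
      rw [al_none, al_none]
      ext i j
      fin_cases i <;> fin_cases j <;>
        simp [Matrix.mul_apply, Fin.sum_univ_two, Dp.dg, g, g', mk00, mk01, mk10, mk11] <;> ring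
    have e3 : Wq X hq.pos g' y = Wq X hq.pos g y := by
      have : g' * g⁻¹ ∈ GH (M * q) (up H q) := by
        have a1 : ((M * q : ℕ) : ℤ) ∣ (g' * g⁻¹) 1 0 := by
          rw [mul10, inv00, inv10]
          exact ⟨l * l - l, by simp only [g, g', mk10, mk11]; push_cast; ring⟩
        refine J.mem_up.2 ⟨a1, Dp.mem_GH_one H
          ((Int.natCast_dvd_natCast.2 (dvd_mul_right M q)).trans a1) ?_⟩
        rw [mul11, inv01, inv11]
        exact ⟨l * l * l * b - b * (l * l), by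
          simp only [g, g', mk00, mk01, mk10, mk11]; linear_combination e⟩
      conv_rhs => rw [← pg_self X hy this, ← Wq_mul, inv_mul_cancel_right]
    rw [T_eq X hl.pos d d1, T_eq X hl.pos d d1, ← Nm_apply, ← Nm_apply, ← e3, ← e2]
    exact e1.symm
  obtain ⟨δ, s1, s2⟩ := Wq_change X hq.pos hc hg h
  rw [s2, s2, ((h1 _ _ m.lv x hx).2.2.1 l hl hd d d3).2.2 δ s1, key _ (pg_mem X s1 hx)]

end Alk2

open Alk2

theorem alk2 (X : Mdl) (hF : FAITH X) (hG : GRP) (hE : EXP) (hX : GALX X) (hC : CF) (hS : SHIM X)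
    (hSG : SERG) (h1 : HEC1 X) (h3 : HEC3 X) : ALK X := by
  intro N q hq H hN hH hqN d hd _ m A
  have h := AL.of_isAL hd
  have hc : IsCoprime (N : ℤ) q := (cop hq hqN).symm
  have mm := (J.mid_up hG hq.pos hN hH).2
  have hg := fun g y hy => gal_Wq_up X hq.pos hE hX hG hC hS h3 hSG hc h mm.lv (neg_up hH q) g
    (y := y) hy
  refine ⟨fun x hx => ⟨pb_mem X _ (cj h H) hx, fun g => hg g x hx⟩, ?_⟩
  obtain ⟨W, hW⟩ := exists_rep (m := m) (Wq X hq.pos d : FF →* FF)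
    (fun x hx => pb_mem X _ (cj h H) hx) fun x hx => hx.pb _ (cj h H)
  refine ⟨W, hW, ?_, fun g => rep_comm hW (A.act_rep g) fun x hx => (hg g x hx).symm,
    fun l hl => ?_, fun a => ?_⟩
  · obtain ⟨D, D1, -, D3⟩ := sq X hq.pos h
    obtain ⟨u, hu⟩ := exists_unit D1
    have e : W.comp W = A.dia u := rep_eq (hW.comp hW) (A.dia_rep u D D1 hu) fun x _ => D3 x
    have b : Function.Bijective (W.comp W) := by
      rw [e]
      refine Function.bijective_iff_has_inverse.2 ⟨A.dia u⁻¹, fun x => ?_, fun x => ?_⟩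
      · show (A.dia u⁻¹ * A.dia u) x = x
        rw [← map_mul, inv_mul_cancel, map_one]; rfl
      · show (A.dia u * A.dia u⁻¹) x = x
        rw [← map_mul, mul_inv_cancel, map_one]; rfl
    exact ⟨Function.Injective.of_comp (f := W) (g := W) b.1,
      Function.Surjective.of_comp (f := W) (g := W) b.2⟩
  · by_cases hp : l.Prime
    · obtain ⟨e, e1, e2, e3⟩ := exists_del hp hl
      exact rep_comm hW (A.T_rep l hp hl e e3) fun x hx =>
        W_T X hF hG h1 hq hN hqN hH h hp hl e e1 e2 e3 hx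
    · rw [A.T_one l hp]; exact Commute.one_right _
  · obtain ⟨γ, g1, g2⟩ := exists_unit_row mm.lv.pos a
    exact rep_comm hW (A.dia_rep a γ g1 g2) fun x hx => (Wq_pg X hq.pos h g1 hx).symm

end Vale.Agent.P027M.M
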