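import Vale.Agent.P027M.M.All1
import Vale.Agent.P027M.M.Alk2

/-! # P027, block M: row ALK, closed term -/

namespace Vale.Agent.P027M.M

theorem x_alk (X : Mdl) : ALK X :=
  alk2 X (x_faith X) grp exp (x_galx X) cf2 (x_shim X) serg (x_hec1 X) (x_hec3 X)

end Vale.Agent.P027M.M
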