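import Vale.Agent.P027M.M.CAsm

/-! # P027, block M, part C: admissible levels and the action of `SL(2, ℤ)` on `FS` -/

set_option autoImplicit false

open UpperHalfPlane Matrix
open scoped MatrixGroups Manifold IntermediateField

noncomputable section

namespace Vale.Agent.P027M.M

open Vale.Agent.P022 Vale.Agent.P022.H218.L3 Vale.Agent.P022.H231.L3 Vale.Agent.P022.H236.L3
  Vale.Agent.P022.H542.L3

namespace CAct

theorem actH_neg (γ : SL(2, ℤ)) : actH (-γ) = actH γ := by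
  ext f τ
  rw [actH_apply, actH_apply, inv_neg, ModularGroup.SL_neg_smul]

theorem act_neg (γ : SL(2, ℤ)) : act (-γ) = act γ := by
  unfold act
  rw [MonoidHom.comp_apply, MonoidHom.comp_apply, actH_neg]

theorem mem_gamma {N : ℕ} {γ : SL(2, ℤ)} (h10 : (N : ℤ) ∣ γ 1 0) (h01 : (N : ℤ) ∣ γ 0 1)
    (h11 : (N : ℤ) ∣ γ 1 1 - 1) : γ ∈ CongruenceSubgroup.Gamma N := by
  rw [CongruenceSubgroup.Gamma_mem]
  have e10 : ((γ 1 0 : ℤ) : ZMod N) = 0 := (ZMod.intCast_zmod_eq_zero_iff_dvd _ _).2 h10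
  have e01 : ((γ 0 1 : ℤ) : ZMod N) = 0 := (ZMod.intCast_zmod_eq_zero_iff_dvd _ _).2 h01
  have e11 : ((γ 1 1 : ℤ) : ZMod N) = 1 := by
    have h := (ZMod.intCast_zmod_eq_zero_iff_dvd _ _).2 h11
    push_cast at h
    exact sub_eq_zero.1 h
  have hdet := γ.det_coe
  rw [Matrix.det_fin_two] at hdet
  have h4 := congrArg (Int.cast : ℤ → ZMod N) hdet
  push_cast at h4
  rw [e10, e11, mul_one, mul_zero, sub_zero] at h4
  exact ⟨h4, e01, e10, e11⟩

theorem gt_cases {N : ℕ} {γ : SL(2, ℤ)} (h : γ ∈ Gt N) :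
    γ ∈ CongruenceSubgroup.Gamma N ∨ -γ ∈ CongruenceSubgroup.Gamma N := by
  obtain ⟨h10, h01, h11 | h11⟩ := mem_Gp.1 h
  · exact Or.inl (mem_gamma h10 h01 h11)
  · have e : ∀ i j, (-γ) i j = -γ i j := fun i j => by simp
    refine Or.inr (mem_gamma ?_ ?_ ?_)
    · rw [e]; exact h10.neg_right
    · rw [e]; exact h01.neg_right
    · rw [e, show -γ 1 1 - 1 = -(γ 1 1 + 1) by ring]; exact h11.neg_right

theorem alg_sub {s s' : LS} (h : Alg s) (h' : Alg s') : Alg (s - s') := by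
  obtain ⟨x, rfl⟩ := alg_iff.1 h
  obtain ⟨y, rfl⟩ := alg_iff.1 h'
  exact alg_iff.2 ⟨x - y, map_sub _ _ _⟩

theorem alg_div {s s' : LS} (h : Alg s) (h' : Alg s') : Alg (s / s') := by
  rw [div_eq_mul_inv]
  exact h.mul h'.inv

end CAct

open CAct

theorem sLev : SLev := by
  intro x
  obtain ⟨N, hN, h1, -⟩ := mem_FS.1 (cv_mem x)
  refine ⟨N * 4, ⟨by omega, dvd_mul_left 4 N⟩, fun M _ γ hγ => ?_⟩
  have hle : CongruenceSubgroup.Gamma (N * 4 * M) ≤ CongruenceSubgroup.Gamma N :=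
    gamma_le.trans gamma_le
  rcases gt_cases hγ with h | h
  · exact act_eq_self h1 (hle h)
  · rw [← act_neg]
    exact act_eq_self h1 (hle h)

theorem CAct.gen_mem (P : PreM) (hX : SXs) (γ : SL(2, ℤ)) {N : ℕ} (hN : Lv N) {v : Fin 2 → ℤ}
    (hv : NZ N v) : act γ (cv (P.r N v)) ∈ FS := by
  have hm : cv (P.r N v) ∈ MF (CongruenceSubgroup.Gamma N) := by
    refine MF_mono (gamma_le_Gt N) ?_
    rw [P.genC N hN]
    exact IntermediateField.subset_adjoin _ _ ⟨v, hv, rfl⟩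
  have he := P.rex N hN v hv γ⁻¹
  rw [inv_inv] at he
  have ha := (hX N hN.pos).1
  have h1 : act γ (cv (P.r N v)) ∈ MF (CongruenceSubgroup.Gamma N) := by
    refine act_mem γ (fun δ hδ => ?_) hm
    have h2 := (CongruenceSubgroup.Gamma_normal N).conj_mem δ hδ γ⁻¹
    rwa [inv_inv] at h2
  exact mem_FS.2 ⟨N, hN.pos, h1, _, he, alg_div (alg_sub (ha _) (ha _)) (alg_sub (ha _) (ha _))⟩

theorem CAct.const_mem (γ : SL(2, ℤ)) (a : Qb) : act γ (cv (algebraMap Qb FF a)) ∈ FS := by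
  rw [cv_alg, (act γ).commutes, ← cv_alg]
  exact cv_mem _

theorem sAct (P : PreM) (hG : SGenL) (hX : SXs) : SAct := by
  intro γ x hx
  obtain ⟨N, hN, h⟩ := sLev (mkF x hx)
  have h1 := h 1 one_pos
  rw [mul_one, P.gen hG N hN] at h1
  have key : ∀ y ∈ IntermediateField.adjoin Qb (P.r N '' {v | NZ N v}), act γ (cv y) ∈ FS := by
    intro y hy
    induction hy using IntermediateField.adjoin_induction with
    | mem y hy =>
      obtain ⟨v, hv, rfl⟩ := hy
      exact gen_mem P hX γ hN hv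
    | algebraMap a => exact const_mem γ a
    | add y z _ _ hy hz =>
      rw [map_add, map_add]
      exact add_mem hy hz
    | inv y _ hy =>
      rw [map_inv₀, map_inv₀]
      exact inv_mem hy
    | mul y z _ _ hy hz =>
      rw [map_mul, map_mul]
      exact mul_mem hy hz
  have h2 := key _ h1
  rwa [cv_mkF] at h2

end Vale.Agent.P027M.M
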