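import Vale.Agent.P027M.M.A2

/-!
# P027 block M, row B1: `A ^ 2 = α β`, and `A`, `B` are forms of weight two on `Γ₀(4)`
-/

set_option autoImplicit false

open UpperHalfPlane Matrix
open scoped MatrixGroups Manifold IntermediateField ModularForm

noncomputable section

namespace Vale.Agent.P027M.M

open Vale.Agent.P022 Vale.Agent.P022.H218.L3 Vale.Agent.P022.H231.L3 Vale.Agent.P022.H236.L3
  Vale.Agent.P022.H542.L3 Vale.Agent.P027H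

namespace B1

theorem roots {e1 e2 e3 a b : ℂ} (h1 : 0 ^ 2 = 4 * e1 ^ 3 - a * e1 - b)
    (h2 : 0 ^ 2 = 4 * e2 ^ 3 - a * e2 - b) (h3 : 0 ^ 2 = 4 * e3 ^ 3 - a * e3 - b)
    (n12 : e1 ≠ e2) (n13 : e1 ≠ e3) (n23 : e2 ≠ e3) :
    e1 + e2 + e3 = 0 ∧ 4 * (e1 ^ 2 + e1 * e2 + e2 ^ 2) = a := by
  have q12 : 4 * (e1 ^ 2 + e1 * e2 + e2 ^ 2) = a :=
    mul_left_cancel₀ (sub_ne_zero.2 n12) (by linear_combination h2 - h1)
  have q13 : 4 * (e1 ^ 2 + e1 * e3 + e3 ^ 2) = a :=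
    mul_left_cancel₀ (sub_ne_zero.2 n13) (by linear_combination h3 - h1)
  exact ⟨mul_left_cancel₀ (sub_ne_zero.2 n23) (by linear_combination (q12 - q13) / 4), q12⟩

theorem alg {x y e1 e2 e3 a b : ℂ} (h1 : 0 ^ 2 = 4 * e1 ^ 3 - a * e1 - b)
    (h2 : 0 ^ 2 = 4 * e2 ^ 3 - a * e2 - b) (h3 : 0 ^ 2 = 4 * e3 ^ 3 - a * e3 - b)
    (n12 : e1 ≠ e2) (n13 : e1 ≠ e3) (n23 : e2 ≠ e3) (nx : x ≠ e1)
    (hy : y ^ 2 = 4 * x ^ 3 - a * x - b) (ha : x = aX x y e1 0) :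
    (x - e1) ^ 2 = (e1 - e2) * (e1 - e3) := by
  obtain ⟨s, q12⟩ := roots h1 h2 h3 n12 n13 n23
  have n := sub_ne_zero.2 nx
  have hs : P027H.sl x y e1 0 * (x - e1) = y := by
    rw [P027H.sl, sub_zero, div_mul_cancel₀ _ n]
  rw [aX] at ha
  generalize P027H.sl x y e1 0 = m at ha hs
  have k : 4 * (2 * x + e1) * (x - e1) = 4 * (x ^ 2 + x * e1 + e1 ^ 2) - a :=
    mul_left_cancel₀ n (by
      linear_combination 4 * (x - e1) ^ 2 * ha + (m * (x - e1) + y) * hs + hy - h1)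
  have e : e3 = -e1 - e2 := by linear_combination s
  rw [e]
  linear_combination k / 4 + q12 / 4

theorem nz1 : NZ 4 (p1 4) := by unfold NZ; decide
theorem nz2 : NZ 4 (p2 4) := by unfold NZ; decide
theorem nz3 : NZ 4 (p3 4) := by unfold NZ; decide
theorem nz4 : NZ 4 (p4 4) := by unfold NZ; decide

theorem notMem {v : Fin 2 → ℤ} (h : NZ 4 v) (τ : ℍ) : zt 4 v τ ∉ lat τ :=
  fun k => (zt_mem (by norm_num)).1 k h

theorem half {v : Fin 2 → ℤ} (h : NZ 4 v) (h2 : ¬ NZ 4 (v + v)) (τ : ℍ) :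
    dwp (lat τ) (zt 4 v τ) = 0 := by
  rw [(isLat τ).dwp_eq_zero (notMem h τ), two_mul, ← zt_add]
  exact (zt_mem (by norm_num)).2 h2

theorem half_ode {v : Fin 2 → ℤ} (h : NZ 4 v) (h2 : ¬ NZ 4 (v + v)) (τ : ℍ) :
    0 ^ 2 = 4 * wp (lat τ) (zt 4 v τ) ^ 3 - g2 (lat τ) * wp (lat τ) (zt 4 v τ) - g3 (lat τ) := by
  rw [← (isLat τ).ode (notMem h τ), half h h2]

theorem wp_ne {v w : Fin 2 → ℤ} {τ : ℍ} (h : Wf 4 v w τ ≠ 0) :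
    wp (lat τ) (zt 4 v τ) ≠ wp (lat τ) (zt 4 w τ) := by
  intro e
  apply h
  rw [Wf_apply, xv, xv, e, sub_self]

theorem not_nz {v : Fin 2 → ℤ} (h0 : (4 : ℤ) ∣ v 0) (h1 : (4 : ℤ) ∣ v 1) : ¬ NZ 4 v := by
  rw [NZ, not_not, Fin.forall_fin_two]
  exact ⟨h0, h1⟩

/-- the entries of a matrix in `Γ₀(4)` -/
theorem entries {γ : SL(2, ℤ)} (h : γ ∈ G0) : (4 : ℤ) ∣ γ 1 0 ∧ Odd (γ 0 0) ∧ Odd (γ 1 1) := by
  have h1 : (4 : ℤ) ∣ γ 1 0 :=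
    (ZMod.intCast_zmod_eq_zero_iff_dvd _ 4).1 (CongruenceSubgroup.Gamma0_mem.1 h)
  refine ⟨h1, Int.odd_mul.1 ?_⟩
  obtain ⟨c, hc⟩ := h1
  have hd := det_eq γ
  rw [hc] at hd
  exact ⟨2 * γ 0 1 * c, by linear_combination hd⟩

theorem x1 {γ : SL(2, ℤ)} (h : γ ∈ G0) : xv 4 (p1 4 ᵥ* (γ : M2)) = xv 4 (p1 4) := by
  obtain ⟨hc, -, ⟨d, hd⟩⟩ := entries h
  have a0 : p1 4 0 = 0 := rfl
  have a1 : p1 4 1 = 2 := rfl
  refine xv_congr (by norm_num) (not_nz ?_ ?_)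
  · rw [Pi.sub_apply, vm0, a0, a1]; omega
  · rw [Pi.sub_apply, vm1, a0, a1]; omega

theorem x4 {γ : SL(2, ℤ)} (h : γ ∈ G0) : xv 4 (p4 4 ᵥ* (γ : M2)) = xv 4 (p4 4) := by
  obtain ⟨hc, -, ⟨d, hd⟩⟩ := entries h
  have a0 : p4 4 0 = 0 := rfl
  have a1 : p4 4 1 = 1 := rfl
  rcases Int.even_or_odd' d with ⟨k, hk | hk⟩
  · refine xv_congr (by norm_num) (not_nz ?_ ?_)
    · rw [Pi.sub_apply, vm0, a0, a1]; omega
    · rw [Pi.sub_apply, vm1, a0, a1]; omega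
  · refine xv_congr' (by norm_num) (not_nz ?_ ?_)
    · rw [Pi.add_apply, vm0, a0, a1]; omega
    · rw [Pi.add_apply, vm1, a0, a1]; omega

theorem x23 {γ : SL(2, ℤ)} (h : γ ∈ G0) :
    (xv 4 (p2 4 ᵥ* (γ : M2)) = xv 4 (p2 4) ∧ xv 4 (p3 4 ᵥ* (γ : M2)) = xv 4 (p3 4)) ∨
      (xv 4 (p2 4 ᵥ* (γ : M2)) = xv 4 (p3 4) ∧ xv 4 (p3 4 ᵥ* (γ : M2)) = xv 4 (p2 4)) := by
  obtain ⟨hc, ⟨a, ha⟩, ⟨d, hd⟩⟩ := entries h
  have a0 : p2 4 0 = 2 := rfl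
  have a1 : p2 4 1 = 0 := rfl
  have b0 : p3 4 0 = 2 := rfl
  have b1 : p3 4 1 = 2 := rfl
  rcases Int.even_or_odd' (γ 0 1) with ⟨k, hk | hk⟩
  · refine Or.inl ⟨xv_congr (by norm_num) (not_nz ?_ ?_), xv_congr (by norm_num) (not_nz ?_ ?_)⟩
    · rw [Pi.sub_apply, vm0, a0, a1]; omega
    · rw [Pi.sub_apply, vm1, a0, a1]; omega
    · rw [Pi.sub_apply, vm0, b0, b1]; omega
    · rw [Pi.sub_apply, vm1, b0, b1]; omega
  · refine Or.inr ⟨xv_congr (by norm_num) (not_nz ?_ ?_), xv_congr (by norm_num) (not_nz ?_ ?_)⟩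
    · rw [Pi.sub_apply, vm0, a0, a1, b0]; omega
    · rw [Pi.sub_apply, vm1, a0, a1, b1]; omega
    · rw [Pi.sub_apply, vm0, b0, b1, a0]; omega
    · rw [Pi.sub_apply, vm1, b0, b1, a1]; omega

theorem Af_ne (τ : ℍ) : Af τ ≠ 0 :=
  Wf_ne (by norm_num) nz4 nz1 (by unfold NZ; decide) (by unfold NZ; decide) τ

theorem alf_ne (τ : ℍ) : alf τ ≠ 0 :=
  Wf_ne (by norm_num) nz1 nz2 (by unfold NZ; decide) (by unfold NZ; decide) τ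

theorem bef_ne (τ : ℍ) : bef τ ≠ 0 :=
  Wf_ne (by norm_num) nz1 nz3 (by unfold NZ; decide) (by unfold NZ; decide) τ

theorem gaf_ne (τ : ℍ) : gaf τ ≠ 0 :=
  Wf_ne (by norm_num) nz3 nz2 (by unfold NZ; decide) (by unfold NZ; decide) τ

theorem gaf_eq : gaf = alf - bef := by
  funext τ
  simp only [gaf, alf, bef, Pi.sub_apply, Wf_apply]
  ring

theorem Bf_apply (τ : ℍ) : Bf τ = alf τ + bef τ := rfl

theorem gaf_apply (τ : ℍ) : gaf τ = alf τ - bef τ := congrFun gaf_eq τ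

/-- `e₁ + e₂ + e₃ = 0` -/
theorem xv_sum (τ : ℍ) : xv 4 (p1 4) τ + xv 4 (p2 4) τ + xv 4 (p3 4) τ = 0 := by
  have h := (roots (half_ode nz1 (by unfold NZ; decide) τ) (half_ode nz2 (by unfold NZ; decide) τ)
    (half_ode nz3 (by unfold NZ; decide) τ) (wp_ne (alf_ne τ)) (wp_ne (bef_ne τ))
    (wp_ne (gaf_ne τ)).symm).1
  rw [xv, xv, xv, ← mul_add, ← mul_add, h, mul_zero]

/-- `A ^ 2 = α β` -/
theorem Af_sq (τ : ℍ) : Af τ ^ 2 = alf τ * bef τ := by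
  have h0 := ((isLat τ).add (notMem nz4 τ) (notMem nz1 τ) (wp_ne (Af_ne τ))).2.1
  have h1 : wp (lat τ) (zt 4 (p4 4) τ + zt 4 (p1 4) τ) = wp (lat τ) (zt 4 (p4 4) τ) := by
    refine (isLat τ).wp_congr' ?_
    rw [← zt_add, ← zt_add]
    exact (zt_mem (by norm_num)).2 (by unfold NZ; decide)
  rw [h1, half nz1 (by unfold NZ; decide)] at h0
  have h := alg (half_ode nz1 (by unfold NZ; decide) τ) (half_ode nz2 (by unfold NZ; decide) τ)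
    (half_ode nz3 (by unfold NZ; decide) τ) (wp_ne (alf_ne τ)) (wp_ne (bef_ne τ))
    (wp_ne (gaf_ne τ)).symm (wp_ne (Af_ne τ)) ((isLat τ).ode (notMem nz4 τ)) h0
  simp only [Af, alf, bef, Wf_apply, xv]
  linear_combination (((2 * Real.pi * Complex.I) ^ 2)⁻¹) ^ 2 * h

/-- `B ^ 2 - 4 A ^ 2 = γ ^ 2` -/
theorem Bf_sq (τ : ℍ) : Bf τ ^ 2 - 4 * Af τ ^ 2 = gaf τ ^ 2 := by
  rw [Af_sq, Bf_apply, gaf_apply]
  ring

theorem Af_slash {γ : SL(2, ℤ)} (h : γ ∈ G0) : Af ∣[(2 : ℤ)] γ = Af := by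
  rw [Af, Wf_slash]
  funext τ
  rw [Wf_apply, Wf_apply, x1 h, x4 h]

/-- `Γ₀(4)` fixes or swaps `α` and `β` -/
theorem alf_slash {γ : SL(2, ℤ)} (h : γ ∈ G0) :
    (alf ∣[(2 : ℤ)] γ = alf ∧ bef ∣[(2 : ℤ)] γ = bef) ∨
      (alf ∣[(2 : ℤ)] γ = bef ∧ bef ∣[(2 : ℤ)] γ = alf) := by
  rw [alf, bef, Wf_slash, Wf_slash]
  refine (x23 h).imp (fun k => ⟨?_, ?_⟩) (fun k => ⟨?_, ?_⟩)
  · funext τ
    rw [Wf_apply, Wf_apply, x1 h, k.1]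
  · funext τ
    rw [Wf_apply, Wf_apply, x1 h, k.2]
  · funext τ
    rw [Wf_apply, Wf_apply, x1 h, k.1]
  · funext τ
    rw [Wf_apply, Wf_apply, x1 h, k.2]

theorem Bf_slash {γ : SL(2, ℤ)} (h : γ ∈ G0) : Bf ∣[(2 : ℤ)] γ = Bf := by
  rw [Bf, SlashAction.add_slash]
  rcases alf_slash h with k | k
  · rw [k.1, k.2]
  · rw [k.1, k.2, add_comm]

theorem Af_bdd (h : SA3) : Bdd 2 Af := (h 4 (by norm_num) _ _ nz4 nz1).1
theorem alf_bdd (h : SA3) : Bdd 2 alf := (h 4 (by norm_num) _ _ nz1 nz2).1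
theorem bef_bdd (h : SA3) : Bdd 2 bef := (h 4 (by norm_num) _ _ nz1 nz3).1
theorem gaf_bdd (h : SA3) : Bdd 2 gaf := (h 4 (by norm_num) _ _ nz3 nz2).1

/-- `γ ^ 2` is a form of weight four on `Γ₀(4)` -/
theorem gaf_sq_isMF (h : SB1) : IsMF G0 4 (gaf ^ 2) := by
  have k := (h.2.2.mul h.2.2).sub ((h.2.1.mul h.2.1).smul 4)
  have e : Bf * Bf - (4 : ℂ) • (Af * Af) = gaf ^ 2 := by
    funext τ
    simp only [Pi.sub_apply, Pi.mul_apply, Pi.smul_apply, Pi.pow_apply, smul_eq_mul]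
    linear_combination Bf_sq τ
  rw [e] at k
  exact k

end B1

open B1 in
/-- **B1** -/
theorem rb1 : RB1 := fun h =>
  ⟨Af_sq, (Af_bdd h).isMF fun _ => Af_slash,
    ((alf_bdd h).add (bef_bdd h)).isMF fun _ => Bf_slash⟩

end Vale.Agent.P027M.M
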