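import Vale.Agent.P027M.M.A2
import Vale.Agent.P022.H218.L3.Deg

/-!
# P027 block M, row B2: the function field of `Γ₀(4)` is generated by the Hauptmodul
-/

set_option autoImplicit false
set_option linter.all false

open UpperHalfPlane Matrix Polynomial ModularGroup
open scoped MatrixGroups Manifold IntermediateField ModularForm

noncomputable section

namespace Vale.Agent.P027M.M

open Vale.Agent.P022 Vale.Agent.P022.H218.L3 Vale.Agent.P022.H236.L3

namespace B2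

/-- the point of the projective line modulo four -/
def pl (a c : ZMod 4) : Option (Option (ZMod 4)) :=
  if a * a = 1 then some (some (a * c)) else if a = 0 then none else some none

theorem index_four : G0.index ≤ 6 := by
  have k1 : ∀ a b c d : ZMod 4, a * d - b * c = 1 → a * a = 1 ∨ c * c = 1 := by decide
  have k2 : ∀ a c a' c' : ZMod 4, a * a = 1 ∨ c * c = 1 → a' * a' = 1 ∨ c' * c' = 1 →
      pl a c = pl a' c' → a * c' - c * a' = 0 := by decide
  have k3 : ∀ γ : SL(2, ℤ), ((γ 0 0 : ℤ) : ZMod 4) * γ 0 0 = 1 ∨ ((γ 1 0 : ℤ) : ZMod 4) * γ 1 0 = 1 :=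
    fun γ => k1 _ (γ 0 1) _ (γ 1 1) (by exact_mod_cast congrArg (Int.cast : ℤ → ZMod 4) (det_eq γ))
  have k4 : ∀ a b : SL(2, ℤ), (a⁻¹ * b) 1 0 = a 0 0 * b 1 0 - a 1 0 * b 0 0 := fun a b => by
    show ((a⁻¹ * b : SL(2, ℤ)) : M2) 1 0 = _
    rw [Matrix.SpecialLinearGroup.coe_mul, Matrix.SpecialLinearGroup.coe_inv,
      Matrix.adjugate_fin_two, Matrix.mul_apply, Fin.sum_univ_two]
    simp
    ring
  have hinj : Function.Injective fun q : SL(2, ℤ) ⧸ G0 => pl (q.out 0 0) (q.out 1 0) := by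
    intro q q' e
    rw [← QuotientGroup.out_eq' q, ← QuotientGroup.out_eq' q', QuotientGroup.eq,
      CongruenceSubgroup.Gamma0_mem]
    rw [k4]
    push_cast
    exact k2 _ _ _ _ (k3 _) (k3 _) e
  exact (Nat.card_le_card_of_injective _ hinj).trans (by simp)

theorem xs (γ : SL(2, ℤ)) {v w v' w' : Fin 2 → ℤ} (h1 : ∀ i, (4 : ℤ) ∣ (v ᵥ* (γ : M2) - v') i)
    (h2 : ∀ i, (4 : ℤ) ∣ (w ᵥ* (γ : M2) - w') i) : Wf 4 v w ∣[(2 : ℤ)] γ = Wf 4 v' w' := by
  rw [Wf_slash]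
  funext τ
  rw [Wf_apply, Wf_apply, xv_congr four_pos (not_not.2 h1), xv_congr four_pos (not_not.2 h2)]

/-- symmetric forms of degree six are of level one -/
theorem lev (P : ℂ → ℂ → ℂ) (hP : ∀ y a b, P (a * y) (b * y) = P a b * y ^ 6)
    (hS : ∀ a b, P (-a) (b - a) = P a b) (hT : ∀ a b, P b a = P a b)
    (hb : Bdd 12 fun τ => P (alf τ) (bef τ)) :
    ∃ a b : ℂ, ∀ τ, P (alf τ) (bef τ) = ModularForm.discriminant τ * (a * jf τ + b) := by
  have sl : ∀ (γ : SL(2, ℤ)) τ, ((fun τ => P (alf τ) (bef τ)) ∣[(12 : ℤ)] γ) τ =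
      P ((alf ∣[(2 : ℤ)] γ) τ) ((bef ∣[(2 : ℤ)] γ) τ) := fun γ τ => by
    simp only [ModularForm.SL_slash_apply]
    rw [hP, ← _root_.zpow_natCast, ← _root_.zpow_mul]
    rfl
  have h : IsMF ⊤ (12 * (1 : ℕ)) fun τ => P (alf τ) (bef τ) := hb.isMF fun γ _ => by
    refine SlashInvariantForm.slash_action_generators_SL2Z (funext fun τ => ?_) (funext fun τ => ?_) γ
    · rw [← hS, sl, alf, bef, xs S (v' := p2 4) (w' := p1 4) (by decide) (by decide),
        xs S (v' := p2 4) (w' := p3 4) (by decide) (by decide)]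
      simp only [Wf_apply]
      congr 1 <;> ring
    · rw [← hT, sl, alf, bef, xs T (v' := p1 4) (w' := p3 4) (by decide) (by decide),
        xs T (v' := p1 4) (w' := p2 4) (by decide) (by decide)]
  obtain ⟨Q, hQ, e⟩ := exists_poly_j 1 (toMF1 h)
  refine ⟨Q.coeff 1, Q.coeff 0, fun τ => (e τ).trans ?_⟩
  conv_lhs => rw [eq_X_add_C_of_natDegree_le_one hQ]
  simp

theorem n1 : NZ 4 (p1 4) := by unfold NZ; decide
theorem n2 : NZ 4 (p2 4) := by unfold NZ; decide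
theorem n3 : NZ 4 (p3 4) := by unfold NZ; decide

/-- the two forms are not proportional -/
theorem indep (h3 : SA3) {s c : ℂ} (h : ∀ τ, s * (alf τ * alf τ - alf τ * bef τ + bef τ * bef τ) ^ 3
    = c * (alf τ * bef τ * (alf τ - bef τ)) ^ 2) : s = 0 := by
  have ea : ExL 4 _ alf := (h3 4 four_pos _ _ n1 n2).2
  have eb : ExL 4 _ bef := (h3 4 four_pos _ _ n1 n3).2
  have e := (((((ea.mul ea).sub (ea.mul eb)).add (eb.mul eb)).pow 3).smul s).unique four_ne_zero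
    (((((ea.mul eb).mul (ea.sub eb)).pow 2).smul c).congr
      (Filter.Eventually.of_forall fun τ => (h τ).symm))
  have e1 : ∀ v, Xs 4 v = HahnSeries.ofPowerSeries ℤ ℂ (PowerSeries.mk (Xc 4 v)) := fun v =>
    one_mul _
  simp only [e1, ← HahnSeries.ofPowerSeries_C (Γ := ℤ), ← map_sub, ← map_mul, ← map_add,
    ← map_pow] at e
  have e2 := congrArg PowerSeries.constantCoeff (HahnSeries.ofPowerSeries_injective e)
  have z : ze 4 2 = -1 := by
    rw [ze, ← Complex.exp_pi_mul_I]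
    congr 1
    push_cast
    ring
  have z1 : Xc 4 (p1 4) 0 = -1 / 4 := by
    rw [Xc, if_pos rfl, if_pos (by decide), show p1 4 1 = 2 from rfl, z]
    norm_num
  have z2 : Xc 4 (p2 4) 0 = 0 := by rw [Xc, if_pos rfl, if_neg (by decide)]
  have z3 : Xc 4 (p3 4) 0 = 0 := by rw [Xc, if_pos rfl, if_neg (by decide)]
  simp only [map_mul, map_pow, map_add, map_sub, PowerSeries.constantCoeff_C,
    PowerSeries.constantCoeff_mk, z1, z2, z3] at e2
  linear_combination 4096 * e2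

end B2

open B2 in
/-- **B2** -/
theorem rb2 : RB2 := by
  rintro h3 ⟨hsq, hA, hB⟩
  have bot : ∀ {f}, Bdd 2 f → IsMF ⊥ 2 f := fun h => h.isMF fun γ hγ => by
    rw [Subgroup.mem_bot.1 hγ, SlashAction.slash_one]
  have a : IsMF ⊥ 2 alf := bot (h3 4 four_pos _ _ n1 n2).1
  have b : IsMF ⊥ 2 bef := bot (h3 4 four_pos _ _ n1 n3).1
  obtain ⟨a1, b1, e1⟩ := lev (fun x y => (x * x - x * y + y * y) ^ 3) (fun _ _ _ => by ring)
    (fun _ _ => by ring) (fun _ _ => by ring)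
    (by
      have h := ((((a.mul a).sub (a.mul b)).add (b.mul b)).pow 3).toBdd
      rw [show ((3 : ℕ) : ℤ) * (2 + 2) = 12 by norm_num] at h
      exact h)
  obtain ⟨a2, b2, e2⟩ := lev (fun x y => (x * y * (x - y)) ^ 2) (fun _ _ _ => by ring)
    (fun _ _ => by ring) (fun _ _ => by ring)
    (by
      have h := (((a.mul b).mul (a.sub b)).pow 2).toBdd
      rw [show ((2 : ℕ) : ℤ) * (2 + 2 + 2) = 12 by norm_num] at h
      exact h)
  have na := Wf_ne four_pos n1 n2 (by unfold NZ; decide) (by unfold NZ; decide) I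
  have nb := Wf_ne four_pos n1 n3 (by unfold NZ; decide) (by unfold NZ; decide) I
  have nc := Wf_ne four_pos n3 n2 (by unfold NZ; decide) (by unfold NZ; decide) I
  have hd : a1 * b2 - a2 * b1 ≠ 0 := fun hd => by
    have k1 : a2 = 0 := indep h3 (c := a1) fun τ => by
      rw [e1, e2]; linear_combination (-ModularForm.discriminant τ) * hd
    have k2 : b2 = 0 := indep h3 (c := b1) fun τ => by
      rw [e1, e2]; linear_combination (ModularForm.discriminant τ * jf τ) * hd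
    have k3 := e2 I
    rw [k1, k2, zero_mul, add_zero, mul_zero, pow_eq_zero_iff two_ne_zero] at k3
    refine mul_ne_zero (mul_ne_zero na nb) (fun k => nc ?_) k3
    simp only [alf, bef, Wf_apply] at k ⊢
    linear_combination k
  have A0 : Af ≠ 0 := fun h => mul_ne_zero na nb ((hsq I).symm.trans (by simp [h]))
  have A1 : inc Af hA.hol ≠ 0 := fun h => A0 ((inc_eq_zero _).1 h)
  have ht : tM = inc Bf hB.hol / inc Af hA.hol := by rw [tM, ic_eq, ic_eq]
  have hC : C (a1 * b2 - a2 * b1)⁻¹ * (C a1 * C b2 - C a2 * C b1) = (1 : ℂ[X]) := by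
    rw [← C_mul, ← C_mul, ← C_sub, ← C_mul, inv_mul_cancel₀ hd, C_1]
  refine MF_eq_adjoin G0 ⟨2, Bf, Af, hB, hA, A0, ht⟩
    (N := C b2 * (X ^ 2 - 3) ^ 3 - C b1 * (X ^ 2 - 4))
    (D := C a1 * (X ^ 2 - 4) - C a2 * (X ^ 2 - 3) ^ 3)
    ⟨C (a1 * b2 - a2 * b1)⁻¹ * (C a1 - ((X ^ 2 - 4) ^ 2 + 3 * (X ^ 2 - 4) + 3) * C a2),
      C (a1 * b2 - a2 * b1)⁻¹ * (C b1 - ((X ^ 2 - 4) ^ 2 + 3 * (X ^ 2 - 4) + 3) * C b2),
      by linear_combination hC⟩ ?_ (index_four.trans ?_)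
  · have key : (⟨jf, jf_mem⟩ : Hol) * (algebraMap ℂ Hol a1 * (⟨Af, hA.hol⟩ ^ 4 *
        (⟨Bf, hB.hol⟩ ^ 2 - 4 * ⟨Af, hA.hol⟩ ^ 2)) - algebraMap ℂ Hol a2 *
        (⟨Bf, hB.hol⟩ ^ 2 - 3 * ⟨Af, hA.hol⟩ ^ 2) ^ 3) = algebraMap ℂ Hol b2 *
        (⟨Bf, hB.hol⟩ ^ 2 - 3 * ⟨Af, hA.hol⟩ ^ 2) ^ 3 - algebraMap ℂ Hol b1 * (⟨Af, hA.hol⟩ ^ 4 *
        (⟨Bf, hB.hol⟩ ^ 2 - 4 * ⟨Af, hA.hol⟩ ^ 2)) := by
      refine Subtype.ext (funext fun τ => ?_)
      show jf τ * (a1 * (Af τ ^ 4 * ((alf τ + bef τ) ^ 2 - 4 * Af τ ^ 2)) -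
        a2 * ((alf τ + bef τ) ^ 2 - 3 * Af τ ^ 2) ^ 3) =
        b2 * ((alf τ + bef τ) ^ 2 - 3 * Af τ ^ 2) ^ 3 -
          b1 * (Af τ ^ 4 * ((alf τ + bef τ) ^ 2 - 4 * Af τ ^ 2))
      rw [show Af τ ^ 4 = (Af τ ^ 2) ^ 2 by ring, hsq]
      linear_combination (jf τ * a1 + b1) * e2 τ - (jf τ * a2 + b2) * e1 τ
    have k := congrArg (algebraMap Hol Mer) key
    simp only [map_mul, map_sub, map_pow, map_ofNat, ← IsScalarTower.algebraMap_apply] at k
    simp only [map_mul, map_sub, map_pow, map_ofNat, aeval_C, aeval_X, ht]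
    unfold jM inc at *
    field_simp
    linear_combination k
  · have e : C (a1 * b2 - a2 * b1) * (X ^ 2 - 3) ^ 3 =
        C a1 * (C b2 * (X ^ 2 - 3) ^ 3 - C b1 * (X ^ 2 - 4)) +
          C b1 * (C a1 * (X ^ 2 - 4) - C a2 * (X ^ 2 - 3) ^ 3) := by
      simp only [map_sub, map_mul]; ring
    have hU : ((X ^ 2 - 3) ^ 3 : ℂ[X]).natDegree = 6 := by compute_degree!
    rw [← hU, ← natDegree_C_mul hd, e]
    exact (natDegree_add_le _ _).trans
      (max_le_max (natDegree_C_mul_le _ _) (natDegree_C_mul_le _ _))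

end Vale.Agent.P027M.M
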