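import Vale.Agent.P027M.M.A2

/-!
# P027 block M, row B3: the expansions of the Hauptmodul at the cusps
-/

set_option autoImplicit false

open UpperHalfPlane Matrix
open scoped MatrixGroups Manifold IntermediateField ModularForm

noncomputable section

namespace Vale.Agent.P027M.M

open Vale.Agent.P022 Vale.Agent.P022.H218.L3 Vale.Agent.P022.H231.L3 Vale.Agent.P022.H236.L3
  Vale.Agent.P022.H542.L3 Vale.Agent.P027H

namespace B3

variable {N : ℕ}

theorem good_of {k : ℤ} {s : LS} (h1 : ∀ n, s.coeff n ∈ ZN N) (h2 : ∀ j < k, s.coeff j = 0)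
    (h3 : s.coeff k ≠ 0) (h4 : (s.coeff k)⁻¹ ∈ ZN N) : Good N k s := by
  have h0 : s ≠ 0 := fun e => h3 (by rw [e]; rfl)
  refine ⟨h0, h1, le_antisymm (HahnSeries.order_le_of_coeff_ne_zero h3) ?_, h4⟩
  by_contra h
  exact h0 (HahnSeries.coeff_order_eq_zero.1 (h2 _ (not_le.1 h)))

theorem good_iff {k : ℤ} {s : LS} : Good N k s ↔ ∃ U V : PowerSeries (ZN N), U * V = 1 ∧
    s = ls k (PowerSeries.map (algebraMap (ZN N) ℂ) U) := by
  constructor
  · intro h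
    have h3 : s.coeff k ≠ 0 := fun e => h.ne (HahnSeries.coeff_order_eq_zero.1 (by rwa [h.ord]))
    have hu : IsUnit (PowerSeries.mk fun n : ℕ => (⟨s.coeff (k + n), h.int _⟩ : ZN N)) := by
      rw [PowerSeries.isUnit_iff_constantCoeff, ← PowerSeries.coeff_zero_eq_constantCoeff_apply,
        PowerSeries.coeff_mk]
      refine IsUnit.of_mul_eq_one ⟨_, h.unit⟩ (Subtype.ext ?_)
      show s.coeff (k + (0 : ℕ)) * (s.coeff k)⁻¹ = 1
      rw [Nat.cast_zero, add_zero, mul_inv_cancel₀ h3]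
    obtain ⟨V, hV⟩ := hu.exists_right_inv
    refine ⟨_, V, hV, ls_ext (fun n => ?_) fun j hj => ?_⟩
    · rw [PowerSeries.coeff_map, PowerSeries.coeff_mk]
      rfl
    · exact HahnSeries.coeff_eq_zero_of_lt_order (by rwa [h.ord])
  · rintro ⟨U, V, h, rfl⟩
    have e := coeff_ls k (PowerSeries.map (algebraMap (ZN N) ℂ) U) 0
    rw [Nat.cast_zero, add_zero, PowerSeries.coeff_map,
      PowerSeries.coeff_zero_eq_constantCoeff_apply] at e
    have e1 := congrArg (fun x => algebraMap (ZN N) ℂ (PowerSeries.constantCoeff x)) h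
    simp only [map_mul, map_one] at e1
    refine good_of (fun n => ?_) (fun j hj => coeff_ls_of_lt _ _ hj) ?_ ?_
    · rcases lt_or_ge n k with h1 | h1
      · rw [coeff_ls_of_lt _ _ h1]
        exact zero_mem _
      · obtain ⟨j, rfl⟩ : ∃ j : ℕ, n = k + j := ⟨(n - k).toNat, by omega⟩
        rw [coeff_ls, PowerSeries.coeff_map]
        exact Subtype.property _
    · rw [e]
      exact left_ne_zero_of_mul_eq_one e1
    · rw [e, inv_eq_of_mul_eq_one_right e1]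
      exact Subtype.property _

theorem good_mul {k l : ℤ} {s t : LS} (h : Good N k s) (h' : Good N l t) :
    Good N (k + l) (s * t) := by
  obtain ⟨U, V, e, rfl⟩ := good_iff.1 h
  obtain ⟨U', V', e', rfl⟩ := good_iff.1 h'
  exact good_iff.2 ⟨U * U', V * V', by rw [mul_mul_mul_comm, e, e', one_mul],
    by rw [ls_mul, map_mul]⟩

theorem good_inv {k : ℤ} {s : LS} (h : Good N k s) : Good N (-k) s⁻¹ := by
  obtain ⟨U, V, e, rfl⟩ := good_iff.1 h
  refine good_iff.2 ⟨V, U, by rw [mul_comm, e], inv_eq_of_mul_eq_one_right ?_⟩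
  rw [ls_mul, ← map_mul, e, map_one, add_neg_cancel, ls_zero_one]

theorem xs_neg (v : Fin 2 → ℤ) {j : ℤ} (hj : j < 0) : (Xs N v).coeff j = 0 :=
  coeff_ls_of_lt _ _ hj

theorem xs_zero (v : Fin 2 → ℤ) : (Xs N v).coeff 0 =
    if (N : ℤ) ∣ v 0 then ze N (v 1) / (1 - ze N (v 1)) ^ 2 else 0 := by
  have e := coeff_ls 0 (PowerSeries.mk (Xc N v)) 0
  rw [Nat.cast_zero, add_zero, PowerSeries.coeff_mk] at e
  rw [Xs, e, Xc, if_pos rfl]

theorem ab_cast {x : ℤ} {m : ℕ} (hN : 0 < N) (hm : 2 * m ≤ N)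
    (h : (N : ℤ) ∣ x - m ∨ (N : ℤ) ∣ x + m) : A.ab ((x : ℤ) : ZMod N) = m := by
  have : NeZero N := ⟨hN.ne'⟩
  have h1 : A.ab ((m : ℕ) : ZMod N) = m := by
    have h2 : ((m : ℕ) : ZMod N).val = m := ZMod.val_cast_of_lt (by omega)
    rw [A.ab, ZMod.neg_val, h2]
    split_ifs with h3
    · rw [h3, ZMod.val_zero] at h2
      omega
    · omega
  rcases h with h | h
  · have e : ((x : ℤ) : ZMod N) = (m : ℕ) := by
      have := (ZMod.intCast_zmod_eq_zero_iff_dvd _ N).2 h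
      push_cast at this
      exact sub_eq_zero.1 this
    rw [e, h1]
  · have e : ((x : ℤ) : ZMod N) = -(m : ℕ) := by
      have := (ZMod.intCast_zmod_eq_zero_iff_dvd _ N).2 h
      push_cast at this
      exact eq_neg_of_add_eq_zero_left this
    rw [e, A.ab_neg, h1]

variable {n : ℕ}

theorem dvd_iff (hn : 0 < n) (k : ℤ) : ((4 * n : ℕ) : ℤ) ∣ n * k ↔ 4 ∣ k := by
  have h0 : (n : ℤ) ≠ 0 := by exact_mod_cast hn.ne'
  rw [Nat.cast_mul, mul_comm ((4 : ℕ) : ℤ), Nat.cast_ofNat, mul_dvd_mul_iff_left h0]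

theorem nz_of (hn : 0 < n) {v : Fin 2 → ℤ} (i : Fin 2) {k : ℤ} (h : v i = n * k) (hk : ¬ 4 ∣ k) :
    NZ (4 * n) v := fun e => hk ((dvd_iff hn k).1 (h ▸ e i))

theorem ze_half (hn : 0 < n) {d : ℤ} (hd : Odd d) : ze (4 * n) (n * (2 * d)) = -1 := by
  obtain ⟨m, rfl⟩ := hd
  have h0 : (n : ℂ) ≠ 0 := by exact_mod_cast hn.ne'
  have e : (2 * Real.pi * Complex.I * ((n * (2 * (2 * m + 1)) : ℤ) : ℂ) / ((4 * n : ℕ) : ℂ) : ℂ) =
      m * (2 * Real.pi * Complex.I) + Real.pi * Complex.I := by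
    push_cast
    field_simp
    ring
  rw [ze, e, Complex.exp_add, Complex.exp_int_mul_two_pi_mul_I, Complex.exp_pi_mul_I, one_mul]

theorem ze_quarter (hn : 0 < n) {d : ℤ} (hd : Odd d) :
    ze (4 * n) (n * d) / (1 - ze (4 * n) (n * d)) ^ 2 = -1 / 2 := by
  have h1 : ze (4 * n) (n * d) ^ 2 = -1 := by
    rw [← ze_half hn hd, ze, ze, ← Complex.exp_nat_mul]
    congr 1
    push_cast
    ring
  have h2 : ze (4 * n) (n * d) ≠ 0 := Complex.exp_ne_zero _
  have h3 : (1 - ze (4 * n) (n * d)) ^ 2 = -2 * ze (4 * n) (n * d) := by linear_combination h1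
  rw [h3]
  field_simp

theorem xs_half (hn : 0 < n) {v : Fin 2 → ℤ} {c d : ℤ} (h0 : v 0 = n * (2 * c))
    (h1 : v 1 = n * (2 * d)) (h : Odd c ∨ Odd d) :
    (Xs (4 * n) v).coeff 0 = if Even c then -1 / 4 else 0 := by
  rw [xs_zero, h0, h1]
  by_cases hc : Even c
  · rw [if_pos hc, if_pos ((dvd_iff hn _).2 (by obtain ⟨m, rfl⟩ := hc; omega)),
      ze_half hn (h.resolve_left (Int.not_odd_iff_even.2 hc))]
    norm_num
  · rw [if_neg hc, if_neg]
    rw [dvd_iff hn]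
    obtain ⟨m, rfl⟩ := Int.not_even_iff_odd.1 hc
    omega

theorem half (n : ℕ) : ((4 * n / 2 : ℕ) : ℤ) = n * 2 := by
  have : 4 * n / 2 = n * 2 := by omega
  rw [this]; push_cast; rfl

theorem quarter (n : ℕ) : 4 * n / 4 = n := by omega

theorem P1 (n : ℕ) : p1 (4 * n) = ![0, (n : ℤ) * 2] := by rw [p1, half]
theorem P2 (n : ℕ) : p2 (4 * n) = ![(n : ℤ) * 2, 0] := by rw [p2, half]
theorem P3 (n : ℕ) : p3 (4 * n) = ![(n : ℤ) * 2, (n : ℤ) * 2] := by rw [p3, half]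
theorem P4 (n : ℕ) : p4 (4 * n) = ![0, (n : ℤ)] := by rw [p4, quarter]

theorem lev (hn : 0 < n) : xv 4 (p1 4) = xv (4 * n) (p1 (4 * n)) ∧
    xv 4 (p2 4) = xv (4 * n) (p2 (4 * n)) ∧ xv 4 (p3 4) = xv (4 * n) (p3 (4 * n)) ∧
    xv 4 (p4 4) = xv (4 * n) (p4 (4 * n)) := by
  refine ⟨?_, ?_, ?_, ?_⟩ <;> refine xv_level (by norm_num) (by omega) ?_ <;>
    rw [Fin.forall_fin_two] <;> simp only [p1, p2, p3, p4, half, quarter, Matrix.cons_val_zero,
      Matrix.cons_val_one] <;> constructor <;> push_cast <;> ring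

end B3

open B3 in
theorem rb3 : RB3 := by
  intro h3 h4 h1 N hN γ
  obtain ⟨n, rfl⟩ := hN.four
  have hN0 := hN.pos
  have hn : 0 < n := by omega
  obtain ⟨l1, l2, l3, l4⟩ := lev hn
  have hdet := det_eq γ
  have z1 : NZ (4 * n) (p1 (4 * n)) := nz_of hn 1 (k := 2) (half n) (by decide)
  have z2 : NZ (4 * n) (p2 (4 * n)) := nz_of hn 0 (k := 2) (half n) (by decide)
  have z3 : NZ (4 * n) (p3 (4 * n)) := nz_of hn 0 (k := 2) (half n) (by decide)
  have z4 : NZ (4 * n) (p4 (4 * n)) := nz_of hn 1 (k := 1) (by simp [P4]) (by decide)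
  have z5 : NZ (4 * n) (p4 (4 * n) - p1 (4 * n)) :=
    nz_of hn 1 (k := -1) (by simp [P4, P1]; ring) (by decide)
  have z6 : NZ (4 * n) (p4 (4 * n) + p1 (4 * n)) :=
    nz_of hn 1 (k := 3) (by simp [P4, P1]; ring) (by decide)
  have z7 : NZ (4 * n) (p3 (4 * n) - p2 (4 * n)) :=
    nz_of hn 1 (k := 2) (by simp [P3, P2]) (by decide)
  have z8 : NZ (4 * n) (p3 (4 * n) + p2 (4 * n)) :=
    nz_of hn 1 (k := 2) (by simp [P3, P2]) (by decide)
  have eA : Af = Wf (4 * n) (p4 (4 * n)) (p1 (4 * n)) := by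
    funext τ; rw [Af, Wf_apply, Wf_apply, l4, l1]
  have eal : alf = Wf (4 * n) (p1 (4 * n)) (p2 (4 * n)) := by
    funext τ; rw [alf, Wf_apply, Wf_apply, l1, l2]
  have ebe : bef = Wf (4 * n) (p1 (4 * n)) (p3 (4 * n)) := by
    funext τ; rw [bef, Wf_apply, Wf_apply, l1, l3]
  have A0 : Af ≠ 0 := fun e => Wf_ne hN0 z4 z1 z5 z6 UpperHalfPlane.I (by rw [← eA, e]; rfl)
  have y1 := z1.vecMul γ
  have y2 := z2.vecMul γ
  have y3 := z3.vecMul γ
  have y4 := z4.vecMul γ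
  have y5 := z5.vecMul γ
  have y6 := z6.vecMul γ
  have y7 := z7.vecMul γ
  have y8 := z8.vecMul γ
  rw [Matrix.sub_vecMul] at y5 y7
  rw [Matrix.add_vecMul] at y6 y8
  have xA := (h3 _ hN0 _ _ y4 y1).2
  have xal := (h3 _ hN0 _ _ y1 y2).2
  have xbe := (h3 _ hN0 _ _ y1 y3).2
  rw [← Wf_slash, ← eA] at xA
  rw [← Wf_slash, ← eal] at xal
  rw [← Wf_slash, ← ebe] at xbe
  have gA := (h4 _ hN0).2 _ _ y4 y1 y5 y6
  have gG := (h4 _ hN0).2 _ _ y3 y2 y7 y8
  have i1 := (h4 _ hN0).1 _ y1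
  have i2 := (h4 _ hN0).1 _ y2
  have i3 := (h4 _ hN0).1 _ y3
  have i4 := (h4 _ hN0).1 _ y4
  have c10 : (p1 (4 * n) ᵥ* (γ : M2)) 0 = n * (2 * γ 1 0) := by rw [vm0]; simp [P1]; ring
  have c11 : (p1 (4 * n) ᵥ* (γ : M2)) 1 = n * (2 * γ 1 1) := by rw [vm1]; simp [P1]; ring
  have c20 : (p2 (4 * n) ᵥ* (γ : M2)) 0 = n * (2 * γ 0 0) := by rw [vm0]; simp [P2]; ring
  have c21 : (p2 (4 * n) ᵥ* (γ : M2)) 1 = n * (2 * γ 0 1) := by rw [vm1]; simp [P2]; ring
  have c30 : (p3 (4 * n) ᵥ* (γ : M2)) 0 = n * (2 * (γ 0 0 + γ 1 0)) := by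
    rw [vm0]; simp [P3]; ring
  have c31 : (p3 (4 * n) ᵥ* (γ : M2)) 1 = n * (2 * (γ 0 1 + γ 1 1)) := by
    rw [vm1]; simp [P3]; ring
  have c40 : (p4 (4 * n) ᵥ* (γ : M2)) 0 = n * γ 1 0 := by rw [vm0]; simp [P4]
  have c41 : (p4 (4 * n) ᵥ* (γ : M2)) 1 = n * γ 1 1 := by rw [vm1]; simp [P4]
  have par : ∀ x y u w : ℤ, x * u - y * w = 1 → Odd x ∨ Odd y := by
    intro x y u w h
    by_contra hc
    rw [not_or, Int.not_odd_iff_even, Int.not_odd_iff_even] at hc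
    have := (hc.1.mul_right u).sub (hc.2.mul_right w)
    rw [h] at this
    exact Int.not_even_one this
  have k1 := xs_half hn c10 c11 (par _ _ (-γ 0 1) (-γ 0 0) (by linear_combination hdet))
  have k2 := xs_half hn c20 c21 (par _ _ _ _ hdet)
  have k3 := xs_half hn c30 c31 (par _ _ (γ 1 1) (γ 1 0) (by linear_combination hdet))
  have k4 := xs_zero (N := 4 * n) (p4 (4 * n) ᵥ* (γ : M2))
  rw [c40, c41] at k4
  simp only [A.eo, red, c10, c20, c30, c40] at gA gG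
  have n1 := @xs_neg (4 * n) (p1 (4 * n) ᵥ* (γ : M2))
  have n2 := @xs_neg (4 * n) (p2 (4 * n) ᵥ* (γ : M2))
  have n3 := @xs_neg (4 * n) (p3 (4 * n) ᵥ* (γ : M2))
  have n4 := @xs_neg (4 * n) (p4 (4 * n) ᵥ* (γ : M2))
  generalize Xs (4 * n) (p1 (4 * n) ᵥ* (γ : M2)) = x1 at *
  generalize Xs (4 * n) (p2 (4 * n) ᵥ* (γ : M2)) = x2 at *
  generalize Xs (4 * n) (p3 (4 * n) ᵥ* (γ : M2)) = x3 at *
  generalize Xs (4 * n) (p4 (4 * n) ᵥ* (γ : M2)) = x4 at *
  have rel : (x4 - x1) * (x4 - x1) = (x1 - x2) * (x1 - x3) := by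
    refine (xA.mul xA).unique hN0.ne' ?_
    have e : Af * Af = alf * bef := funext fun τ => by
      rw [Pi.mul_apply, Pi.mul_apply, ← h1.1 τ, pow_two]
    rw [← ModularForm.mul_slash_SL2, e, ModularForm.mul_slash_SL2]
    exact xal.mul xbe
  have xT : ExM (4 * n) ((x1 - x2 + (x1 - x3)) / (x4 - x1)) (act γ⁻¹ tM) := by
    rw [tM, ic_eq h1.2.2.hol, ic_eq h1.2.1.hol, act_div γ⁻¹ 2 _ _ A0]
    refine ExL.exM _ _ ?_ ?_ ?_
    · rwa [Ne, SlashAction.slash_eq_zero_iff]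
    · rw [inv_inv, Bf, SlashAction.add_slash]
      exact xal.add xbe
    · rwa [inv_inv]
  have even : ∀ e : ℤ, (e = 1 ∨ e = -1) → Even (γ 1 0) → x4.coeff 0 = -(1 + e) / 4 →
      ∃ s, Good (4 * n) (4 * n : ℕ) s ∧ ExM (4 * n) (2 * e + s) (act γ⁻¹ tM) := by
    intro e he hc k5
    have ha : Odd (γ 0 0) := (par _ (γ 1 0) (γ 1 1) (γ 0 1)
      (by linear_combination hdet)).resolve_right (Int.not_odd_iff_even.2 hc)
    rw [if_pos hc] at k1
    rw [if_neg (Int.not_even_iff_odd.2 ha)] at k2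
    rw [if_neg (Int.not_even_iff_odd.2 (ha.add_even hc))] at k3
    obtain ⟨c, hc'⟩ := hc
    obtain ⟨a, ha'⟩ := ha
    rw [ab_cast (m := 0) (x := n * (2 * γ 1 0)) hN0 (by omega)
      (Or.inl ⟨c, by rw [hc']; push_cast; ring⟩), Nat.min_zero, Nat.cast_zero] at gA
    rw [ab_cast (m := 2 * n) (x := n * (2 * γ 0 0)) hN0 (by omega)
      (Or.inl ⟨a, by rw [ha']; push_cast; ring⟩),
      ab_cast (m := 2 * n) (x := n * (2 * (γ 0 0 + γ 1 0))) hN0 (by omega)
      (Or.inl ⟨a + c, by rw [ha', hc']; push_cast; ring⟩), min_self] at gG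
    have ee : (e : LS) * e = 1 := by
      rw [← Int.cast_mul, show e * e = 1 by rcases he with rfl | rfl <;> rfl, Int.cast_one]
    have cc : ∀ j, (x1 - x2 + (x1 - x3) + (2 * e) • (x4 - x1)).coeff j = x1.coeff j - x2.coeff j +
        (x1.coeff j - x3.coeff j) + (2 * e) • (x4.coeff j - x1.coeff j) := fun j => by
      rw [HahnSeries.coeff_add, HahnSeries.coeff_add, HahnSeries.coeff_smul, HahnSeries.coeff_sub,
        HahnSeries.coeff_sub, HahnSeries.coeff_sub]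
    have c0 : (x1 - x2 + (x1 - x3) + (2 * e) • (x4 - x1)).coeff 0 = -1 := by
      rw [cc, k1, k2, k3, k5, zsmul_eq_mul]
      rcases he with rfl | rfl <;> norm_num
    have gB : Good (4 * n) 0 (x1 - x2 + (x1 - x3) + (2 * e) • (x4 - x1)) := by
      refine good_of (fun j => ?_) (fun j hj => ?_) (by rw [c0]; norm_num) ?_
      · rw [cc]
        exact add_mem (add_mem (sub_mem (i1 j) (i2 j)) (sub_mem (i1 j) (i3 j)))
          (zsmul_mem (sub_mem (i4 j) (i1 j)) _)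
      · rw [cc, n1 hj, n2 hj, n3 hj, n4 hj]; simp
      · rw [c0, inv_neg, inv_one]
        exact neg_mem (one_mem _)
    have g := good_mul (good_mul (good_mul gG gG) (good_inv gA)) (good_inv gB)
    have e1 : (((2 * n : ℕ) : ℤ) + (2 * n : ℕ) + -0 + -0) = (4 * n : ℕ) := by push_cast; ring
    rw [e1] at g
    refine ⟨_, g, ?_⟩
    have a0 := gA.ne
    have b0 := gB.ne
    rw [zsmul_eq_mul] at b0 ⊢
    push_cast at b0 ⊢
    convert xT using 1
    field_simp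
    linear_combination (4 * (x4 - x1) ^ 2) * ee + 4 * rel
  refine ⟨fun hc => ?_, fun hc => ?_, fun hc => ?_⟩
  · have hd : Odd (γ 1 1) := (par (γ 1 1) (γ 1 0) (γ 0 0) (γ 0 1)
      (by linear_combination hdet)).resolve_right (by rw [Int.odd_iff]; omega)
    rw [if_pos ((dvd_iff hn _).2 hc), ze_quarter hn hd] at k4
    have := even 1 (Or.inl rfl) (by rw [Int.even_iff]; omega) (by rw [k4]; norm_num)
    rwa [Int.cast_one, mul_one] at this
  · rw [if_neg (by rw [dvd_iff hn]; omega)] at k4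
    have := even (-1) (Or.inr rfl) (by rw [Int.even_iff]; omega) (by rw [k4]; norm_num)
    have e2 : (2 : LS) * ((-1 : ℤ) : LS) = -2 := by push_cast; ring
    rwa [e2] at this
  · rw [if_neg (Int.not_even_iff_odd.2 hc)] at k1
    have k5 : x2.coeff 0 + x3.coeff 0 = -1 / 4 := by
      rw [k2, k3]
      by_cases ha : Even (γ 0 0)
      · rw [if_pos ha, if_neg (Int.not_even_iff_odd.2 (ha.add_odd hc)), add_zero]
      · rw [if_neg ha, if_pos ((Int.not_even_iff_odd.1 ha).add_odd hc), zero_add]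
    obtain ⟨c, hc'⟩ := hc
    rw [ab_cast (m := 2 * n) (x := n * (2 * γ 1 0)) hN0 (by omega)
      (Or.inl ⟨c, by rw [hc']; push_cast; ring⟩),
      ab_cast (m := n) (x := n * γ 1 0) hN0 (by omega) (by
        rcases Int.even_or_odd' c with ⟨m, hm | hm⟩
        · exact Or.inl ⟨m, by rw [hc', hm]; push_cast; ring⟩
        · exact Or.inr ⟨m + 1, by rw [hc', hm]; push_cast; ring⟩),
      min_eq_left (by omega)] at gA
    have cc : ∀ j, (x1 - x2 + (x1 - x3)).coeff j = x1.coeff j - x2.coeff j +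
        (x1.coeff j - x3.coeff j) := fun j => by
      rw [HahnSeries.coeff_add, HahnSeries.coeff_sub, HahnSeries.coeff_sub]
    have c0 : (x1 - x2 + (x1 - x3)).coeff 0 = 4⁻¹ := by
      rw [cc, k1]
      linear_combination -k5
    have gB : Good (4 * n) 0 (x1 - x2 + (x1 - x3)) := by
      refine good_of (fun j => ?_) (fun j hj => ?_) (by rw [c0]; norm_num) ?_
      · rw [cc]
        exact add_mem (sub_mem (i1 j) (i2 j)) (sub_mem (i1 j) (i3 j))
      · rw [cc, n1 hj, n2 hj, n3 hj]; simp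
      · rw [c0, inv_inv]
        exact natCast_mem (ZN (4 * n)) 4
    have g := good_mul gB (good_inv gA)
    rw [zero_add, ← div_eq_mul_inv] at g
    rw [quarter]
    exact ⟨_, g, xT⟩

end Vale.Agent.P027M.M
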