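import Vale.Agent.P027M.M.A2
import Vale.Agent.P022.H29.L3.Onto

/-!
# P027 block M, row B5: the derivative of the Hauptmodul has no zero
-/

set_option autoImplicit false

open UpperHalfPlane Matrix Filter Function.Periodic ModularForm
open scoped MatrixGroups Manifold ModularForm Topology Derivative

noncomputable section

namespace Vale.Agent.P027M.M

open Vale.Agent.P022 Vale.Agent.P022.H218.L3 Vale.Agent.P022.H236 Vale.Agent.P022.H236.L3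
  Vale.Agent.P022.H29.L3

namespace B5

/-- `q ^ (-k)` -/
def Ek (k : ℤ) : ℍ → ℂ := fun τ => qParam (4 : ℕ) τ ^ (-k)

theorem Ek_ne (k : ℤ) (τ : ℍ) : Ek k τ ≠ 0 := zpow_ne_zero _ (qne _ _)

theorem Ek_der (k : ℤ) (τ : ℍ) :
    HasDerivAt (Ek k ∘ ofComplex) (2 * Real.pi * Complex.I * (-k / 4 * Ek k τ)) τ := by
  have e : ∀ z : ℂ, qParam (4 : ℕ) z ^ (-k) = Complex.exp (2 * Real.pi * Complex.I * (-k / 4) * z) :=
    fun z => by
      rw [qParam, ← Complex.exp_int_mul]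
      congr 1
      push_cast
      ring
  have h := ((hasDerivAt_id (τ : ℂ)).const_mul (2 * Real.pi * Complex.I * (-k / 4))).cexp
  refine (h.congr_of_eventuallyEq ?_).congr_deriv (by rw [Ek, e]; simp only [id]; ring)
  filter_upwards [isOpen_upperHalfPlaneSet.mem_nhds τ.im_pos] with z hz
  rw [Function.comp_apply, ofComplex_apply_of_im_pos hz, Ek, e]
  rfl

theorem Ek_mem (k : ℤ) : Ek k ∈ Hol := fun τ =>
  UpperHalfPlane.mdifferentiableAt_iff.2 (Ek_der k τ).differentiableAt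

theorem D_Ek (k : ℤ) (τ : ℍ) : D (Ek k) τ = -k / 4 * Ek k τ := by
  unfold Derivative.normalizedDerivOfComplex
  rw [(Ek_der k τ).deriv, inv_mul_cancel_left₀ Complex.two_pi_I_ne_zero]

theorem wr_ord {u a : ℍ → ℂ} (k : ℤ) (hu : u ∈ Hol) (ha : a ∈ Hol)
    (bu : IsBoundedAtImInfty (u * Ek k)) (ba : IsBoundedAtImInfty a) :
    IsBoundedAtImInfty (wr u a * Ek k) := by
  have e : wr u a * Ek k = wr (u * Ek k) a + (-k / 4 : ℂ) • (a * (u * Ek k)) := by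
    funext τ
    simp only [wr, Derivative.normalizedDerivOfComplex_mul u _ hu (Ek_mem k), Pi.add_apply,
      Pi.mul_apply, Pi.sub_apply, Pi.smul_apply, smul_eq_mul, D_Ek]
    ring
  rw [e]
  exact (wr_bdd (Hol.mul_mem hu (Ek_mem k)) ha bu ba).add ((ba.mul bu).smul _)

/-- exact order `k` at the cusp -/
def Lim (k : ℕ) (f : ℍ → ℂ) : Prop := ∃ c : ℂ, c ≠ 0 ∧ Tendsto (f * Ek k) atImInfty (𝓝 c)

theorem lim_of {k : ℕ} {s : H542.L3.LS} {f : ℍ → ℂ} (hs : Good 4 k s) (h : ExL 4 s f) : Lim k f := by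
  have h1 := h.rep
  rw [hs.ord] at h1
  refine ⟨_, rep_const hs.ne, ?_⟩
  obtain ⟨τ, hτ⟩ := h1.exists
  obtain ⟨p, e⟩ := hasFPS hτ (qne _ _)
  have t := (tendsto_q (N := 4) (by norm_num)).mono_right nhdsWithin_le_nhds
  have h2 := p.continuousAt.tendsto.comp t
  rw [← (show Ev _ 0 (PowerSeries.constantCoeff s.powerSeriesPart) by
    simpa only [Ev, pow_zero, mul_one, PowerSeries.coeff_zero_eq_constantCoeff] using
      hasSum_single (f := fun n => PowerSeries.coeff n s.powerSeriesPart * (0 : ℂ) ^ n)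
        0 fun n hn => by simp [hn]).unique e.self_of_nhds] at h2
  refine h2.congr' ?_
  filter_upwards [h1, t.eventually e] with τ a b
  exact b.unique a

theorem Lim.tend {k : ℕ} {f : ℍ → ℂ} (h : Lim k f) :
    ∃ c : ℂ, (k ≠ 0 → c = 0) ∧ Tendsto f atImInfty (𝓝 c) := by
  obtain ⟨c, -, h⟩ := h
  have t := (tendsto_q (N := 4) (by norm_num)).mono_right nhdsWithin_le_nhds
  refine ⟨c * 0 ^ k, fun hk => by simp [hk], (h.mul (t.pow k)).congr fun τ => ?_⟩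
  have := qne 4 τ
  simp only [Pi.mul_apply, Ek, _root_.zpow_neg, zpow_natCast]
  field_simp

theorem Lim.zero {f : ℍ → ℂ} (h : Lim 0 f) : ∃ c : ℂ, c ≠ 0 ∧ Tendsto f atImInfty (𝓝 c) :=
  h.imp fun c h => ⟨h.1, h.2.congr fun τ => by simp [Ek]⟩

theorem bdd_of {f : ℍ → ℂ} {c : ℂ} (h : Tendsto f atImInfty (𝓝 c)) : IsBoundedAtImInfty f :=
  h.isBigO_one ℝ

theorem lim (h3 : SA3) (h4 : SA4) {v w : Fin 2 → ℤ} (hv : NZ 4 v) (hw : NZ 4 w)
    (h1 : NZ 4 (v - w)) (h2 : NZ 4 (v + w)) (γ : SL(2, ℤ)) :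
    Lim (A.eo (red 4 (v ᵥ* (γ : M2))) (red 4 (w ᵥ* (γ : M2)))) (Wf 4 v w ∣[(2 : ℤ)] γ) := by
  rw [Wf_slash]
  exact lim_of ((h4 4 four_pos).2 _ _ (hv.vecMul γ) (hw.vecMul γ)
    (by rw [← sub_vecMul]; exact h1.vecMul γ) (by rw [← add_vecMul]; exact h2.vecMul γ))
    (h3 4 four_pos _ _ (hv.vecMul γ) (hw.vecMul γ)).2

theorem nz {v : Fin 2 → ℤ} (h : ¬ ((4 : ℤ) ∣ v 0 ∧ (4 : ℤ) ∣ v 1)) : NZ 4 v :=
  fun k => h ⟨k 0, k 1⟩

theorem ords (h3 : SA3) (h4 : SA4) (γ : SL(2, ℤ)) :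
    (Lim 1 (Af ∣[(2 : ℤ)] γ) ∧ Lim 0 (gaf ∣[(2 : ℤ)] γ)) ∨
      (γ 1 0 ≠ 1 ∧ Lim 0 (Af ∣[(2 : ℤ)] γ) ∧ Lim 2 (gaf ∣[(2 : ℤ)] γ)) := by
  have a := lim h3 h4 (v := p4 4) (w := p1 4) (nz (by decide)) (nz (by decide)) (nz (by decide))
    (nz (by decide)) γ
  have g := lim h3 h4 (v := p3 4) (w := p2 4) (nz (by decide)) (nz (by decide)) (nz (by decide))
    (nz (by decide)) γ
  have d := congrArg (Int.cast : ℤ → ZMod 4) (det_eq γ)
  have key : ∀ a b c d : ZMod 4, a * d - b * c = 1 →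
      (min (A.ab c) (A.ab (2 * c)) = 1 ∧ min (A.ab (2 * a + 2 * c)) (A.ab (2 * a)) = 0) ∨
      (c ≠ 1 ∧ min (A.ab c) (A.ab (2 * c)) = 0 ∧ min (A.ab (2 * a + 2 * c)) (A.ab (2 * a)) = 2) := by
    decide
  push_cast at d
  simp only [A.eo, red, vm0, p1, p2, p3, p4, cons_val_zero, cons_val_one, Nat.reduceDiv,
    Nat.cast_ofNat, Nat.cast_one, zero_mul, one_mul, zero_add, add_zero, Int.cast_mul,
    Int.cast_add, Int.cast_ofNat] at a g
  rcases key _ _ _ _ d with ⟨e1, e2⟩ | ⟨e0, e1, e2⟩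
  · rw [e1] at a
    rw [e2] at g
    exact .inl ⟨a, g⟩
  · rw [e1] at a
    rw [e2] at g
    exact .inr ⟨fun e => e0 (by rw [e, Int.cast_one]), a, g⟩

theorem tendB (h3 : SA3) (h4 : SA4) (γ : SL(2, ℤ)) :
    ∃ c, Tendsto (Bf ∣[(2 : ℤ)] γ) atImInfty (𝓝 c) := by
  obtain ⟨c, -, a⟩ := (lim h3 h4 (v := p1 4) (w := p2 4) (nz (by decide)) (nz (by decide))
    (nz (by decide)) (nz (by decide)) γ).tend
  obtain ⟨c', -, b⟩ := (lim h3 h4 (v := p1 4) (w := p3 4) (nz (by decide)) (nz (by decide))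
    (nz (by decide)) (nz (by decide)) γ).tend
  rw [Bf, SlashAction.add_slash]
  exact ⟨_, a.add b⟩

theorem rel (h : SB1) (γ : SL(2, ℤ)) (τ : ℍ) : (gaf ∣[(2 : ℤ)] γ) τ ^ 2 =
    (Bf ∣[(2 : ℤ)] γ) τ ^ 2 - 4 * (Af ∣[(2 : ℤ)] γ) τ ^ 2 := by
  have := h.1 (γ • τ)
  simp only [SL_slash_apply, mul_pow, this]
  simp only [Bf, alf, bef, gaf, Wf, Pi.add_apply]
  ring

theorem bdd (h3 : SA3) (h4 : SA4) (h : SB1) (γ : SL(2, ℤ)) :
    IsBoundedAtImInfty fun τ => wr (Bf ∣[(2 : ℤ)] γ) (Af ∣[(2 : ℤ)] γ) τ /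
      ((Af ∣[(2 : ℤ)] γ) τ * (gaf ∣[(2 : ℤ)] γ) τ ^ 2) := by
  have r := rel h γ
  have ha := slash_mem h.2.1.hol 2 γ
  have hb := slash_mem h.2.2.hol 2 γ
  obtain ⟨b0, tb⟩ := tendB h3 h4 γ
  rcases ords h3 h4 γ with ⟨⟨a0, n1, ta⟩, tg⟩ | ⟨-, ta, tg⟩
  · obtain ⟨g0, n2, tg⟩ := tg.zero
    have := (wr_ord _ ha hb (bdd_of ta) (bdd_of tb)).neg.mul
      (bdd_of ((ta.mul (tg.pow 2)).inv₀ (mul_ne_zero n1 (pow_ne_zero _ n2))))
    refine Asymptotics.IsBigO.congr_left this fun τ => Eq.symm ?_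
    have := Ek_ne (1 : ℕ) τ
    have e := wr_apply (Bf ∣[(2 : ℤ)] γ) (Af ∣[(2 : ℤ)] γ) τ
    simp only [wr_apply (Af ∣[(2 : ℤ)] γ), Pi.mul_apply, Pi.neg_apply, div_eq_mul_inv, mul_inv]
    linear_combination (-(wr (Bf ∣[(2 : ℤ)] γ) (Af ∣[(2 : ℤ)] γ) τ * ((Af ∣[(2 : ℤ)] γ) τ)⁻¹ *
      ((gaf ∣[(2 : ℤ)] γ) τ ^ 2)⁻¹)) * mul_inv_cancel₀ this + (((Af ∣[(2 : ℤ)] γ) τ)⁻¹ *
      ((gaf ∣[(2 : ℤ)] γ) τ ^ 2)⁻¹ * Ek (1 : ℕ) τ * (Ek (1 : ℕ) τ)⁻¹) * e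
  obtain ⟨a0, n1, ta⟩ := ta.zero
  obtain ⟨g1, e1, tg1⟩ := tg.tend
  obtain ⟨g0, n2, tg⟩ := tg
  generalize Af ∣[(2 : ℤ)] γ = a at *
  generalize Bf ∣[(2 : ℤ)] γ = b at *
  generalize gaf ∣[(2 : ℤ)] γ = g at *
  have e2 := tendsto_nhds_unique ((tg1.pow 2).congr r) ((tb.pow 2).sub ((ta.pow 2).const_mul 4))
  obtain ⟨s, s1, s2⟩ : ∃ s : ℂ, s ^ 2 = 4 ∧ b0 = s * a0 := by
    refine ⟨b0 / a0, ?_, by field_simp⟩
    rw [e1 two_ne_zero] at e2
    field_simp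
    linear_combination -e2
  have n3 : b0 + s * a0 ≠ 0 := by
    rw [s2, ← two_mul]
    exact mul_ne_zero two_ne_zero (mul_ne_zero (fun e => by simp [e] at s1) n1)
  have tv := tb.add (ta.const_mul s)
  have E4 : ∀ τ, Ek 4 τ = Ek (2 : ℕ) τ ^ 2 := fun τ => by
    rw [Ek, Ek, ← zpow_natCast, ← _root_.zpow_mul]
    norm_num
  have tu : Tendsto ((b - s • a) * Ek 4) atImInfty (𝓝 (g0 ^ 2 / (b0 + s * a0))) := by
    refine ((tg.pow 2).div tv n3).congr' ?_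
    filter_upwards [tv.eventually_ne n3] with τ hτ
    simp only [Pi.div_apply, Pi.mul_apply, Pi.sub_apply, Pi.smul_apply, smul_eq_mul, E4]
    rw [div_eq_iff hτ, mul_pow, r]
    linear_combination (a τ ^ 2 * Ek (2 : ℕ) τ ^ 2) * s1
  have := (wr_ord _ (Hol.sub_mem hb (Hol.smul_mem ha s)) ha (bdd_of tu) (bdd_of ta)).mul
    (bdd_of ((ta.mul (tg.pow 2)).inv₀ (mul_ne_zero n1 (pow_ne_zero _ n2))))
  refine Asymptotics.IsBigO.congr_left this fun τ => Eq.symm ?_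
  have := pow_ne_zero 2 (Ek_ne (2 : ℕ) τ)
  simp only [wr_apply, Pi.mul_apply, Pi.sub_apply, Pi.smul_apply, smul_eq_mul, div_eq_mul_inv,
    mul_inv, mul_pow, E4, Derivative.normalizedDerivOfComplex_sub b _ hb (Hol.smul_mem ha s),
    Derivative.normalizedDerivOfComplex_smul s a ha]
  linear_combination (-((b τ * D a τ - a τ * D b τ) * (a τ)⁻¹ * (g τ ^ 2)⁻¹)) * mul_inv_cancel₀ this

end B5

open B5

theorem rb5 : RB5 := by
  intro h3 h4 h τ₀ h0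
  have hA := h.2.1
  have hB := h.2.2
  have nA : ∀ τ, Af τ ≠ 0 :=
    Wf_ne four_pos (nz (by decide)) (nz (by decide)) (nz (by decide)) (nz (by decide))
  have nG : ∀ τ, gaf τ ≠ 0 :=
    Wf_ne four_pos (nz (by decide)) (nz (by decide)) (nz (by decide)) (nz (by decide))
  have hG : gaf ∈ Hol := (h3 4 four_pos _ _ (nz (by decide)) (nz (by decide))).1.1
  have sl : ∀ γ : SL(2, ℤ), (fun τ => wr Bf Af τ / (Af τ * gaf τ ^ 2)) ∣[(0 : ℤ)] γ = fun τ =>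
      wr (Bf ∣[(2 : ℤ)] γ) (Af ∣[(2 : ℤ)] γ) τ /
        ((Af ∣[(2 : ℤ)] γ) τ * (gaf ∣[(2 : ℤ)] γ) τ ^ 2) := fun γ => by
    funext τ
    have := denom_ne_zero (γ : GL (Fin 2) ℝ) τ
    have := nA (γ • τ)
    have := nG (γ • τ)
    rw [← wr_slash hB.hol hA.hol]
    simp only [SL_slash_apply]
    norm_num [_root_.zpow_neg, zpow_ofNat]
    field_simp
  have hF : IsMF G0 0 fun τ => wr Bf Af τ / (Af τ * gaf τ ^ 2) := by
    refine ⟨(mem_Hol.1 (wr_mem hB.hol hA.hol)).div (mem_Hol.1 (Hol.mul_mem hA.hol (Hol.pow_mem hG 2)))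
      fun τ => mul_ne_zero (nA τ) (pow_ne_zero _ (nG τ)), fun γ hγ => ?_, fun γ => ?_⟩
    · have r := rel h 1
      simp only [SlashAction.slash_one] at r
      rw [sl]
      simp only [rel h γ, r, hA.slash γ hγ, hB.slash γ hγ]
    · rw [sl]
      exact bdd h3 h4 h γ
  have dd : ∀ τ : ℍ, HasDerivAt (tf ∘ ofComplex)
      (-(2 * Real.pi * Complex.I) * wr Bf Af τ / Af τ ^ 2) τ := fun τ => by
    have a := (UpperHalfPlane.mdifferentiableAt_iff.1 (hA.hol τ)).hasDerivAt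
    have b := (UpperHalfPlane.mdifferentiableAt_iff.1 (hB.hol τ)).hasDerivAt
    refine (b.div a (by simpa using nA τ)).congr_deriv ?_
    have := Complex.two_pi_I_ne_zero
    simp only [wr_apply, Derivative.normalizedDerivOfComplex, Function.comp_apply, ofComplex_apply]
    field_simp
    ring
  obtain ⟨c, hc⟩ := const_of_isMF_zero hF
  have w0 : ∀ τ, wr Bf Af τ = 0 := fun τ => by
    have e1 := congrFun hc τ₀
    have e2 := congrFun hc τ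
    rw [(dd τ₀).deriv, div_eq_zero_iff, mul_eq_zero] at h0
    rw [(h0.resolve_right (pow_ne_zero _ (nA τ₀))).resolve_left
      (neg_ne_zero.2 Complex.two_pi_I_ne_zero), zero_div] at e1
    rw [← e1, div_eq_zero_iff] at e2
    exact e2.resolve_right (mul_ne_zero (nA τ) (pow_ne_zero _ (nG τ)))
  have ct : ∀ τ : ℍ, tf τ = tf τ₀ := fun τ => by
    simpa using isOpen_upperHalfPlaneSet.is_const_of_deriv_eq_zero (f := tf ∘ ofComplex)
      (convex_halfSpace_im_gt 0).isPreconnected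
      (fun z hz => (dd ⟨z, hz⟩).differentiableAt.differentiableWithinAt)
      (fun z hz => by simpa [w0] using (dd ⟨z, hz⟩).deriv) τ.im_pos τ₀.im_pos
  rcases ords h3 h4 ModularGroup.S with ⟨ta, tg⟩ | ⟨e, -⟩
  · obtain ⟨a0, e0, ta⟩ := ta.tend
    obtain ⟨g0, n0, tg⟩ := tg.zero
    have := tendsto_nhds_unique ((tg.pow 2).congr fun τ => ?_)
      ((ta.pow 2).const_mul (tf τ₀ ^ 2 - 4))
    · rw [e0 one_ne_zero] at this
      exact n0 (by simpa using this)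
    · rw [rel h, ← ct (ModularGroup.S • τ)]
      have := nA (ModularGroup.S • τ)
      simp only [SL_slash_apply, tf]
      field_simp
  · exact e (by simp [ModularGroup.S])

end Vale.Agent.P027M.M
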