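import Vale.Agent.P027M.M.A2
import Vale.Agent.P022.H218.L3.Base

/-! # P027 block M, row C1: the division values generate the field of level `±Γ(N)` -/

set_option linter.all false

open UpperHalfPlane Matrix
open scoped MatrixGroups Manifold IntermediateField ModularForm

noncomputable section

namespace Vale.Agent.P027M.M

open Vale.Agent.P022 Vale.Agent.P022.H218.L3 Vale.Agent.P022.H231.L3 Vale.Agent.P022.H236.L3
  Vale.Agent.P022.H542.L3 Vale.Agent.P027H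

namespace C1

theorem half {N : ℕ} (h : Lv N) : ∃ n : ℕ, 0 < n ∧ N = 4 * n ∧ ((N / 2 : ℕ) : ℤ) = 2 * n := by
  obtain ⟨n, rfl⟩ := h.four
  exact ⟨n, by have := h.pos; omega, rfl, by omega⟩

theorem nz_half {N : ℕ} (h : Lv N) : ¬ (N : ℤ) ∣ ((N / 2 : ℕ) : ℤ) := fun e => by
  obtain ⟨n, n0, rfl, e2⟩ := half h
  have := Int.le_of_dvd (by omega) e
  omega

theorem nz_one {N : ℕ} (h : Lv N) : ¬ (N : ℤ) ∣ 1 := fun e => by
  obtain ⟨n, n0, rfl, e2⟩ := half h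
  have := Int.le_of_dvd one_pos e
  omega

theorem nz1 {N : ℕ} (h : Lv N) : NZ N (p1 N) := fun e => nz_half h (e 1)

theorem nz2 {N : ℕ} (h : Lv N) : NZ N (p2 N) := fun e => nz_half h (e 0)

theorem nz3 {N : ℕ} (h : Lv N) : NZ N (p3 N) := fun e => nz_half h (e 0)

theorem mem_G0 {γ : SL(2, ℤ)} : γ ∈ G0 ↔ (4 : ℤ) ∣ γ 1 0 := by
  rw [CongruenceSubgroup.Gamma0_mem, ZMod.intCast_zmod_eq_zero_iff_dvd]
  rfl

theorem Gt_le {N : ℕ} (h : Lv N) : Gt N ≤ G0 := fun γ hγ =>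
  mem_G0.2 ((show (4 : ℤ) ∣ N by exact_mod_cast h.four).trans hγ.1)

theorem finG {N : ℕ} (h : Lv N) : (Gt N).FiniteIndex :=
  haveI : NeZero N := ⟨h.pos.ne'⟩
  Subgroup.finiteIndex_of_le (Gamma_le N N dvd_rfl)

theorem xv_p1 {N : ℕ} (h : Lv N) {γ : SL(2, ℤ)} (hγ : γ ∈ G0) :
    xv N (p1 N ᵥ* (γ : M2)) = xv N (p1 N) := by
  obtain ⟨c, hc⟩ := mem_G0.1 hγ
  have hd := det_eq γ
  obtain ⟨d, hd'⟩ : Odd (γ 1 1) := by
    refine Int.Odd.of_mul_right (m := γ 0 0) ⟨2 * γ 0 1 * c, ?_⟩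
    linear_combination hd + γ 0 1 * hc
  obtain ⟨n, n0, e1, e2⟩ := half h
  refine xv_congr h.pos (not_not.2 (Fin.forall_fin_two.2 ⟨⟨2 * c, ?_⟩, ⟨d, ?_⟩⟩))
  · rw [Pi.sub_apply, vm0]
    show 0 * _ + ((N / 2 : ℕ) : ℤ) * _ - 0 = _
    rw [e2, hc, e1]
    push_cast
    ring
  · rw [Pi.sub_apply, vm1]
    show 0 * _ + ((N / 2 : ℕ) : ℤ) * _ - ((N / 2 : ℕ) : ℤ) = _
    rw [e2, hd', e1]
    push_cast
    ring

theorem xv_Gt {N : ℕ} (h : Lv N) {γ : SL(2, ℤ)} (hγ : γ ∈ Gt N) (v : Fin 2 → ℤ) :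
    xv N (v ᵥ* (γ : M2)) = xv N v := by
  obtain ⟨ε, he, ⟨b, hb⟩, ⟨c, hc⟩, ⟨a, ha⟩, ⟨d, hd⟩⟩ := mem_Gp'.1 hγ
  rcases mul_self_eq_one_iff.1 he with rfl | rfl
  · refine xv_congr h.pos (not_not.2 (Fin.forall_fin_two.2
      ⟨⟨v 0 * a + v 1 * c, ?_⟩, ⟨v 0 * b + v 1 * d, ?_⟩⟩))
    · rw [Pi.sub_apply, vm0]
      linear_combination v 0 * ha + v 1 * hc
    · rw [Pi.sub_apply, vm1]
      linear_combination v 0 * hb + v 1 * hd
  · refine xv_congr' h.pos (not_not.2 (Fin.forall_fin_two.2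
      ⟨⟨v 0 * a + v 1 * c, ?_⟩, ⟨v 0 * b + v 1 * d, ?_⟩⟩))
    · rw [Pi.add_apply, vm0]
      linear_combination v 0 * ha + v 1 * hc
    · rw [Pi.add_apply, vm1]
      linear_combination v 0 * hb + v 1 * hd

theorem Af_ne (τ : ℍ) : Af τ ≠ 0 :=
  Wf_ne (by norm_num) (fun e => absurd (e 1) (by decide)) (fun e => absurd (e 1) (by decide))
    (fun e => absurd (e 1) (by decide)) (fun e => absurd (e 1) (by decide)) τ

theorem Af_ne' : Af ≠ 0 := fun e => Af_ne UpperHalfPlane.I (congrFun e _)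

theorem rM_eq (h3 : SA3) (h1 : SB1) {N : ℕ} (h : Lv N) {v : Fin 2 → ℤ} (hv : NZ N v) :
    rM N v = inc _ (h3 N h.pos v _ hv (nz1 h)).1.1 / inc Af h1.2.1.hol := by
  rw [rM, ic_eq, ic_eq]

/-- the transformation law -/
theorem law (h3 : SA3) (h1 : SB1) {N : ℕ} (h : Lv N) {v : Fin 2 → ℤ} (hv : NZ N v)
    {γ : SL(2, ℤ)} (hγ : γ ∈ G0) : act γ⁻¹ (rM N v) = rM N (v ᵥ* (γ : M2)) := by
  rw [rM_eq h3 h1 h hv, rM_eq h3 h1 h (hv.vecMul γ), act_div γ⁻¹ 2 _ _ Af_ne']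
  congr 1
  · refine inc_congr _ ?_
    rw [inv_inv, Wf_slash]
    funext τ
    rw [Wf_apply, Wf_apply, xv_p1 h hγ]
  · exact inc_congr _ (by rw [inv_inv, h1.2.1.slash γ hγ])

theorem rM_mem (h3 : SA3) (h1 : SB1) {N : ℕ} (h : Lv N) {v : Fin 2 → ℤ} (hv : NZ N v) :
    rM N v ∈ MF (Gt N) := by
  refine ⟨2, _, _, (h3 N h.pos v _ hv (nz1 h)).1.isMF fun γ hγ => ?_, h1.2.1.mono (Gt_le h),
    Af_ne', rM_eq h3 h1 h hv⟩
  rw [Wf_slash]
  funext τ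
  rw [Wf_apply, Wf_apply, xv_Gt h hγ, xv_Gt h hγ]

theorem t_eq (h3 : SA3) (h1 : SB1) {N : ℕ} (h : Lv N) : tM = -rM N (p2 N) - rM N (p3 N) := by
  obtain ⟨n, n0, e1, e2⟩ := half h
  have e3 : ((4 : ℕ) : ℤ) * ((N / 2 : ℕ) : ℤ) = N * ((4 / 2 : ℕ) : ℤ) := by
    rw [e2, e1]
    push_cast
    ring
  have e4 : ((4 : ℕ) : ℤ) * 0 = N * 0 := by ring
  have x1 : xv N (p1 N) = xv 4 (p1 4) :=
    xv_level h.pos (by norm_num) (Fin.forall_fin_two.2 ⟨e4, e3⟩)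
  have x2 : xv N (p2 N) = xv 4 (p2 4) :=
    xv_level h.pos (by norm_num) (Fin.forall_fin_two.2 ⟨e3, e4⟩)
  have x3 : xv N (p3 N) = xv 4 (p3 4) :=
    xv_level h.pos (by norm_num) (Fin.forall_fin_two.2 ⟨e3, e3⟩)
  have b2 := (h3 N h.pos _ _ (nz2 h) (nz1 h)).1.1
  have b3 := (h3 N h.pos _ _ (nz3 h) (nz1 h)).1.1
  have e : inc Bf h1.2.2.hol + (inc _ b2 + inc _ b3) = 0 := by
    rw [← inc_add, ← inc_add, inc_eq_zero]
    funext τ
    simp only [Bf, alf, bef, Pi.add_apply, Wf_apply, x1, x2, x3, Pi.zero_apply]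
    ring
  rw [rM_eq h3 h1 h (nz2 h), rM_eq h3 h1 h (nz3 h), tM, ic_eq h1.2.2.hol, ic_eq h1.2.1.hol,
    eq_neg_of_add_eq_zero_left e]
  ring

theorem rM_inj (h3 : SA3) (h1 : SB1) {N : ℕ} (h : Lv N) {v w : Fin 2 → ℤ} (hv : NZ N v)
    (hw : NZ N w) (e : rM N v = rM N w) : ¬ NZ N (v - w) ∨ ¬ NZ N (v + w) := by
  rw [rM_eq h3 h1 h hv, rM_eq h3 h1 h hw,
    div_left_inj' fun z => Af_ne' ((inc_eq_zero _).1 z)] at e
  have e2 := congrFun (inc_injective _ _ e) UpperHalfPlane.I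
  by_contra hc
  rw [not_or, not_not, not_not] at hc
  refine Wf_ne h.pos hv hw hc.1 hc.2 UpperHalfPlane.I ?_
  rw [Wf_apply] at *
  rw [Wf_apply] at e2
  linear_combination e2

theorem stab (h3 : SA3) (h1 : SB1) {N : ℕ} (h : Lv N) {γ : SL(2, ℤ)} (hγ : γ ∈ G0)
    (hs : ∀ v, NZ N v → act γ (rM N v) = rM N v) : γ ∈ Gt N := by
  rw [← Subgroup.inv_mem_iff]
  have key : ∀ v, NZ N v → ¬ NZ N (v ᵥ* ((γ⁻¹ : SL(2, ℤ)) : M2) - v) ∨
      ¬ NZ N (v ᵥ* ((γ⁻¹ : SL(2, ℤ)) : M2) + v) := fun v hv =>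
    rM_inj h3 h1 h (hv.vecMul _) hv (by
      rw [← law h3 h1 h hv (G0.inv_mem hγ), inv_inv, hs v hv])
  generalize γ⁻¹ = δ at key
  have k1 := key ![1, 0] fun e => nz_one h (e 0)
  have k2 := key ![0, 1] fun e => nz_one h (e 1)
  simp only [NZ, not_not, Fin.forall_fin_two, Pi.sub_apply, Pi.add_apply, vm0, vm1, cons_val_zero,
    cons_val_one, one_mul, zero_mul, add_zero, zero_add, sub_zero] at k1 k2
  exact ⟨k2.elim And.left And.left, k1.elim And.right And.right, k2.imp And.right And.right⟩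

theorem normal (h3 : SA3) (h1 : SB1) {N : ℕ} (h : Lv N) :
    ∀ γ ∈ G0, ∀ δ ∈ Gt N, γ * δ * γ⁻¹ ∈ Gt N := fun γ hγ δ hδ =>
  stab h3 h1 h (G0.mul_mem (G0.mul_mem hγ (Gt_le h hδ)) (G0.inv_mem hγ)) fun v hv => by
    rw [map_mul, map_mul, AlgEquiv.mul_apply, AlgEquiv.mul_apply, law h3 h1 h hv hγ,
      act_eq_self (rM_mem h3 h1 h (hv.vecMul γ)) hδ, ← law h3 h1 h hv hγ, ← AlgEquiv.mul_apply,
      ← map_mul, mul_inv_cancel, map_one, AlgEquiv.one_apply]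

end C1

open C1

theorem rc1 : RC1 := by
  intro h3 h1 h2 N h
  haveI := finG h
  have t0 : tM ∈ MF G0 := by
    rw [h2]
    exact IntermediateField.mem_adjoin_simple_self ℂ tM
  refine le_antisymm (fun x hx => ?_) (IntermediateField.adjoin_le_iff.2 ?_)
  · have e := gen_top (normal h3 h1 h) ⟨tM, MF_mono (Gt_le h) t0⟩ h2
      {x | (x : Mer) = tM ∨ ∃ v, NZ N v ∧ (x : Mer) = rM N v} (Or.inl rfl) fun γ hγ hs =>
        stab h3 h1 h hγ fun v hv => hs ⟨_, rM_mem h3 h1 h hv⟩ (Or.inr ⟨v, hv, rfl⟩)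
    have m : ∀ v, NZ N v → rM N v ∈ IntermediateField.adjoin ℂ (rM N '' {v | NZ N v}) :=
      fun v hv => IntermediateField.subset_adjoin _ _ ⟨v, hv, rfl⟩
    have le : (⊤ : IntermediateField ℂ (MF (Gt N))) ≤
        (IntermediateField.adjoin ℂ (rM N '' {v | NZ N v})).comap (MF (Gt N)).val := by
      rw [← e, IntermediateField.adjoin_le_iff]
      rintro y (hy | ⟨v, hv, hy⟩)
      · show (y : Mer) ∈ IntermediateField.adjoin ℂ (rM N '' {v | NZ N v})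
        rw [hy, t_eq h3 h1 h]
        exact sub_mem (neg_mem (m _ (nz2 h))) (m _ (nz3 h))
      · show (y : Mer) ∈ IntermediateField.adjoin ℂ (rM N '' {v | NZ N v})
        rw [hy]
        exact m v hv
    exact le (x := ⟨x, hx⟩) IntermediateField.mem_top
  · rintro _ ⟨v, hv, rfl⟩
    exact rM_mem h3 h1 h hv

end Vale.Agent.P027M.M
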