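import Vale.Agent.P027M.M.Pre1
import Vale.Agent.P027M.M.A4
import Vale.Agent.P027M.M.B1
import Vale.Agent.P027M.M.B2
import Vale.Agent.P027M.M.B3
import Vale.Agent.P027M.M.B4
import Vale.Agent.P027M.M.B5
import Vale.Agent.P027M.M.C1

/-! # P027 block M: the analytic half of the model exists -/

namespace Vale.Agent.P027M.M

theorem prem : Nonempty PreM := preM_rows sa4 rb1 rb2 rb3 rb4 rb5 rc1

end Vale.Agent.P027M.M
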