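import Vale.Agent.P027M.M.CDefs

/-! # P027, block M, part C: assembly of the model -/

set_option autoImplicit false

open UpperHalfPlane Matrix
open scoped MatrixGroups Manifold IntermediateField

noncomputable section

namespace Vale.Agent.P027M.M

open Vale.Agent.P022 Vale.Agent.P022.H218.L3 Vale.Agent.P022.H231.L3 Vale.Agent.P022.H236.L3
  Vale.Agent.P022.H542.L3

theorem gamma_le_Gt (N : ℕ) : CongruenceSubgroup.Gamma N ≤ Gt N := by
  intro γ h
  rw [CongruenceSubgroup.Gamma_mem] at h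
  obtain ⟨-, h1, h2, h3⟩ := h
  refine mem_Gp.2 ⟨(ZMod.intCast_zmod_eq_zero_iff_dvd _ _).1 h2,
    (ZMod.intCast_zmod_eq_zero_iff_dvd _ _).1 h1, Or.inl ?_⟩
  refine (ZMod.intCast_zmod_eq_zero_iff_dvd _ _).1 ?_
  push_cast
  rw [h3, sub_self]

theorem gamma_le_G0 : CongruenceSubgroup.Gamma 4 ≤ G0 := by
  intro γ h
  rw [CongruenceSubgroup.Gamma_mem] at h
  exact CongruenceSubgroup.Gamma0_mem.2 h.2.2.1

theorem PreM.gen (P : PreM) (hG : SGenL) (N : ℕ) (hN : Lv N) :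
    L (Gt N) = IntermediateField.adjoin Qb (P.r N '' {v | NZ N v}) :=
  hG _ N hN.pos (gamma_le_Gt N) _ (by rw [P.genC N hN, Set.image_image])

theorem PreM.base (P : PreM) (hG : SGenL) : L G0 = Qb⟮P.t⟯ :=
  hG _ 4 (by norm_num) gamma_le_G0 {P.t} (by rw [P.baseC, Set.image_singleton])

theorem mdl_of (P : PreM) (hG : SGenL) (hP : SPb) (hg : SGal) :
    ∃ X : Mdl, X.t = P.t ∧ X.r = P.r := by
  obtain ⟨pb, hpb⟩ := hP
  obtain ⟨gal, hgal⟩ := hg
  exact ⟨⟨pb, hpb, gal, hgal, P.t, P.r, P.base hG, P.gen hG, P.baseC, P.genC, P.law, P.rex, P.t_eq,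
    P.tex0, P.tex2, P.tex1, P.hol⟩, rfl, rfl⟩

end Vale.Agent.P027M.M
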