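import Vale.Agent.P027M.M.CDefs

/-! # P027, block M, part C: descent for series (row SDesc) -/

set_option autoImplicit false
set_option linter.all false

noncomputable section

namespace Vale.Agent.P027M.M

open Vale.Agent.P022 Vale.Agent.P022.H236.L3 Vale.Agent.P022.H542.L3

namespace CDesc

theorem exists_lam {q : ℂ} (hq : q ≠ 0) :
    ∃ lam : ℂ →+ Qb, (∀ a z, lam (io a * z) = a * lam z) ∧ lam q = 1 := by
  letI : Algebra Qb ℂ := (io : Qb →+* ℂ).toAlgebra
  obtain ⟨f, hf⟩ := Module.Projective.exists_dual_eq_one Qb hq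
  exact ⟨f.toAddMonoidHom, fun a z => f.map_smul a z, hf⟩

/-- the coefficientwise projection -/
def Lam (lam : ℂ →+ Qb) (z : LS) : LS :=
  HahnSeries.map z ((io : Qb →+* ℂ).toAddMonoidHom.comp lam)

theorem coeff_Lam (lam : ℂ →+ Qb) (z : LS) (n : ℤ) :
    (Lam lam z).coeff n = io (lam (z.coeff n)) := rfl

theorem Lam_add (lam : ℂ →+ Qb) (x y : LS) : Lam lam (x + y) = Lam lam x + Lam lam y := by
  ext n
  rw [HahnSeries.coeff_add, coeff_Lam, coeff_Lam, coeff_Lam, HahnSeries.coeff_add, map_add, map_add]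

theorem Lam_zero (lam : ℂ →+ Qb) : Lam lam 0 = 0 := by
  ext n
  rw [coeff_Lam, HahnSeries.coeff_zero, map_zero, map_zero]

theorem Lam_C (lam : ℂ →+ Qb) (c : ℂ) :
    Lam lam (HahnSeries.C c) = HahnSeries.C (io (lam c)) := by
  ext n
  rw [coeff_Lam, HahnSeries.C_apply, HahnSeries.C_apply]
  by_cases h : n = 0
  · subst h
    rw [HahnSeries.coeff_single_same, HahnSeries.coeff_single_same]
  · rw [HahnSeries.coeff_single_of_ne h, HahnSeries.coeff_single_of_ne h, map_zero, map_zero]

theorem Lam_mul {lam : ℂ →+ Qb} (hl : ∀ a z, lam (io a * z) = a * lam z) {a : LS} (ha : Alg a)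
    (z : LS) : Lam lam (a * z) = a * Lam lam z := by
  ext n
  have hs : (Lam lam z).support ⊆ z.support := by
    intro k hk h0
    apply hk
    rw [coeff_Lam, h0, map_zero, map_zero]
  rw [coeff_Lam, HahnSeries.coeff_mul, HahnSeries.coeff_mul_right' z.isPWO_support hs, map_sum,
    map_sum]
  refine Finset.sum_congr rfl fun ij _ => ?_
  obtain ⟨b, hb⟩ := ha ij.1
  rw [hb, hl, map_mul, coeff_Lam]

theorem adjoin_ind {K A : Type*} [CommRing K] [CommRing A] [Algebra K A] {R : Set A}
    {p : A → Prop} (mem : ∀ c, ∀ x ∈ Submonoid.closure R, p (algebraMap K A c * x)) (zero : p 0)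
    (add : ∀ x y, p x → p y → p (x + y)) {x : A} (hx : x ∈ Algebra.adjoin K R) : p x := by
  have hx' : x ∈ Submodule.span K (Submonoid.closure R : Set A) := by
    rw [← Algebra.adjoin_eq_span]
    exact hx
  have key : ∀ c : K, p (algebraMap K A c * x) := by
    clear hx
    induction hx' using Submodule.span_induction with
    | mem y hy => exact fun c => mem c y hy
    | zero => exact fun c => by rwa [mul_zero]
    | add y z _ _ hy hz => exact fun c => by rw [mul_add]; exact add _ _ (hy c) (hz c)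
    | smul a y _ hy =>
      intro c
      rw [Algebra.smul_def, ← mul_assoc, ← map_mul]
      exact hy _
  simpa using key 1

theorem Lam_mem {lam : ℂ →+ Qb} (hl : ∀ a z, lam (io a * z) = a * lam z) {R : Set LS}
    (hR : ∀ s ∈ R, Alg s) {P : LS} (hP : P ∈ Algebra.adjoin ℂ R) :
    Lam lam P ∈ Subfield.closure (R ∪ Set.range fun a : Qb => (HahnSeries.C (io a) : LS)) := by
  set F := Subfield.closure (R ∪ Set.range fun a : Qb => (HahnSeries.C (io a) : LS))
  refine adjoin_ind (p := fun z => Lam lam z ∈ F) (fun c p hp => ?_) ?_ (fun x y hx hy => ?_) hP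
  · have h1 : Alg p ∧ p ∈ F := by
      induction hp using Submonoid.closure_induction with
      | mem x hx => exact ⟨hR x hx, Subfield.subset_closure (Or.inl hx)⟩
      | one => exact ⟨by simpa using alg_C 1, F.one_mem⟩
      | mul x y _ _ hx hy => exact ⟨hx.1.mul hy.1, F.mul_mem hx.2 hy.2⟩
    rw [algMap_ls, mul_comm, Lam_mul hl h1.1, Lam_C]
    exact F.mul_mem h1.2 (Subfield.subset_closure (Or.inr ⟨_, rfl⟩))
  · rw [Lam_zero]
    exact F.zero_mem
  · rw [Lam_add]
    exact F.add_mem hx hy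

end CDesc

open CDesc in
theorem sDesc : SDesc := by
  intro R hR s hs ha
  obtain ⟨P, hP, Q, hQ, e⟩ := IntermediateField.mem_adjoin_iff_div.1 hs
  by_cases h0 : Q = 0
  · rw [e, h0, div_zero]
    exact Subfield.zero_mem _
  obtain ⟨lam, hl, h1⟩ := exists_lam (HahnSeries.coeff_order_eq_zero.not.2 h0)
  have h2 : Lam lam Q ≠ 0 := by
    intro h
    have := congrArg (fun z : LS => z.coeff Q.order) h
    simp only [coeff_Lam, h1, map_one, HahnSeries.coeff_zero] at this
    exact one_ne_zero this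
  have h3 : s * Lam lam Q = Lam lam P := by
    rw [← Lam_mul hl ha, e, div_mul_cancel₀ _ h0]
  rw [eq_div_of_mul_eq h2 h3]
  exact Subfield.div_mem _ (Lam_mem hl hR hP) (Lam_mem hl hR hQ)

end Vale.Agent.P027M.M
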