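import Vale.Agent.P027M.M.CDefs

/-! # P027, block M, part C: generators over `ℂ` are generators over `Qb` -/

set_option autoImplicit false

open UpperHalfPlane Matrix
open scoped MatrixGroups Manifold IntermediateField

noncomputable section

namespace Vale.Agent.P027M.M

open Vale.Agent.P022 Vale.Agent.P022.H218.L3 Vale.Agent.P022.H231.L3 Vale.Agent.P022.H236.L3
  Vale.Agent.P022.H542.L3

namespace CGenL

/-- every expansion of an element of `FF` is algebraic -/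
theorem alg_of {N : ℕ} (hN : 0 < N) (y : FF) {s : LS} (h : ExM N s (cv y)) : Alg s := by
  obtain ⟨M, hM, -, s', h1, h2⟩ := mem_FS.1 (cv_mem y)
  have e1 := exM_period hM hN.ne' h
  have e2 := exM_period hN hM.ne' h1
  rw [mul_comm M N] at e2
  have e := e1.unique (Nat.mul_pos hN hM).ne' e2
  intro n
  rw [← coeff_sb_mul M hM s n, e]
  exact h2.sb N hN _

/-- a function is determined by its expansion -/
theorem eq_of {N : ℕ} (hN : 0 < N) {x y : Mer} {s : LS} (hx : ExM N s x) (hy : ExM N s y) :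
    x = y := by
  have : NeZero N := ⟨hN.ne'⟩
  have h1 : tex N ⟨x, mem_EF.2 ⟨s, hx⟩⟩ = s := tex_eq hx
  have h2 : tex N ⟨y, mem_EF.2 ⟨s, hy⟩⟩ = s := tex_eq hy
  exact congrArg Subtype.val ((tex N : EF N →+* LS).injective (h1.trans h2.symm))

/-- elements of `L Γ` are modular functions for `Γ` -/
theorem mem_MF {Γ : Subgroup SL(2, ℤ)} {x : FF} (h : x ∈ L Γ) : cv x ∈ MF Γ := by
  obtain ⟨M, hM, h1, -⟩ := mem_FS.1 (cv_mem x)
  have : NeZero M := ⟨hM.ne'⟩
  exact mem_MF_of_fixed Γ h1 (mem_L.1 h)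

theorem T_mem (N : ℕ) : ModularGroup.T ^ N ∈ CongruenceSubgroup.Gamma N := by
  have := CongruenceSubgroup.ModularGroup_T_pow_mem_Gamma (N : ℤ) (N : ℤ) dvd_rfl
  rwa [Int.natAbs_natCast, zpow_natCast] at this

theorem up {N : ℕ} (hN : 0 < N) {S : Set Mer} (hS : ∀ x ∈ S, ∃ s, ExM N s x) {x : Mer}
    (hx : x ∈ IntermediateField.adjoin ℂ S) :
    ∃ s ∈ IntermediateField.adjoin ℂ {s : LS | ∃ y ∈ S, ExM N s y}, ExM N s x := by
  induction hx using IntermediateField.adjoin_induction with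
  | mem x hx =>
    obtain ⟨s, hs⟩ := hS x hx
    exact ⟨s, IntermediateField.subset_adjoin _ _ ⟨x, hx, hs⟩, hs⟩
  | algebraMap c =>
    refine ⟨algebraMap ℂ LS c, IntermediateField.algebraMap_mem _ c, ?_⟩
    rw [algMap_ls]
    exact ExM.const N c
  | add x y _ _ hx hy =>
    obtain ⟨s, h1, h2⟩ := hx
    obtain ⟨t, h3, h4⟩ := hy
    exact ⟨s + t, add_mem h1 h3, h2.add h4⟩
  | inv x _ hx =>
    obtain ⟨s, h1, h2⟩ := hx
    exact ⟨s⁻¹, inv_mem h1, h2.inv hN.ne'⟩
  | mul x y _ _ hx hy =>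
    obtain ⟨s, h1, h2⟩ := hx
    obtain ⟨t, h3, h4⟩ := hy
    exact ⟨s * t, mul_mem h1 h3, h2.mul h4⟩

theorem exM_alg (N : ℕ) (a : Qb) : ExM N (HahnSeries.C (io a)) (cv (algebraMap Qb FF a)) := by
  rw [cv_alg]
  exact ExM.const N _

theorem down {N : ℕ} (hN : 0 < N) {S : Set FF} {R : Set LS}
    (hR : ∀ s ∈ R, ∃ y ∈ S, ExM N s (cv y)) {s : LS}
    (hs : s ∈ Subfield.closure (R ∪ Set.range fun a : Qb => (HahnSeries.C (io a) : LS))) :
    ∃ y ∈ IntermediateField.adjoin Qb S, ExM N s (cv y) := by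
  induction hs using Subfield.closure_induction with
  | mem s hs =>
    rcases hs with hs | ⟨a, rfl⟩
    · obtain ⟨y, h1, h2⟩ := hR s hs
      exact ⟨y, IntermediateField.subset_adjoin _ _ h1, h2⟩
    · exact ⟨_, IntermediateField.algebraMap_mem _ a, exM_alg N a⟩
  | one =>
    refine ⟨_, IntermediateField.algebraMap_mem _ 1, ?_⟩
    have := exM_alg N 1
    rwa [map_one io, map_one] at this
  | add s t _ _ hs ht =>
    obtain ⟨x, h1, h2⟩ := hs
    obtain ⟨y, h3, h4⟩ := ht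
    exact ⟨x + y, add_mem h1 h3, by rw [map_add]; exact h2.add h4⟩
  | neg s _ hs =>
    obtain ⟨x, h1, h2⟩ := hs
    refine ⟨-x, neg_mem h1, ?_⟩
    have := (ExM.const N (-1)).mul h2
    have e1 : (HahnSeries.C (-1 : ℂ) : LS) * s = -s := by
      rw [map_neg, map_one]
      ring
    have e2 : algebraMap ℂ Mer (-1) * cv x = cv (-x) := by
      rw [map_neg, map_one, map_neg]
      ring
    rwa [e1, e2] at this
  | inv s _ hs =>
    obtain ⟨x, h1, h2⟩ := hs
    exact ⟨x⁻¹, inv_mem h1, by rw [map_inv₀]; exact h2.inv hN.ne'⟩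
  | mul s t _ _ hs ht =>
    obtain ⟨x, h1, h2⟩ := hs
    obtain ⟨y, h3, h4⟩ := ht
    exact ⟨x * y, mul_mem h1 h3, by rw [map_mul]; exact h2.mul h4⟩

end CGenL

open CGenL in
/-- generators over `ℂ` are generators over `Qb` -/
theorem sGenL : SDesc → SGenL := by
  intro hD Γ N hN hle S hS
  have : NeZero N := ⟨hN.ne'⟩
  have hm : ∀ x ∈ (fun x => cv x) '' S, x ∈ MF Γ := fun x hx => by
    rw [hS]
    exact IntermediateField.subset_adjoin _ _ hx
  refine le_antisymm (fun x hx => ?_) (IntermediateField.adjoin_le_iff.2 fun y hy => ?_)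
  · have h1 := mem_MF hx
    rw [hS] at h1
    obtain ⟨s, h2, h3⟩ := up hN (fun x hx => mem_EF.1 (MF_le_EF (hle (T_mem N)) (hm x hx))) h1
    have h4 := hD _ (by
      rintro s ⟨_, ⟨y, -, rfl⟩, h⟩
      exact alg_of hN y h) s h2 (alg_of hN x h3)
    obtain ⟨y, h5, h6⟩ := down hN (S := S) (by
      rintro s ⟨_, ⟨y, hy, rfl⟩, h⟩
      exact ⟨y, hy, h⟩) h4
    rw [cv_inj (eq_of hN h3 h6)]
    exact h5
  · exact mem_L.2 fun γ hγ => act_eq_self (hm _ ⟨y, hy, rfl⟩) hγ

end Vale.Agent.P027M.M
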