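import Vale.Agent.P027M.M.CDefs

/-! # P027, block M, part C: pull-backs of modular functions, Hermite form -/

set_option autoImplicit false

open UpperHalfPlane Matrix ModularForm
open scoped MatrixGroups Manifold IntermediateField ModularForm

noncomputable section

namespace Vale.Agent.P027M.M

open Vale.Agent.P022 Vale.Agent.P022.H218.L3 Vale.Agent.P022.H231.L3 Vale.Agent.P022.H236.L3
  Vale.Agent.P022.H542.L3

namespace Pbm

theorem hermite (A : M2) (hA : 0 < A.det) :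
    ∃ (γ : SL(2, ℤ)) (a d : ℕ) (b : ℤ), 0 < a ∧ 0 < d ∧
      A = (γ : M2) * !![(a : ℤ), b; 0, (d : ℤ)] := by
  rw [Matrix.det_fin_two] at hA
  have hg : 0 < Int.gcd (A 0 0) (A 1 0) := by
    rw [Int.gcd_pos_iff]
    by_contra h
    push Not at h
    rw [h.1, h.2] at hA
    simp at hA
  obtain ⟨p, r, hc, hp, hr⟩ := Int.exists_gcd_one hg
  obtain ⟨x, y, hxy⟩ := Int.isCoprime_iff_gcd_eq_one.2 hc
  set g : ℕ := Int.gcd (A 0 0) (A 1 0) with hgd
  have hgz : (0 : ℤ) < g := by exact_mod_cast hg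
  have hd : 0 < p * A 1 1 - r * A 0 1 := by
    have e : A 0 0 * A 1 1 - A 0 1 * A 1 0 = g * (p * A 1 1 - r * A 0 1) := by
      rw [hp, hr]; ring
    rw [e] at hA
    exact (mul_pos_iff_of_pos_left hgz).1 hA
  refine ⟨⟨!![p, -y; r, x], ?_⟩, g, (p * A 1 1 - r * A 0 1).toNat, x * A 0 1 + y * A 1 1,
    hg, by omega, ?_⟩
  · rw [Matrix.det_fin_two_of]
    linear_combination hxy
  · rw [Int.toNat_of_nonneg hd.le]
    ext i j
    fin_cases i <;> fin_cases j <;> simp [Matrix.mul_apply, Fin.sum_univ_two]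
    · exact hp
    · linear_combination (-A 0 1) * hxy
    · exact hr
    · linear_combination (-A 1 1) * hxy

theorem conj (A : M2) (hA : 0 < A.det) (N : ℕ) (δ : SL(2, ℤ))
    (hδ : δ ∈ CongruenceSubgroup.Gamma (N * A.det.natAbs)) :
    ∃ δ' ∈ CongruenceSubgroup.Gamma N, A * (δ : M2) = (δ' : M2) * A := by
  rw [CongruenceSubgroup.Gamma_mem] at hδ
  obtain ⟨h1, h2, h3, h4⟩ := hδ
  have hD : ((N * A.det.natAbs : ℕ) : ℤ) = N * A.det := by
    push_cast
    rw [abs_of_pos hA]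
  have k1 : ((N * A.det.natAbs : ℕ) : ℤ) ∣ δ 0 0 - 1 := by
    rw [← ZMod.intCast_zmod_eq_zero_iff_dvd]
    push_cast
    rw [h1, sub_self]
  have k4 : ((N * A.det.natAbs : ℕ) : ℤ) ∣ δ 1 1 - 1 := by
    rw [← ZMod.intCast_zmod_eq_zero_iff_dvd]
    push_cast
    rw [h4, sub_self]
  have k2 := (ZMod.intCast_zmod_eq_zero_iff_dvd _ _).1 h2
  have k3 := (ZMod.intCast_zmod_eq_zero_iff_dvd _ _).1 h3
  rw [hD] at k1 k2 k3 k4
  obtain ⟨b1, e1⟩ := k1
  obtain ⟨b2, e2⟩ := k2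
  obtain ⟨b3, e3⟩ := k3
  obtain ⟨b4, e4⟩ := k4
  set B : M2 := !![b1, b2; b3, b4] with hB
  have hδB : (δ : M2) = 1 + ((N : ℤ) * A.det) • B := by
    ext i j
    fin_cases i <;> fin_cases j <;> simp [hB]
    · linear_combination e1
    · linear_combination e2
    · linear_combination e3
    · linear_combination e4
  set C : M2 := A * B * A.adjugate with hC
  have e : A * (δ : M2) = (1 + (N : ℤ) • C) * A := by
    rw [hδB, hC, mul_add, add_mul, mul_one, one_mul, Matrix.mul_smul, Matrix.smul_mul,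
      mul_assoc (A * B), Matrix.adjugate_mul, Matrix.mul_smul, mul_one, smul_smul]
  have hdet : (1 + (N : ℤ) • C).det = 1 := by
    have h := congrArg Matrix.det e
    rw [Matrix.det_mul, Matrix.det_mul, δ.det_coe, mul_one] at h
    exact mul_right_cancel₀ hA.ne' (by rw [one_mul]; exact h.symm)
  refine ⟨⟨1 + (N : ℤ) • C, hdet⟩, ?_, e⟩
  have hz : ∀ i j, (((1 + (N : ℤ) • C) i j : ℤ) : ZMod N) = (((1 : M2) i j : ℤ) : ZMod N) := by
    intro i j
    rw [Matrix.add_apply, Matrix.smul_apply, smul_eq_mul]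
    push_cast
    rw [ZMod.natCast_self, zero_mul, add_zero]
  refine CongruenceSubgroup.Gamma_mem.2 ⟨(hz 0 0).trans ?_, (hz 0 1).trans ?_, (hz 1 0).trans ?_,
    (hz 1 1).trans ?_⟩ <;> simp

theorem bdd (A : M2) (hA : 0 < A.det) {k : ℤ} {h : ℍ → ℂ} (hh : Bdd k h) :
    Bdd k (h ∣[k] gl A hA) := by
  refine ⟨slash_mem' hh.1 k _, fun γ => ?_⟩
  have hp1 : 0 < (A * (γ : M2)).det := by
    rw [Matrix.det_mul]; exact mul_pos hA (SL_pos γ)
  obtain ⟨g, a, d, b, ha, hd, e⟩ := hermite _ hp1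
  have hp2 : 0 < ((g : M2) * !![(a : ℤ), b; 0, (d : ℤ)]).det := by
    rw [← e]; exact hp1
  have hp3 : 0 < (!![(a : ℤ), b; 0, (d : ℤ)] : M2).det := by
    rw [Matrix.det_mul, g.det_coe, one_mul] at hp2
    exact hp2
  rw [← slash_gl_SL k h γ hA hp1, gl_congr e hp1 hp2, slash_SL_gl k h g hp3 hp2]
  refine IsBoundedAtImInfty.slash k ?_ (hh.2 g)
  simp [gl_coe]

theorem isMF (A : M2) (hA : 0 < A.det) (N : ℕ) {k : ℤ} {h : ℍ → ℂ}
    (hh : IsMF (CongruenceSubgroup.Gamma N) k h) :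
    IsMF (CongruenceSubgroup.Gamma (N * A.det.natAbs)) k (h ∣[k] gl A hA) := by
  refine (bdd A hA hh.toBdd).isMF fun δ hδ => ?_
  obtain ⟨δ', h', e⟩ := conj A hA N δ hδ
  have hp1 : 0 < (A * (δ : M2)).det := by
    rw [Matrix.det_mul]; exact mul_pos hA (SL_pos δ)
  have hp2 : 0 < ((δ' : M2) * A).det := by
    rw [← e]; exact hp1
  rw [← slash_gl_SL k h δ hA hp1, gl_congr e hp1 hp2, slash_SL_gl k h δ' hA hp2, hh.slash _ h']

end Pbm

theorem sPbM : SPbM := by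
  intro A hA
  refine ⟨fun N _ x hx => ?_, Pbm.hermite A hA⟩
  obtain ⟨k, g, h, hg, hh, hn, rfl⟩ := hx
  exact ⟨k, _, _, Pbm.isMF A hA N hg, Pbm.isMF A hA N hh, slash_ne_zero' hn _,
    pb_div _ _ k hg.hol hh.hol hn⟩

end Vale.Agent.P027M.M
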