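import Vale.Agent.P027M.M.Spec
import Vale.Agent.P027M.M.CAsm
import Vale.Agent.P027M.M.CCf
import Vale.Agent.P027M.M.CDesc
import Vale.Agent.P027M.M.CGenL
import Vale.Agent.P027M.M.CPbm
import Vale.Agent.P027M.M.CPb
import Vale.Agent.P027M.M.CXs
import Vale.Agent.P027M.M.CAct
import Vale.Agent.P027M.M.Pre

/-!
# P027, route M, block M: the model of the modular function field exists
-/

set_option linter.all false

noncomputable section

namespace Vale.Agent.P027M.M

theorem mdl : MDL := by
  obtain ⟨P⟩ := prem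
  have hG : SGenL := sGenL sDesc
  obtain ⟨X, -⟩ := mdl_of P hG (sPb sPbM (sAct P hG sXs)) (sGal (sGex P hG sLev sXs))
  exact ⟨X⟩

end Vale.Agent.P027M.M
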