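import Vale.Agent.P027M.M.Dims
import Vale.Agent.P027M.M.CAll
import Vale.Agent.P027M.M.Artin
import Vale.Agent.P027M.M.Cffs
import Vale.Agent.P027M.M.Faith
import Vale.Agent.P027M.M.Exp
import Vale.Agent.P027M.M.Grp
import Vale.Agent.P027M.M.Ser

/-! # P027 block M: the dimension bound without hypotheses -/

namespace Vale.Agent.P027M.M

theorem dims_all : DIMS := by
  obtain ⟨X⟩ := mdl
  exact dims X exp grp (cffs X (artin X)) (artin X) (faith X ser grp (artin X))
    (pla X (artin X) (cffs X (artin X)) grp)

end Vale.Agent.P027M.M
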