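import Vale.Agent.P027M.M.Defs
import Vale.Agent.P022.H542.L3.Geo
import Vale.Agent.P025.R2.H816.HK
import Vale.Agent.P025.R2.H492.Ext5

/-! # P027, block M: statements of the rows, part 1 (paper: `notes/P027/M.md`) -/

set_option autoImplicit false

open UpperHalfPlane Matrix
open scoped MatrixGroups Manifold IntermediateField

noncomputable section

namespace Vale.Agent.P027M.M

open Vale.Agent.P022 Vale.Agent.P022.H218.L3 Vale.Agent.P022.H231.L3 Vale.Agent.P022.H236.L3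
  Vale.Agent.P022.H542.L3 Vale.Agent.P019P P025H816 P025H492

/-! ## series -/

/-- the distance from `a` to the multiples of `N` -/
def dist (N : ℕ) (a : ℤ) : ℕ := ((a : ZMod N).valMinAbs).natAbs

/-- `X_v` depends on `± v` modulo `N`; its coefficients are algebraic, with bounded denominators -/
def SER0 : Prop := ∀ N : ℕ, 0 < N → ∀ v w : Fin 2 → ℤ,
  ((∀ i, (N : ℤ) ∣ v i - w i) → Xs N v = Xs N w) ∧ Xs N (-v) = Xs N v ∧ Alg (Xs N v) ∧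
    (NZ N v → ∀ n, (N : ℂ) ^ 2 * (Xs N v).coeff n ∈ Algebra.adjoin ℤ {ze N 1})

/-- the leading coefficient of `X_v - X_w` is a unit -/
def SER : Prop := ∀ N : ℕ, 0 < N → ∀ v w : Fin 2 → ℤ, NZ N v → NZ N w → NZ N (v - w) → NZ N (v + w) →
  Good N ((min (dist N (v 0)) (dist N (w 0)) : ℕ) : ℤ) (Xs N v - Xs N w)

/-- calculus of good series -/
def GOOD : Prop := ∀ N : ℕ, 0 < N →
  (∀ k l s s', Good N k s → Good N l s' → Good N (k + l) (s * s')) ∧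
  (∀ k s, Good N k s → Good N (-k) s⁻¹) ∧
  (∀ k s, Good N k s → Good N k (-s)) ∧
  (∀ (O : ValuationSubring ℂ), (N : ℂ)⁻¹ ∈ O → ∀ a ∈ ZN N, a ∈ O) ∧
  (∀ (O : ValuationSubring ℂ) (W : ValuationSubring LS), (N : ℂ)⁻¹ ∈ O → Wok O W →
    ∀ k s, Good N k s → W.valuation s = 1)

/-- the Galois action on the series `X_v` -/
def SERG : Prop := ∀ N : ℕ, 0 < N → ∀ g : GQ,
  (∃ k : ℤ, IsCoprime k (N : ℤ) ∧ Cyc N g k) ∧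
  ∀ k : ℤ, Cyc N g k → IsCoprime k (N : ℤ) ∧ ∀ v : Fin 2 → ℤ, Cf g (Xs N v) (Xs N ![v 0, k * v 1])

/-- calculus of `Cf` -/
def CF : Prop := ∀ g : GQ,
  (∀ s s' s'', Cf g s s' → Cf g s s'' → s' = s'') ∧
  (∀ s, Alg s → ∃ s', Cf g s s') ∧
  (∀ s s', Cf g s s' → Alg s ∧ Alg s' ∧ Cf g⁻¹ s' s ∧ s'.order = s.order) ∧
  (∀ h s s' s'', Cf h s s' → Cf g s' s'' → Cf (g * h) s s'') ∧
  (∀ s s' r r', Cf g s s' → Cf g r r' → Cf g (s * r) (s' * r') ∧ Cf g (s + r) (s' + r') ∧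
    Cf g (s - r) (s' - r') ∧ Cf g (s / r) (s' / r')) ∧
  (∀ a : Qb, Cf g (HahnSeries.C (io a)) (HahnSeries.C (io (g a)))) ∧
  (∀ s s' (m : ℕ) (hm : 0 < m), Cf g (sb m hm s) (sb m hm s') ↔ Cf g s s') ∧
  (∃ σ : ℂ ≃+* ℂ, (∀ a, σ (io a) = io (g a)) ∧ ∀ s s', Cf g s s' → s' = cm σ s)

theorem ze_ne (N : ℕ) (b : ℤ) : ze N b ≠ 0 := Complex.exp_ne_zero _

/-- expansions: injectivity, upper triangular matrices, descent of the period -/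
def EXP : Prop :=
  (∀ N s (x y : Mer), 0 < N → ExM N s x → ExM N s y → x = y) ∧
  (∀ (N a d : ℕ) (b : ℤ) (ha : 0 < a) (_ : 0 < d), 0 < N → ∀ (hA : 0 < (!![(a : ℤ), b; 0, (d : ℤ)] : M2).det)
    (s : LS) (x : Mer), ExM N s x →
    ExM (N * d) (sb a ha (rs (ze (N * d) b) (ze_ne _ _) s)) (pbz !![(a : ℤ), b; 0, (d : ℤ)] hA x)) ∧
  (∀ (N : ℕ) (x : FF), 0 < N → act (ModularGroup.T ^ N) (cv x) = cv x →
    ∃ s, ExM N s (cv x) ∧ Alg s) ∧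
  (∀ (N : ℕ) (x : FF) (s : LS), 0 < N → ExM N s (cv x) →
    Alg s ∧ act (ModularGroup.T ^ N) (cv x) = cv x) ∧
  (∀ (N M : ℕ) (hM : 0 < M) (x : FF) (s : LS), 0 < N → ExM (N * M) (sb M hM s) (cv x) →
    ExM N s (cv x))

/-! ## the analytic data -/

/-- the output of the blocks A, B, C1 -/
structure An where
  t : Mer
  r : ℕ → (Fin 2 → ℤ) → Mer
  baseC : MF G0 = ℂ⟮t⟯
  genC : ∀ N, Lv N → MF (Gt N) = IntermediateField.adjoin ℂ (r N '' {v | NZ N v})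
  law : ∀ N, Lv N → ∀ v, NZ N v → ∀ γ ∈ G0, act γ⁻¹ (r N v) = r N (v ᵥ* (γ : M2))
  rex : ∀ N, Lv N → ∀ v, NZ N v → ∀ γ : SL(2, ℤ),
    ExM N ((Xs N (v ᵥ* (γ : M2)) - Xs N (p1 N ᵥ* (γ : M2))) /
      (Xs N (p4 N ᵥ* (γ : M2)) - Xs N (p1 N ᵥ* (γ : M2)))) (act γ⁻¹ (r N v))
  t_eq : ∀ N, Lv N → t = -r N (p2 N) - r N (p3 N)
  tex0 : ∀ N, Lv N → ∀ γ : SL(2, ℤ), (4 : ℤ) ∣ γ 1 0 →
    ∃ s, Good N N s ∧ ExM N (2 + s) (act γ⁻¹ t)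
  tex2 : ∀ N, Lv N → ∀ γ : SL(2, ℤ), (4 : ℤ) ∣ γ 1 0 - 2 →
    ∃ s, Good N N s ∧ ExM N (-2 + s) (act γ⁻¹ t)
  tex1 : ∀ N, Lv N → ∀ γ : SL(2, ℤ), Odd (γ 1 0) →
    ∃ s, Good N (-((N / 4 : ℕ) : ℤ)) s ∧ ExM N s (act γ⁻¹ t)
  hol : ∃ (P : ℍ → ℂ) (hP : P ∈ Hol), t = inc P hP ∧
    (∀ τ : ℍ, deriv (P ∘ ofComplex) (τ : ℂ) ≠ 0) ∧ (∀ τ, P τ ≠ 2 ∧ P τ ≠ -2) ∧
    ∀ a : ℂ, a ≠ 2 → a ≠ -2 → ∃ τ, P τ = a

/-- linear disjointness: functions with algebraic expansion in a field generated by such -/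
def DISJ : Prop := ∀ (N : ℕ) (R : Set Mer), 0 < N → (∀ y ∈ R, ∃ s, ExM N s y ∧ Alg s) →
  ∀ x ∈ IntermediateField.adjoin ℂ R, ∀ s, ExM N s x → Alg s → x ∈ IntermediateField.adjoin Qb R

/-- pull-backs keep `FS` -/
def PBF : Prop := ∀ (A : M2) (hA : 0 < A.det), ∀ x ∈ FS, pbz A hA x ∈ FS ∧ (pbz A hA).symm x ∈ FS

/-- conjugates exist -/
def GALF : Prop := ∀ (g : GQ), ∀ x ∈ FS, ∃ y ∈ FS, IsGal g x y

/-- the analytic data exist -/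
def AN : Prop := Nonempty An

/-- the model exists -/
def MDL : Prop := Nonempty Mdl

/-! ## Galois theory of the level fields -/

/-- the Hauptmodul in a level field -/
def Mdl.tL (X : Mdl) {Γ : Subgroup SL(2, ℤ)} (h : Γ ≤ G0) : L Γ :=
  ⟨X.t, L_mono h (X.base ▸ IntermediateField.mem_adjoin_simple_self Qb X.t)⟩

/-- `±Γ(N) ≤ Γ ≤ Γ₀(4)` -/
structure Mid (N : ℕ) (Γ : Subgroup SL(2, ℤ)) : Prop where
  lv : Lv N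
  lo : Gt N ≤ Γ
  hi : Γ ≤ G0

/-- group theory -/
def GRP : Prop := ∀ N, Lv N →
  (Gt N).FiniteIndex ∧ (∀ γ : SL(2, ℤ), ∀ δ ∈ Gt N, γ * δ * γ⁻¹ ∈ Gt N) ∧ Mid N (Gt N) ∧ Mid N G0 ∧
  ModularGroup.T ^ N ∈ Gt N ∧ CongruenceSubgroup.Gamma N ≤ Gt N ∧
  (∀ M, 0 < M → Lv (N * M) ∧ Gt (N * M) ≤ Gt N) ∧
  (∀ H : Subgroup (ZMod N)ˣ, ModularGroup.T ∈ GH N H ∧ (-1 ∈ H → Mid N (GH N H)) ∧
    ∀ γ : SL(2, ℤ), (N : ℤ) ∣ γ 1 0 → ∀ δ ∈ GH N H, γ * δ * γ⁻¹ ∈ GH N H)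

/-- Artin's theorem for the level fields -/
def ARTIN (X : Mdl) : Prop := ∀ (Γ Γ' : Subgroup SL(2, ℤ)) (h : Γ' ≤ Γ), Γ'.FiniteIndex →
  letI := algL h
  FiniteDimensional (L Γ) (L Γ') ∧
    ((∀ γ ∈ Γ, ∀ δ ∈ Γ', γ * δ * γ⁻¹ ∈ Γ') → IsGalois (L Γ) (L Γ') ∧
      (∀ σ : L Γ' ≃ₐ[L Γ] L Γ', ∃ γ ∈ Γ, ∀ x : L Γ', ((σ x : L Γ') : FF) = X.pg γ x) ∧
      ∀ γ ∈ Γ, ∃ σ : L Γ' ≃ₐ[L Γ] L Γ', ∀ x : L Γ', ((σ x : L Γ') : FF) = X.pg γ x)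

/-- the level fields are function fields -/
def CFFS : Prop := ∀ Γ : Subgroup SL(2, ℤ), Γ ≤ G0 → Γ.FiniteIndex → CFF Qb (L Γ)

/-- the action is faithful; degrees -/
def FAITH (X : Mdl) : Prop :=
  (∀ N, Lv N → ∀ γ ∈ G0, (∀ v, NZ N v → X.pg γ (X.r N v) = X.r N v) → γ ∈ Gt N) ∧
  (∀ N Γ, Mid N Γ → ∀ γ ∈ G0, (∀ x ∈ L Γ, X.pg γ x = x) → γ ∈ Γ) ∧
  ∀ N Γ Γ' (h : Γ' ≤ Γ), Mid N Γ → Mid N Γ' →
    letI := algL h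
    Module.finrank (L Γ) (L Γ') = Γ'.relIndex Γ

/-- `γ' ≡ diag(1, k)⁻¹ γ diag(1, k)` modulo `N` -/
def Tw (N : ℕ) (k : ℤ) (γ γ' : SL(2, ℤ)) : Prop :=
  (N : ℤ) ∣ γ' 0 0 - γ 0 0 ∧ (N : ℤ) ∣ γ' 0 1 - k * γ 0 1 ∧ (N : ℤ) ∣ k * γ' 1 0 - γ 1 0 ∧
    (N : ℤ) ∣ γ' 1 1 - γ 1 1

/-- the Galois action in a given period; constants; open stabilisers -/
def GALX (X : Mdl) : Prop :=
  (∀ (g : GQ) (x : FF) (N : ℕ) (s s' : LS), 0 < N → ExM N s (cv x) → Cf g s s' →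
    ExM N s' (cv (X.gal g x))) ∧
  (∀ (g : GQ) (a : Qb), X.gal g (algebraMap Qb FF a) = algebraMap Qb FF (g a)) ∧
  (∀ g : GQ, X.gal g X.t = X.t) ∧
  (∀ N, Lv N → ∀ g k, Cyc N g k → ∀ v, NZ N v → X.gal g (X.r N v) = X.r N ![v 0, k * v 1]) ∧
  (∀ x : FF, ∃ N, Lv N ∧ x ∈ L (Gt N)) ∧
  ∀ x : FF, IsOpen {g : GQ | X.gal g x = x}

/-- Shimura's reciprocity law at the cusps -/
def SHIM (X : Mdl) : Prop := ∀ N, Lv N → ∀ g k, Cyc N g k →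
  (∀ x ∈ L (Gt N), X.gal g x ∈ L (Gt N)) ∧
  ∀ γ γ', Tw N k γ γ' → ∀ x ∈ L (Gt N), X.gal g (X.pg γ x) = X.pg γ' (X.gal g x)

/-! ## places -/

/-- unramified over the affine points -/
def PLA (X : Mdl) : Prop := ∀ N Γ (h : Mid N Γ) [CFF Qb (L Γ)] (P : Plk Qb (L Γ)) (a : Qb),
  a ≠ 2 → a ≠ -2 → 0 < ord P (X.tL h.hi - algebraMap Qb (L Γ) a) →
  ord P (X.tL h.hi - algebraMap Qb (L Γ) a) = 1

/-- `P` is the cusp `γ ∞` of level `N` -/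
def CuspAt (N : ℕ) [CFF Qb (L (Gt N))] (γ : SL(2, ℤ)) (P : Plk Qb (L (Gt N))) : Prop :=
  ∀ (x : L (Gt N)) (s : LS), ExM N s (act γ⁻¹ (cv (x : FF))) → ord P x = s.order

/-- the cusps of level `N` and their inertia groups -/
def PLC (X : Mdl) : Prop := ∀ N (h : Mid N (Gt N)) [CFF Qb (L (Gt N))],
  (∀ γ, ∃ P, CuspAt N γ P) ∧
  (∀ P : Plk Qb (L (Gt N)),
    (0 < ord P (X.tL h.hi - 2) ∨ 0 < ord P (X.tL h.hi + 2) ∨ ord P (X.tL h.hi) < 0) →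
    ∃ γ, CuspAt N γ P) ∧
  ∀ γ P, CuspAt N γ P → ∀ δ ∈ G0,
    (∀ x y : L (Gt N), (y : FF) = X.pg δ x → ord P y = ord P x) →
    ∃ j : ℤ, δ * (γ * ModularGroup.T ^ j * γ⁻¹)⁻¹ ∈ Gt N

/-- covers which are unramified at all places -/
def UNRAM : Prop := ∀ N Γ Γ' (h : Γ' ≤ Γ), Mid N Γ → Mid N Γ' →
  (∀ γ ∈ Γ, (γ : M2).trace = 2 → γ ∈ Γ') → ∀ [CFF Qb (L Γ)] [CFF Qb (L Γ')],
    letI := algL h
    haveI := towerL h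
    ∀ [Algebra.IsAlgebraic (L Γ) (L Γ')], IsUnr Qb (L Γ) (L Γ')

/-! ## primitive series, the key lemma -/

/-- expansions are quotients of primitive series -/
def PRIM : Prop := ∀ (x : FF), x ≠ 0 → ∀ (N : ℕ) (s : LS), 0 < N → ExM N s (cv x) →
  ∀ O : ValuationSubring ℂ, ∃ (c : ℂ) (a b : LS), c ≠ 0 ∧ IsAlgebraic ℚ c ∧
    (∀ k, IsAlgebraic ℚ (a.coeff k)) ∧ (∀ k, IsAlgebraic ℚ (b.coeff k)) ∧
    (∀ k, a.coeff k ∈ O) ∧ (∀ k, b.coeff k ∈ O) ∧ (∃ k, a.coeff k = 1) ∧ (∃ k, b.coeff k = 1) ∧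
    s * b = HahnSeries.C c * a

/-- **the key lemma** (block GR) -/
def KEY : Prop := ∀ (N : ℕ) (H : Subgroup (ZMod N)ˣ), Lv N → -1 ∈ H →
  ∀ [CFF Qb (L (GH N H))] (m p : ℕ), p.Prime → ¬ p ∣ m → ¬ p ∣ N →
  ∀ O : ValuationSubring ℂ, O.valuation (p : ℂ) < 1 → ∀ W : ValuationSubring LS, Wok O W →
  ∀ f ∈ divU Qb (L (GH N H)) m, ∀ s : LS, ExM N s (cv ((f : L (GH N H)) : FF)) →
    W.valuation (s - 1) < 1 → f ∈ powU (L (GH N H)) m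

/-! ## Hecke operators on functions -/

/-- the coset lemma -/
def STEP : Prop := ∀ (N l : ℕ), 0 < N → l.Prime →
  (¬ l ∣ N → ∀ d, IsDel 1 N l d → ∀ γ : SL(2, ℤ), (N : ℤ) ∣ γ 1 0 →
    ∃ (π : Equiv.Perm (Option (Fin l))) (g : Option (Fin l) → SL(2, ℤ)), ∀ i,
      al 1 l d i * (γ : M2) = (g i : M2) * al 1 l d (π i) ∧ (N : ℤ) ∣ g i 1 0 ∧
        (N : ℤ) ∣ g i 1 1 - γ 1 1) ∧
  (l ∣ N → ∀ γ : SL(2, ℤ), (N : ℤ) ∣ γ 1 0 →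
    ∃ (π : Equiv.Perm (Fin l)) (g : Fin l → SL(2, ℤ)), ∀ i,
      al 1 l 1 (some i) * (γ : M2) = (g i : M2) * al 1 l 1 (some (π i)) ∧ (N : ℤ) ∣ g i 1 0 ∧
        (N : ℤ) ∣ g i 1 1 - γ 1 1)

/-- stability, independence of the diamond matrix, commutation with diamonds -/
def HEC1 (X : Mdl) : Prop := ∀ (N : ℕ) (H : Subgroup (ZMod N)ˣ), Lv N → ∀ x ∈ L (GH N H),
  (∀ γ : SL(2, ℤ), (N : ℤ) ∣ γ 1 0 → X.pg γ x ∈ L (GH N H)) ∧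
  (∀ γ γ' : SL(2, ℤ), (N : ℤ) ∣ γ 1 0 → (N : ℤ) ∣ γ' 1 0 → (N : ℤ) ∣ γ 1 1 - γ' 1 1 →
    X.pg γ x = X.pg γ' x) ∧
  (∀ l (hl : l.Prime), ¬ l ∣ N → ∀ d, IsDel 1 N l d → X.T hl.pos d x ∈ L (GH N H) ∧
    (∀ d', IsDel 1 N l d' → X.T hl.pos d x = X.T hl.pos d' x) ∧
    ∀ γ : SL(2, ℤ), (N : ℤ) ∣ γ 1 0 → X.pg γ (X.T hl.pos d x) = X.T hl.pos d (X.pg γ x)) ∧
  ∀ q (hq : q.Prime), q ∣ N → X.U hq.pos x ∈ L (GH N H) ∧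
    ∀ γ : SL(2, ℤ), (N : ℤ) ∣ γ 1 0 → X.pg γ (X.U hq.pos x) = X.U hq.pos (X.pg γ x)

/-- the expansions of `T_l x`, `U_q x` -/
def HEC2 (X : Mdl) : Prop := ∀ (x : FF) (s s' sT : LS) (l : ℕ) (hl : l.Prime) (ζ : ℂ)
  (hζ : IsPrimitiveRoot ζ l), ExM 1 s (cv x) →
  (∀ d, ExM 1 s' (cv (X.pg d x)) → ExM 1 sT (cv (X.T hl.pos d x)) →
    sb l hl.pos sT =
      (∏ j ∈ Finset.range l, rs (ζ ^ j) (pow_ne_zero _ (hζ.ne_zero hl.ne_zero)) s) *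
        sb (l * l) (Nat.mul_pos hl.pos hl.pos) s') ∧
  (ExM 1 sT (cv (X.U hl.pos x)) →
    sb l hl.pos sT = ∏ j ∈ Finset.range l, rs (ζ ^ j) (pow_ne_zero _ (hζ.ne_zero hl.ne_zero)) s)

/-- commutation with the Galois action -/
def HEC3 (X : Mdl) : Prop := ∀ (N : ℕ) (H : Subgroup (ZMod N)ˣ), Lv N → -1 ∈ H →
  ∀ x ∈ L (GH N H), ∀ g : GQ, X.gal g x ∈ L (GH N H) ∧
  (∀ γ : SL(2, ℤ), (N : ℤ) ∣ γ 1 0 → X.gal g (X.pg γ x) = X.pg γ (X.gal g x)) ∧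
  (∀ l (hl : l.Prime), ¬ l ∣ N → ∀ d, IsDel 1 N l d →
    X.gal g (X.T hl.pos d x) = X.T hl.pos d (X.gal g x)) ∧
  ∀ q (hq : q.Prime), q ∣ N → X.gal g (X.U hq.pos x) = X.U hq.pos (X.gal g x)

/-- the Hecke operators commute -/
def HEC4 (X : Mdl) : Prop := ∀ (N : ℕ) (H : Subgroup (ZMod N)ˣ), Lv N → ∀ x ∈ L (GH N H),
  (∀ l l' (hl : l.Prime) (hl' : l'.Prime), ¬ l ∣ N → ¬ l' ∣ N → ∀ d d', IsDel 1 N l d →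
    IsDel 1 N l' d' → X.T hl.pos d (X.T hl'.pos d' x) = X.T hl'.pos d' (X.T hl.pos d x)) ∧
  (∀ l q (hl : l.Prime) (hq : q.Prime), ¬ l ∣ N → q ∣ N → ∀ d, IsDel 1 N l d →
    X.T hl.pos d (X.U hq.pos x) = X.U hq.pos (X.T hl.pos d x)) ∧
  ∀ q q' (hq : q.Prime) (hq' : q'.Prime), q ∣ N → q' ∣ N →
    X.U hq.pos (X.U hq'.pos x) = X.U hq'.pos (X.U hq.pos x)

/-- the congruence of Eichler and Shimura, and the one for inertia, on series -/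
def ESS : Prop := ∀ (l : ℕ) (hl : l.Prime), l ≠ 2 → ∀ (P : Ideal (NumberField.RingOfIntegers Qb)),
  P.IsPrime → (l : NumberField.RingOfIntegers Qb) ∈ P →
  ∃ (O : ValuationSubring ℂ) (W : ValuationSubring LS), O.valuation (l : ℂ) < 1 ∧ Wok O W ∧
    ∀ (g : GQ) (x y : FF) (s s' r r' : LS), x ≠ 0 → y ≠ 0 → ExM 1 s (cv x) → ExM 1 r (cv y) →
      Cf g s s' → Cf g r r' → ∀ (m : ℕ) (hm : 0 < m),
      ((∀ a : NumberField.RingOfIntegers Qb, g • a - a ∈ P) →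
        ∃ c : Qb, c ≠ 0 ∧ W.valuation (sb m hm (HahnSeries.C (io c) * (s' / s)) - 1) < 1) ∧
      ((∀ a : NumberField.RingOfIntegers Qb, g • a - a ^ l ∈ P) →
        ∀ (ζ : ℂ) (hζ : IsPrimitiveRoot ζ l) (sT : LS), sb l hl.pos sT =
          (∏ j ∈ Finset.range l, rs (ζ ^ j) (pow_ne_zero _ (hζ.ne_zero hl.ne_zero)) s) *
            sb (l * l) (Nat.mul_pos hl.pos hl.pos) r' →
        ∃ c : Qb, c ≠ 0 ∧
          W.valuation (sb m hm (HahnSeries.C (io c) * (sT / (s' * r ^ l))) - 1) < 1)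

end Vale.Agent.P027M.M
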