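import Mathlib

/-!
# P027 block M, part A (algebra): the formal expansions of the division values

`Xr ζ v` is the series in `u = e(τ / N)` attached to `v = (a, b)` in `(ℤ / N) ^ 2`, over any
commutative ring with an admissible `N`-th root of unity `ζ`.
-/

namespace Vale.Agent.P027M.M.A

open PowerSeries

variable {N : ℕ} {R S : Type*} [CommRing R] [CommRing S]

/-- `ζ ^ N = 1` and every `1 - ζ ^ i` (`N ∤ i`) is a unit -/
def Adm (N : ℕ) (ζ : R) : Prop := ζ ^ N = 1 ∧ ∀ i : ℕ, ¬ N ∣ i → IsUnit (1 - ζ ^ i)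

/-- `b ↦ ζ ^ b` on `ZMod N` -/
def ch (ζ : R) (b : ZMod N) : R := ζ ^ b.val

/-- the coefficient of the pair `(c, j)` -/
def cf (ζ : R) (v : ZMod N × ZMod N) (c j : ℕ) : R :=
  (if (c : ZMod N) = v.1 then ch ζ ((j : ZMod N) * v.2) else 0) +
    (if (c : ZMod N) = -v.1 then ch ζ (-((j : ZMod N) * v.2)) else 0)

/-- the constant term -/
noncomputable def c0 (ζ : R) (v : ZMod N × ZMod N) : R :=
  if v.1 = 0 then ch ζ v.2 * Ring.inverse (1 - ch ζ v.2) ^ 2 else 0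

/-- the formal expansion -/
noncomputable def Xr (ζ : R) (v : ZMod N × ZMod N) : PowerSeries R :=
  PowerSeries.mk fun k =>
    if k = 0 then c0 ζ v else ∑ p ∈ k.divisorsAntidiagonal, (p.2 : R) * cf ζ v p.1 p.2

/-- the absolute value of a residue class -/
def ab (a : ZMod N) : ℕ := min a.val (-a).val

/-- the order of `Xr v - Xr w` -/
def eo (v w : ZMod N × ZMod N) : ℕ := min (ab v.1) (ab w.1)

theorem Adm.map {ζ : R} (h : Adm N ζ) (φ : R →+* S) : Adm N (φ ζ) :=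
  ⟨by rw [← map_pow, h.1, map_one], fun i hi => by
    have := (h.2 i hi).map φ
    rwa [map_sub, map_one, map_pow] at this⟩

theorem adm_of_prim {K : Type*} [Field K] {ζ : K} (h : IsPrimitiveRoot ζ N) : Adm N ζ :=
  ⟨h.pow_eq_one, fun i hi => by
    rw [isUnit_iff_ne_zero, sub_ne_zero]
    exact fun e => hi ((h.pow_eq_one_iff_dvd i).1 e.symm)⟩

theorem Adm.prim [Nontrivial R] {ζ : R} (h : Adm N ζ) : IsPrimitiveRoot ζ N :=
  ⟨h.1, fun i hi => by
    by_contra hd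
    have := h.2 i hd
    rw [hi, sub_self] at this
    exact not_isUnit_zero this⟩

/-- a primitive root in a domain in which `N` is a unit is admissible -/
theorem adm_of_unit [IsDomain R] {ζ : R} (h : IsPrimitiveRoot ζ N) (hN : IsUnit (N : R)) :
    Adm N ζ := by
  refine ⟨h.pow_eq_one, fun i hi => ?_⟩
  have h1 : ζ ^ i ≠ 1 := fun e => hi ((h.pow_eq_one_iff_dvd i).1 e)
  have h2 : (ζ ^ i) ^ N = 1 := by rw [← pow_mul, mul_comm, pow_mul, h.pow_eq_one, one_pow]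
  have h3 : ∑ k ∈ Finset.range N, (ζ ^ i) ^ k = 0 := by
    have := mul_geom_sum (ζ ^ i) N
    rw [h2, sub_self] at this
    exact (mul_eq_zero.1 this).resolve_left (sub_ne_zero.2 h1)
  have h4 : (1 - ζ ^ i) ∣ (N : R) := by
    have : (N : R) = ∑ k ∈ Finset.range N, (1 - (ζ ^ i) ^ k) := by
      rw [Finset.sum_sub_distrib, h3]
      simp
    rw [this]
    exact Finset.dvd_sum fun k _ => one_sub_dvd_one_sub_pow _ _
  exact isUnit_of_dvd_unit h4 hN

/-- the same in a subring of a field -/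
theorem adm_subring {K : Type*} [Field K] {ζ : K} (h : IsPrimitiveRoot ζ N) (hN : (N : K) ≠ 0)
    (O : Subring K) (h1 : ζ ∈ O) (h2 : (N : K)⁻¹ ∈ O) : Adm N (⟨ζ, h1⟩ : O) := by
  refine adm_of_unit (IsPrimitiveRoot.of_map_of_injective (f := O.subtype) h Subtype.val_injective) ?_
  refine IsUnit.of_mul_eq_one ⟨_, h2⟩ (Subtype.ext ?_)
  push_cast
  exact mul_inv_cancel₀ hN

theorem map_ch (φ : R →+* S) (ζ : R) (b : ZMod N) : φ (ch ζ b) = ch (φ ζ) b := map_pow _ _ _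

theorem ch_zero (ζ : R) : ch ζ (0 : ZMod N) = 1 := by simp [ch]

theorem ch_nat {ζ : R} (h : ζ ^ N = 1) (n : ℕ) : ch ζ (n : ZMod N) = ζ ^ n := by
  rw [ch, ZMod.val_natCast]
  exact (pow_eq_pow_mod n h).symm

section
variable [NeZero N] {ζ : R}

theorem ch_add (h : ζ ^ N = 1) (b b' : ZMod N) : ch ζ (b + b') = ch ζ b * ch ζ b' := by
  rw [ch, ch, ch, ZMod.val_add, ← pow_add]
  exact (pow_eq_pow_mod _ h).symm

theorem ch_neg_mul (h : ζ ^ N = 1) (b : ZMod N) : ch ζ (-b) * ch ζ b = 1 := by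
  rw [← ch_add h, neg_add_cancel, ch_zero]

theorem ch_unit (h : ζ ^ N = 1) (b : ZMod N) : IsUnit (ch ζ b) :=
  IsUnit.of_mul_eq_one (ch ζ (-b)) (by rw [mul_comm, ch_neg_mul h])

theorem ch_mul (h : ζ ^ N = 1) (j : ℕ) (b : ZMod N) : ch ζ ((j : ZMod N) * b) = ch ζ b ^ j := by
  induction j with
  | zero => simp [ch_zero]
  | succ j ih => rw [Nat.cast_succ, add_mul, one_mul, ch_add h, ih, pow_succ]

theorem ch_pow (h : ζ ^ N = 1) (k : ℕ) (b : ZMod N) : ch (ζ ^ k) b = ch ζ ((k : ZMod N) * b) := by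
  rw [ch_mul h, ch, ch, ← pow_mul, ← pow_mul, mul_comm]

theorem Adm.one_sub (h : Adm N ζ) {b : ZMod N} (hb : b ≠ 0) : IsUnit (1 - ch ζ b) :=
  h.2 _ fun hd => hb (by
    rw [← ZMod.natCast_zmod_val b]
    exact (ZMod.natCast_eq_zero_iff _ _).2 hd)

theorem Adm.sub (h : Adm N ζ) {b b' : ZMod N} (hb : b ≠ b') : IsUnit (ch ζ b - ch ζ b') := by
  have e : ch ζ b - ch ζ b' = ch ζ b * (1 - ch ζ (b' - b)) := by
    rw [mul_sub, mul_one, ← ch_add h.1, add_sub_cancel]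
  rw [e]
  exact (ch_unit h.1 b).mul (h.one_sub (sub_ne_zero.2 hb.symm))

omit [NeZero N] in
theorem Adm.pow (h : Adm N ζ) {k : ℕ} (hk : k.Coprime N) : Adm N (ζ ^ k) :=
  ⟨by rw [← pow_mul, mul_comm, pow_mul, h.1, one_pow], fun i hi => by
    rw [← pow_mul]
    exact h.2 _ fun hd => hi (hk.symm.dvd_of_dvd_mul_left hd)⟩

end

theorem coeff_Xr (ζ : R) (v : ZMod N × ZMod N) (k : ℕ) : coeff k (Xr ζ v) =
    if k = 0 then c0 ζ v else ∑ p ∈ k.divisorsAntidiagonal, (p.2 : R) * cf ζ v p.1 p.2 :=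
  coeff_mk _ _

theorem cf_neg (ζ : R) (v : ZMod N × ZMod N) (c j : ℕ) : cf ζ (-v) c j = cf ζ v c j := by
  simp only [cf, Prod.fst_neg, Prod.snd_neg, neg_neg, mul_neg]
  rw [add_comm]

theorem map_inverse (φ : R →+* S) {x : R} (hx : IsUnit x) :
    φ (Ring.inverse x) = Ring.inverse (φ x) := by
  have h1 := congrArg φ (Ring.mul_inverse_cancel x hx)
  rw [map_mul, map_one] at h1
  have h2 := Ring.inverse_mul_cancel _ (hx.map φ)
  calc φ (Ring.inverse x) = (Ring.inverse (φ x) * φ x) * φ (Ring.inverse x) := by rw [h2, one_mul]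
    _ = Ring.inverse (φ x) := by rw [mul_assoc, h1, mul_one]

section
variable [NeZero N] {ζ : R}

omit [NeZero N] in
theorem snd_ne {v : ZMod N × ZMod N} (hv : v ≠ 0) (h : v.1 = 0) : v.2 ≠ 0 :=
  fun h2 => hv (Prod.ext h h2)

theorem c0_neg (h : Adm N ζ) {v : ZMod N × ZMod N} (hv : v ≠ 0) : c0 ζ (-v) = c0 ζ v := by
  unfold c0
  by_cases h1 : v.1 = 0
  · have hb := snd_ne hv h1
    rw [if_pos h1, if_pos (by simpa using h1), Prod.snd_neg]
    have e1 := Ring.mul_inverse_cancel _ (h.one_sub hb)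
    have e2 := Ring.mul_inverse_cancel _ (h.one_sub (neg_ne_zero.2 hb))
    have e3 := ch_neg_mul h.1 v.2
    generalize Ring.inverse (1 - ch ζ v.2) = i at *
    generalize Ring.inverse (1 - ch ζ (-v.2)) = i' at *
    generalize ch ζ (-v.2) = y at *
    generalize ch ζ v.2 = x at *
    have e4 : i' = -x * i := by
      linear_combination (-i') * e1 + (-x * i) * e2 + (-i * i') * e3
    rw [e4]
    linear_combination x * i ^ 2 * e3
  · rw [if_neg h1, if_neg (by simpa using h1)]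

/-- `X_(-v) = X_v` -/
theorem Xr_neg (h : Adm N ζ) {v : ZMod N × ZMod N} (hv : v ≠ 0) : Xr ζ (-v) = Xr ζ v := by
  ext k
  rw [coeff_Xr, coeff_Xr, c0_neg h hv]
  simp only [cf_neg]

/-- **A5**, ring maps -/
theorem map_Xr (h : Adm N ζ) (φ : R →+* S) {v : ZMod N × ZMod N} (hv : v ≠ 0) :
    PowerSeries.map φ (Xr ζ v) = Xr (φ ζ) v := by
  ext k
  rw [coeff_map, coeff_Xr, coeff_Xr]
  split_ifs with hk
  · unfold c0
    split_ifs with h1
    · rw [map_mul, map_pow, map_inverse φ (h.one_sub (snd_ne hv h1)), map_sub, map_one, map_ch]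
    · exact map_zero _
  · rw [map_sum]
    refine Finset.sum_congr rfl fun p _ => ?_
    rw [map_mul, map_natCast, cf, cf, map_add]
    congr 2
    · split_ifs
      · exact map_ch _ _ _
      · exact map_zero _
    · split_ifs
      · exact map_ch _ _ _
      · exact map_zero _

/-- **A5**, powers of `ζ` -/
theorem Xr_pow (h : ζ ^ N = 1) (k : ℕ) (v : ZMod N × ZMod N) :
    Xr (ζ ^ k) v = Xr ζ (v.1, (k : ZMod N) * v.2) := by
  ext n
  rw [coeff_Xr, coeff_Xr]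
  split_ifs with hk
  · simp only [c0, ch_pow h]
  · refine Finset.sum_congr rfl fun p _ => ?_
    simp only [cf, ch_pow h, mul_neg, mul_left_comm (k : ZMod N)]

omit [NeZero N] in
theorem ab_neg (a : ZMod N) : ab (-a) = ab a := by rw [ab, ab, neg_neg, min_comm]

omit [NeZero N] in
theorem ab_eq_zero {a : ZMod N} : ab a = 0 ↔ a = 0 := by
  rw [ab, Nat.min_eq_zero_iff, ZMod.val_eq_zero, ZMod.val_eq_zero, neg_eq_zero, or_self]

omit [NeZero N] in
theorem ab_le {a : ZMod N} {c : ℕ} (h : (c : ZMod N) = a ∨ (c : ZMod N) = -a) : ab a ≤ c := by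
  rcases h with h | h
  · refine (min_le_left _ _).trans ?_
    rw [← h, ZMod.val_natCast]
    exact Nat.mod_le _ _
  · refine (min_le_right _ _).trans ?_
    rw [← h, ZMod.val_natCast]
    exact Nat.mod_le _ _

omit [NeZero N] in
theorem cf_of_lt (ζ : R) {v : ZMod N × ZMod N} {c : ℕ} (h : c < ab v.1) (j : ℕ) :
    cf ζ v c j = 0 := by
  rw [cf, if_neg fun e => h.not_ge (ab_le (Or.inl e)), if_neg fun e => h.not_ge (ab_le (Or.inr e)),
    add_zero]

omit [NeZero N] in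
theorem coeff_of_lt (ζ : R) {v : ZMod N × ZMod N} {k : ℕ} (h : k < ab v.1) :
    coeff k (Xr ζ v) = 0 := by
  rw [coeff_Xr]
  split_ifs with hk
  · rw [c0, if_neg]
    intro e
    rw [ab_eq_zero.2 e] at h
    omega
  · refine Finset.sum_eq_zero fun p hp => ?_
    rw [cf_of_lt ζ (lt_of_le_of_lt (Nat.le_of_dvd (Nat.pos_of_ne_zero hk)
      (Nat.dvd_of_mem_divisors (Nat.fst_mem_divisors_of_mem_antidiagonal hp))) h), mul_zero]

omit [NeZero N] in
theorem coeff_ab (ζ : R) {v : ZMod N × ZMod N} (h : v.1 ≠ 0) :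
    coeff (ab v.1) (Xr ζ v) = cf ζ v (ab v.1) 1 := by
  have h0 : ab v.1 ≠ 0 := fun e => h (ab_eq_zero.1 e)
  rw [coeff_Xr, if_neg h0, Finset.sum_eq_single (ab v.1, 1)]
  · simp
  · rintro ⟨c, j⟩ hp hne
    have e := (Nat.mem_divisorsAntidiagonal.1 hp).1
    simp only at e
    have hc : c < ab v.1 := by
      refine lt_of_le_of_ne (Nat.le_of_dvd (Nat.pos_of_ne_zero h0) ⟨j, e.symm⟩) fun e2 => hne ?_
      rw [e2] at e
      have : j = 1 := Nat.eq_of_mul_eq_mul_left (Nat.pos_of_ne_zero h0) (by rw [e, mul_one])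
      rw [e2, this]
    rw [cf_of_lt ζ hc, mul_zero]
  · intro hn
    exact absurd (Nat.mem_divisorsAntidiagonal.2 ⟨mul_one _, h0⟩) hn

/-- normal form of `± v` -/
theorem exists_norm (v : ZMod N × ZMod N) :
    ∃ v', (v' = v ∨ v' = -v) ∧ ((ab v'.1 : ℕ) : ZMod N) = v'.1 := by
  rcases le_total v.1.val (-v.1).val with h | h
  · exact ⟨v, Or.inl rfl, by rw [ab, min_eq_left h, ZMod.natCast_zmod_val]⟩
  · refine ⟨-v, Or.inr rfl, ?_⟩
    rw [Prod.fst_neg, ab_neg, ab, min_eq_right h, ZMod.natCast_zmod_val]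

theorem two_ab_le (a : ZMod N) : 2 * ab a ≤ N := by
  by_cases h : a = 0
  · rw [ab_eq_zero.2 h]; omega
  · have : NeZero a := ⟨h⟩
    have h1 := ZMod.val_neg_of_ne_zero a
    have h2 := ZMod.val_lt a
    unfold ab
    omega

theorem two_ab_eq {a : ZMod N} (h0 : a ≠ 0) (h : a = -a) : 2 * ab a = N := by
  have : NeZero a := ⟨h0⟩
  have h1 := ZMod.val_neg_of_ne_zero a
  have h2 := ZMod.val_lt a
  have h3 : a.val = (-a).val := by rw [← h]
  unfold ab
  omega

theorem lead_norm (h : Adm N ζ) {v w : ZMod N × ZMod N} (hv : v ≠ 0) (hw : w ≠ 0) (h1 : v ≠ w)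
    (h2 : v ≠ -w) (nv : ((ab v.1 : ℕ) : ZMod N) = v.1) (nw : ((ab w.1 : ℕ) : ZMod N) = w.1)
    (hle : ab v.1 ≤ ab w.1) : IsUnit (coeff (ab v.1) (Xr ζ v - Xr ζ w)) := by
  rw [map_sub]
  rcases hle.lt_or_eq with hlt | heq
  · rw [coeff_of_lt ζ hlt, sub_zero]
    by_cases ha : v.1 = 0
    · rw [ab_eq_zero.2 ha, coeff_Xr, if_pos rfl, c0, if_pos ha]
      exact (ch_unit h.1 _).mul ((isUnit_ringInverse.2 (h.one_sub (snd_ne hv ha))).pow 2)
    · rw [coeff_ab ζ ha, cf, if_pos nv, if_neg, add_zero]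
      · exact ch_unit h.1 _
      · intro e
        have := two_ab_eq ha (nv.symm.trans e)
        have := two_ab_le w.1
        omega
  · have ha : v.1 = w.1 := by rw [← nv, heq, nw]
    have hb : v.2 ≠ w.2 := fun e => h1 (Prod.ext ha e)
    have hb' : v.1 = -v.1 → v.2 + w.2 ≠ 0 := fun e e' =>
      h2 (Prod.ext (by rw [Prod.fst_neg, ← ha]; exact e) (eq_neg_of_add_eq_zero_left e'))
    by_cases h0 : v.1 = 0
    · have h0' : w.1 = 0 := ha ▸ h0
      rw [ab_eq_zero.2 h0, coeff_Xr, coeff_Xr, if_pos rfl, if_pos rfl, c0, c0, if_pos h0,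
        if_pos h0']
      have u1 := h.one_sub (snd_ne hv h0)
      have u2 := h.one_sub (snd_ne hw h0')
      have u3 := h.one_sub (hb' (by rw [h0, neg_zero]))
      rw [ch_add h.1] at u3
      have u4 := h.sub hb
      have e1 := Ring.mul_inverse_cancel _ u1
      have e2 := Ring.mul_inverse_cancel _ u2
      have u5 := isUnit_ringInverse.2 u1
      have u6 := isUnit_ringInverse.2 u2
      generalize Ring.inverse (1 - ch ζ v.2) = i at *
      generalize Ring.inverse (1 - ch ζ w.2) = i' at *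
      generalize ch ζ v.2 = x at *
      generalize ch ζ w.2 = y at *
      have e : x * i ^ 2 - y * i' ^ 2 = (x - y) * (1 - x * y) * i ^ 2 * i' ^ 2 := by
        linear_combination (-x * i ^ 2 * (1 + (1 - y) * i')) * e2 + (y * i' ^ 2 * (1 + (1 - x) * i)) * e1
      rw [e]
      exact ((u4.mul u3).mul (u5.pow 2)).mul (u6.pow 2)
    · have h0' : w.1 ≠ 0 := ha ▸ h0
      rw [coeff_ab ζ h0, heq, coeff_ab ζ h0', cf, cf, if_pos nw, if_pos (nw.trans ha.symm), nw, ha]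
      simp only [Nat.cast_one, one_mul]
      split_ifs with e
      · have u3 := h.one_sub (neg_ne_zero.2 (hb' (by rw [ha]; exact e)))
        rw [neg_add, ch_add h.1] at u3
        have u4 := h.sub hb
        have e1 := ch_neg_mul h.1 v.2
        have e2 := ch_neg_mul h.1 w.2
        have e3 : ch ζ v.2 + ch ζ (-v.2) - (ch ζ w.2 + ch ζ (-w.2)) =
            (ch ζ v.2 - ch ζ w.2) * (1 - ch ζ (-v.2) * ch ζ (-w.2)) := by
          linear_combination ch ζ (-w.2) * e1 - ch ζ (-v.2) * e2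
        rw [e3]
        exact u4.mul u3
      · simpa using h.sub hb

omit [NeZero N] in
theorem eo_comm (v w : ZMod N × ZMod N) : eo v w = eo w v := min_comm _ _

/-- **A4**: the leading coefficient of `X_v - X_w` is a unit -/
theorem lead (h : Adm N ζ) {v w : ZMod N × ZMod N} (hv : v ≠ 0) (hw : w ≠ 0) (h1 : v ≠ w)
    (h2 : v ≠ -w) : IsUnit (coeff (eo v w) (Xr ζ v - Xr ζ w)) := by
  obtain ⟨v', e1, nv⟩ := exists_norm v
  obtain ⟨w', e2, nw⟩ := exists_norm w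
  have a1 : Xr ζ v' = Xr ζ v ∧ ab v'.1 = ab v.1 ∧ v' ≠ 0 := by
    rcases e1 with rfl | rfl
    · exact ⟨rfl, rfl, hv⟩
    · exact ⟨Xr_neg h hv, ab_neg _, neg_ne_zero.2 hv⟩
  have a2 : Xr ζ w' = Xr ζ w ∧ ab w'.1 = ab w.1 ∧ w' ≠ 0 := by
    rcases e2 with rfl | rfl
    · exact ⟨rfl, rfl, hw⟩
    · exact ⟨Xr_neg h hw, ab_neg _, neg_ne_zero.2 hw⟩
  have a3 : v' ≠ w' ∧ v' ≠ -w' := by
    rcases e1 with rfl | rfl <;> rcases e2 with rfl | rfl
    · exact ⟨h1, h2⟩
    · exact ⟨h2, by rwa [neg_neg]⟩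
    · exact ⟨fun e => h2 (neg_eq_iff_eq_neg.1 e), fun e => h1 (neg_injective e)⟩
    · exact ⟨fun e => h1 (neg_injective e), fun e => h2 (neg_injective e)⟩
  rw [eo, ← a1.1, ← a2.1, ← a1.2.1, ← a2.2.1]
  rcases le_total (ab v'.1) (ab w'.1) with hle | hle
  · rw [min_eq_left hle]
    exact lead_norm h a1.2.2 a2.2.2 a3.1 a3.2 nv nw hle
  · rw [min_eq_right hle, ← neg_sub, map_neg]
    exact (lead_norm h a2.2.2 a1.2.2 a3.1.symm
      (fun e => a3.2 (by rw [e, neg_neg])) nw nv hle).neg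

omit [NeZero N] in
theorem coeff_sub_of_lt (ζ : R) {v w : ZMod N × ZMod N} {k : ℕ} (hk : k < eo v w) :
    coeff k (Xr ζ v - Xr ζ w) = 0 := by
  rw [map_sub, coeff_of_lt ζ (hk.trans_le (min_le_left _ _)),
    coeff_of_lt ζ (hk.trans_le (min_le_right _ _)), sub_zero]

/-- **A4**: `X_v - X_w = u ^ e * unit` -/
theorem exists_unit (h : Adm N ζ) {v w : ZMod N × ZMod N} (hv : v ≠ 0) (hw : w ≠ 0) (h1 : v ≠ w)
    (h2 : v ≠ -w) : ∃ U : PowerSeries R, IsUnit U ∧ Xr ζ v - Xr ζ w = X ^ eo v w * U := by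
  obtain ⟨U, hU⟩ := (X_pow_dvd_iff (n := eo v w) (φ := Xr ζ v - Xr ζ w)).2
    fun k hk => coeff_sub_of_lt ζ hk
  refine ⟨U, ?_, hU⟩
  have := lead h hv hw h1 h2
  rw [hU, coeff_X_pow_mul', if_pos le_rfl, Nat.sub_self, coeff_zero_eq_constantCoeff_apply] at this
  exact isUnit_iff_constantCoeff.2 this

end

end Vale.Agent.P027M.M.A
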