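import Vale.Agent.P027M.M.Defs
import Vale.Agent.P027M.M.A1
import Vale.Agent.P027H.Add

/-!
# P027 block M, part A (functions): differences of division values of `℘`

`Wf N v w τ = (2πi)⁻² (℘((v₀ τ + v₁) / N) - ℘((w₀ τ + w₁) / N))` for the lattice `ℤ τ + ℤ`,
the transformation law, non-vanishing, and the statements of blocks A, B, C1.
-/

set_option autoImplicit false

open UpperHalfPlane Matrix
open scoped MatrixGroups Manifold IntermediateField ModularForm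

noncomputable section

namespace Vale.Agent.P027M.M

open Vale.Agent.P022 Vale.Agent.P022.H218.L3 Vale.Agent.P022.H231.L3 Vale.Agent.P022.H236.L3
  Vale.Agent.P022.H542.L3 Vale.Agent.P027H

theorem int_indep (τ : ℍ) {s t : ℝ} (h : (s : ℂ) * τ + t = 0) : s = 0 ∧ t = 0 := by
  have h1 := congrArg Complex.im h
  have h2 := congrArg Complex.re h
  simp only [Complex.add_im, Complex.mul_im, Complex.ofReal_re, Complex.ofReal_im, zero_mul,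
    add_zero, Complex.zero_im, coe_im, mul_eq_zero, τ.im_pos.ne', or_false] at h1
  subst h1
  simpa using h2

/-- the periods `τ, 1` -/
def pp (τ : ℍ) : PeriodPair := ⟨τ, 1, by
  rw [LinearIndependent.pair_iff]
  intro s t h
  exact int_indep τ (by simpa using h)⟩

/-- the lattice `ℤ τ + ℤ` -/
def lat (τ : ℍ) : Submodule ℤ ℂ := (pp τ).lattice

theorem isLat (τ : ℍ) : IsLat (lat τ) := ⟨pp τ, rfl⟩

theorem mem_lat {τ : ℍ} {z : ℂ} : z ∈ lat τ ↔ ∃ m n : ℤ, (m : ℂ) * τ + n = z := by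
  rw [lat, PeriodPair.mem_lattice]
  simp [pp]

/-- the division point `(v₀ τ + v₁) / N` -/
def zt (N : ℕ) (v : Fin 2 → ℤ) (τ : ℍ) : ℂ := ((v 0 : ℂ) * τ + v 1) / N

/-- the division value -/
def xv (N : ℕ) (v : Fin 2 → ℤ) (τ : ℍ) : ℂ :=
  ((2 * Real.pi * Complex.I) ^ 2)⁻¹ * wp (lat τ) (zt N v τ)

/-- the difference of two division values -/
def Wf (N : ℕ) (v w : Fin 2 → ℤ) : ℍ → ℂ := fun τ => xv N v τ - xv N w τ

theorem Wf_apply (N : ℕ) (v w : Fin 2 → ℤ) (τ : ℍ) : Wf N v w τ = xv N v τ - xv N w τ := rfl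

theorem zt_mem {N : ℕ} (hN : 0 < N) {v : Fin 2 → ℤ} {τ : ℍ} : zt N v τ ∈ lat τ ↔ ¬ NZ N v := by
  have hC : (N : ℂ) ≠ 0 := by exact_mod_cast hN.ne'
  rw [mem_lat, NZ, not_not, zt, Fin.forall_fin_two]
  constructor
  · rintro ⟨m, n, h⟩
    have h1 : (((N * m - v 0 : ℤ) : ℝ) : ℂ) * τ + (((N * n - v 1 : ℤ) : ℝ) : ℂ) = 0 := by
      rw [eq_div_iff hC] at h
      push_cast
      linear_combination h
    obtain ⟨h2, h3⟩ := int_indep τ h1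
    have h4 : (N : ℤ) * m - v 0 = 0 := by exact_mod_cast h2
    have h5 : (N : ℤ) * n - v 1 = 0 := by exact_mod_cast h3
    exact ⟨⟨m, by linarith⟩, ⟨n, by linarith⟩⟩
  · rintro ⟨⟨m, h1⟩, ⟨n, h2⟩⟩
    refine ⟨m, n, ?_⟩
    rw [h1, h2]
    push_cast
    field_simp

theorem zt_sub (N : ℕ) (v w : Fin 2 → ℤ) (τ : ℍ) : zt N (v - w) τ = zt N v τ - zt N w τ := by
  simp only [zt, Pi.sub_apply]
  push_cast
  ring

theorem zt_add (N : ℕ) (v w : Fin 2 → ℤ) (τ : ℍ) : zt N (v + w) τ = zt N v τ + zt N w τ := by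
  simp only [zt, Pi.add_apply]
  push_cast
  ring

/-- `x_v` depends on `v` modulo `N` only -/
theorem xv_congr {N : ℕ} (hN : 0 < N) {v w : Fin 2 → ℤ} (h : ¬ NZ N (v - w)) :
    xv N v = xv N w := by
  funext τ
  rw [xv, xv, (isLat τ).wp_congr (z := zt N v τ) (w := zt N w τ)]
  rw [← zt_sub]
  exact (zt_mem hN).2 h

/-- `x_(-v) = x_v` -/
theorem xv_congr' {N : ℕ} (hN : 0 < N) {v w : Fin 2 → ℤ} (h : ¬ NZ N (v + w)) :
    xv N v = xv N w := by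
  funext τ
  rw [xv, xv, (isLat τ).wp_congr' (z := zt N v τ) (w := zt N w τ)]
  rw [← zt_add]
  exact (zt_mem hN).2 h

/-- change of level -/
theorem xv_level {N M : ℕ} (hN : 0 < N) (hM : 0 < M) {v w : Fin 2 → ℤ}
    (h : ∀ i, (M : ℤ) * v i = N * w i) : xv N v = xv M w := by
  have h1 : (N : ℂ) ≠ 0 := by exact_mod_cast hN.ne'
  have h2 : (M : ℂ) ≠ 0 := by exact_mod_cast hM.ne'
  funext τ
  have e0 : (M : ℂ) * v 0 = N * w 0 := by exact_mod_cast h 0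
  have e1 : (M : ℂ) * v 1 = N * w 1 := by exact_mod_cast h 1
  have : zt N v τ = zt M w τ := by
    rw [zt, zt, div_eq_div_iff h1 h2]
    linear_combination (τ : ℂ) * e0 + e1
  rw [xv, xv, this]

/-- **A2** -/
theorem Wf_ne {N : ℕ} (hN : 0 < N) {v w : Fin 2 → ℤ} (hv : NZ N v) (hw : NZ N w)
    (h1 : NZ N (v - w)) (h2 : NZ N (v + w)) (τ : ℍ) : Wf N v w τ ≠ 0 := by
  have hπ : (Real.pi : ℂ) ≠ 0 := by exact_mod_cast Real.pi_ne_zero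
  rw [Wf, xv, xv, ← mul_sub]
  refine mul_ne_zero (by simp [hπ]) (sub_ne_zero.2 ((isLat τ).wp_ne ?_ ?_ ?_ ?_))
  · exact fun h => (zt_mem hN).1 h hv
  · exact fun h => (zt_mem hN).1 h hw
  · rw [← zt_sub]
    exact fun h => (zt_mem hN).1 h h1
  · rw [← zt_add]
    exact fun h => (zt_mem hN).1 h h2

theorem vm0 (v : Fin 2 → ℤ) (A : M2) : (v ᵥ* A) 0 = v 0 * A 0 0 + v 1 * A 1 0 := by
  simp [Matrix.vecMul, dotProduct, Fin.sum_univ_two]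

theorem vm1 (v : Fin 2 → ℤ) (A : M2) : (v ᵥ* A) 1 = v 0 * A 0 1 + v 1 * A 1 1 := by
  simp [Matrix.vecMul, dotProduct, Fin.sum_univ_two]

theorem det_eq (γ : SL(2, ℤ)) : γ 0 0 * γ 1 1 - γ 0 1 * γ 1 0 = 1 := by
  have := γ.det_coe
  rwa [Matrix.det_fin_two] at this

theorem NZ.vecMul {N : ℕ} {v : Fin 2 → ℤ} (hv : NZ N v) (γ : SL(2, ℤ)) : NZ N (v ᵥ* (γ : M2)) := by
  intro h
  apply hv
  have h0 := h 0
  have h1 := h 1
  rw [vm0] at h0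
  rw [vm1] at h1
  have hd := det_eq γ
  rw [Fin.forall_fin_two]
  constructor
  · have := dvd_sub (h0.mul_right (γ 1 1)) (h1.mul_right (γ 1 0))
    rwa [show (v 0 * γ 0 0 + v 1 * γ 1 0) * γ 1 1 - (v 0 * γ 0 1 + v 1 * γ 1 1) * γ 1 0 = v 0 by
      linear_combination (v 0) * hd] at this
  · have := dvd_sub (h1.mul_right (γ 0 0)) (h0.mul_right (γ 0 1))
    rwa [show (v 0 * γ 0 1 + v 1 * γ 1 1) * γ 0 0 - (v 0 * γ 0 0 + v 1 * γ 1 0) * γ 0 1 = v 1 by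
      linear_combination (v 1) * hd] at this

theorem xv_smul (N : ℕ) (v : Fin 2 → ℤ) (γ : SL(2, ℤ)) (τ : ℍ) :
    xv N v (γ • τ) = ((γ 1 0 : ℂ) * τ + γ 1 1) ^ 2 * xv N (v ᵥ* (γ : M2)) τ := by
  have hd : ((γ 1 0 : ℂ) * τ + γ 1 1) ≠ 0 := by
    have := denom_ne_zero (γ : GL (Fin 2) ℝ) τ
    rwa [ModularGroup.denom_apply] at this
  have e : ((γ • τ : ℍ) : ℂ) = ((γ 0 0 : ℂ) * τ + γ 0 1) / ((γ 1 0 : ℂ) * τ + γ 1 1) := by
    rw [specialLinearGroup_apply]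
    simp
  have hdet : (γ 0 0 : ℂ) * γ 1 1 - γ 0 1 * γ 1 0 = 1 := by exact_mod_cast det_eq γ
  have hom : Hom ((γ 1 0 : ℂ) * τ + γ 1 1)⁻¹ (lat τ) (lat (γ • τ)) := by
    refine ⟨inv_ne_zero hd, fun z => ?_⟩
    rw [mem_lat, mem_lat, e]
    constructor
    · rintro ⟨m, n, rfl⟩
      refine ⟨m * γ 1 1 - n * γ 1 0, n * γ 0 0 - m * γ 0 1, ?_⟩
      push_cast
      field_simp
      linear_combination ((m : ℂ) * τ + n) * hdet
    · rintro ⟨m, n, h⟩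
      refine ⟨m * γ 0 0 + n * γ 1 0, m * γ 0 1 + n * γ 1 1, ?_⟩
      push_cast
      have h3 := mul_inv_cancel₀ hd
      rw [div_eq_mul_inv] at h
      generalize ((γ 1 0 : ℂ) * τ + γ 1 1)⁻¹ = y at h h3
      linear_combination ((γ 1 0 : ℂ) * τ + γ 1 1) * h +
        (z - m * ((γ 0 0 : ℂ) * τ + γ 0 1)) * h3
  have hz : zt N v (γ • τ) = ((γ 1 0 : ℂ) * τ + γ 1 1)⁻¹ * zt N (v ᵥ* (γ : M2)) τ := by
    rw [zt, zt, e, vm0, vm1]
    push_cast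
    have h3 := mul_inv_cancel₀ hd
    simp only [div_eq_mul_inv]
    generalize ((γ 1 0 : ℂ) * τ + γ 1 1)⁻¹ = y at h3
    linear_combination (-(v 1 : ℂ) * (N : ℂ)⁻¹) * h3
  rw [xv, xv, hz, hom.wp, inv_inv]
  ring

/-- **A1** -/
theorem Wf_slash (N : ℕ) (v w : Fin 2 → ℤ) (γ : SL(2, ℤ)) :
    Wf N v w ∣[(2 : ℤ)] γ = Wf N (v ᵥ* (γ : M2)) (w ᵥ* (γ : M2)) := by
  funext τ
  have hd : ((γ 1 0 : ℂ) * τ + γ 1 1) ≠ 0 := by
    have := denom_ne_zero (γ : GL (Fin 2) ℝ) τ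
    rwa [ModularGroup.denom_apply] at this
  rw [ModularForm.SL_slash_apply, ModularGroup.denom_apply, Wf, Wf, xv_smul, xv_smul,
    _root_.zpow_neg, zpow_ofNat]
  field_simp

/-! ### the functions -/

open Classical in
/-- the element of `Mer` given by a function (zero if it is not holomorphic) -/
def ic (f : ℍ → ℂ) : Mer := if h : f ∈ Hol then inc f h else 0

theorem ic_eq {f : ℍ → ℂ} (h : f ∈ Hol) : ic f = inc f h := dif_pos h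

/-- `℘(1/4) - ℘(1/2)` -/
def Af : ℍ → ℂ := Wf 4 (p4 4) (p1 4)
/-- `e₁ - e₂` -/
def alf : ℍ → ℂ := Wf 4 (p1 4) (p2 4)
/-- `e₁ - e₃` -/
def bef : ℍ → ℂ := Wf 4 (p1 4) (p3 4)
/-- `e₃ - e₂` -/
def gaf : ℍ → ℂ := Wf 4 (p3 4) (p2 4)
/-- `2 e₁ - e₂ - e₃` -/
def Bf : ℍ → ℂ := alf + bef
/-- the Hauptmodul as a function -/
def tf : ℍ → ℂ := fun τ => Bf τ / Af τ
/-- the Hauptmodul -/
def tM : Mer := ic Bf / ic Af
/-- the generators -/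
def rM (N : ℕ) (v : Fin 2 → ℤ) : Mer := ic (Wf N v (p1 N)) / ic Af

/-- reduction modulo `N` -/
def red (N : ℕ) (v : Fin 2 → ℤ) : ZMod N × ZMod N := ((v 0 : ZMod N), (v 1 : ZMod N))

/-! ### statements -/

/-- A3 -/
def SA3 : Prop := ∀ N : ℕ, 0 < N → ∀ v w, NZ N v → NZ N w →
  Bdd 2 (Wf N v w) ∧ ExL N (Xs N v - Xs N w) (Wf N v w)

/-- A4 -/
def SA4 : Prop := ∀ N : ℕ, 0 < N →
  (∀ v, NZ N v → ∀ n, (Xs N v).coeff n ∈ ZN N) ∧
  ∀ v w, NZ N v → NZ N w → NZ N (v - w) → NZ N (v + w) →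
    Good N (A.eo (red N v) (red N w) : ℕ) (Xs N v - Xs N w)

/-- B1 -/
def SB1 : Prop := (∀ τ, Af τ ^ 2 = alf τ * bef τ) ∧ IsMF G0 2 Af ∧ IsMF G0 2 Bf

/-- B2 -/
def SB2 : Prop := MF G0 = ℂ⟮tM⟯

/-- B3 -/
def SB3 : Prop := ∀ N, Lv N → ∀ γ : SL(2, ℤ),
  ((4 : ℤ) ∣ γ 1 0 → ∃ s, Good N N s ∧ ExM N (2 + s) (act γ⁻¹ tM)) ∧
  ((4 : ℤ) ∣ γ 1 0 - 2 → ∃ s, Good N N s ∧ ExM N (-2 + s) (act γ⁻¹ tM)) ∧
  (Odd (γ 1 0) → ∃ s, Good N (-((N / 4 : ℕ) : ℤ)) s ∧ ExM N s (act γ⁻¹ tM))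

/-- B4 -/
def SB4 : Prop := ∀ a : ℂ, a ≠ 2 → a ≠ -2 → ∃ τ, tf τ = a

/-- B5 -/
def SB5 : Prop := ∀ τ : ℍ, deriv (tf ∘ ofComplex) (τ : ℂ) ≠ 0

/-- C1 -/
def SC1 : Prop := ∀ N, Lv N → MF (Gt N) = IntermediateField.adjoin ℂ (rM N '' {v | NZ N v})

/-- row B1 -/
def RB1 : Prop := SA3 → SB1
/-- row B2 -/
def RB2 : Prop := SA3 → SB1 → SB2
/-- row B3 -/
def RB3 : Prop := SA3 → SA4 → SB1 → SB3
/-- row B4 -/
def RB4 : Prop := SA3 → SA4 → SB1 → SB4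
/-- row B5 -/
def RB5 : Prop := SA3 → SA4 → SB1 → SB5
/-- row C1 -/
def RC1 : Prop := SA3 → SB1 → SB2 → SC1

end Vale.Agent.P027M.M
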