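import Vale.Agent.P027M.M.A2

/-!
# P027 block M, part A3: the expansion of `Wf`
-/

set_option autoImplicit false

open UpperHalfPlane hiding I
open Matrix Filter Topology Function.Periodic
open scoped MatrixGroups Manifold ModularForm Real

noncomputable section

namespace Vale.Agent.P027M.M

open Vale.Agent.P022 Vale.Agent.P022.H218.L3 Vale.Agent.P022.H231.L3 Vale.Agent.P022.H236.L3
  Vale.Agent.P022.H542.L3 Vale.Agent.P027H

open Complex (I)

namespace A3

/-- `∑ 1 / (y + n) ^ 2` -/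
def cs (y : ℂ) : ℂ := ∑' n : ℤ, 1 / (y + n) ^ 2

theorem cs_summable (y : ℂ) : Summable fun n : ℤ => 1 / (y + n) ^ 2 := by
  have := EisensteinSeries.linear_right_summable y 1 (k := 2) le_rfl
  simpa [zpow_ofNat] using this

theorem cs_neg (y : ℂ) : cs (-y) = cs y := by
  rw [cs, cs, ← (Equiv.neg ℤ).tsum_eq]
  refine tsum_congr fun n => ?_
  simp only [Equiv.neg_apply, Int.cast_neg]
  rw [← neg_add, neg_sq]

theorem cs_pnat {y : ℂ} (hy : 0 < y.im) :
    cs y = (2 * π * I) ^ 2 * ∑' j : ℕ+, (j : ℂ) * Complex.exp (2 * π * I * y) ^ (j : ℕ) := by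
  have h := EisensteinSeries.qExpansion_identity_pnat (k := 1) le_rfl ⟨y, hy⟩
  have h' : ∑' n : ℤ, 1 / (y + n) ^ (1 + 1) = ((-2 * π * I) ^ (1 + 1) / (Nat.factorial 1)) *
      ∑' n : ℕ+, (n : ℂ) ^ 1 * Complex.exp (2 * π * I * y) ^ (n : ℕ) := h
  rw [cs, show (2 : ℕ) = 1 + 1 from rfl, h']
  simp only [pow_one, Nat.factorial_one, Nat.cast_one, div_one]
  ring

theorem cs_up {y : ℂ} (hy : 0 < y.im) : cs y = (2 * π * I) ^ 2 *
    (Complex.exp (2 * π * I * y) / (1 - Complex.exp (2 * π * I * y)) ^ 2) := by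
  have h := EisensteinSeries.qExpansion_identity (k := 1) le_rfl ⟨y, hy⟩
  have h' : ∑' n : ℤ, 1 / (y + n) ^ (1 + 1) = ((-2 * π * I) ^ (1 + 1) / (Nat.factorial 1)) *
      ∑' n : ℕ, (n : ℂ) ^ 1 * Complex.exp (2 * π * I * y) ^ n := h
  have hq : ‖Complex.exp (2 * π * I * y)‖ < 1 := norm_exp_two_pi_I_lt_one ⟨y, hy⟩
  rw [cs, show (2 : ℕ) = 1 + 1 from rfl, h']
  simp only [pow_one, Nat.factorial_one, Nat.cast_one, div_one]
  rw [tsum_coe_mul_geometric_of_norm_lt_one hq]
  ring

theorem cs_real {y : ℝ} (hy : ∀ n : ℤ, y + n ≠ 0) : cs y = (2 * π * I) ^ 2 *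
    (Complex.exp (2 * π * I * y) / (1 - Complex.exp (2 * π * I * y)) ^ 2) := by
  have hne : ∀ (e : ℝ) (n : ℤ), ((y : ℂ) + e * I + n) ≠ 0 := by
    intro e n h
    have := congrArg Complex.re h
    simp at this
    exact hy n this
  have h1 : Continuous fun e : ℝ => cs (y + e * I) := by
    refine continuous_tsum (u := fun n : ℤ => ‖1 / ((y : ℂ) + n) ^ 2‖) (fun n => ?_)
      (cs_summable y).norm (fun n e => ?_)
    · exact continuous_const.div (by fun_prop) fun e => pow_ne_zero _ (hne e n)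
    · rw [norm_div, norm_div, norm_pow, norm_pow]
      have h0 : 0 < ‖(y : ℂ) + n‖ := by
        have := hne 0 n
        simp only [Complex.ofReal_zero, zero_mul, add_zero] at this
        exact norm_pos_iff.2 this
      have h2 : ‖(y : ℂ) + n‖ ≤ ‖(y : ℂ) + e * I + n‖ := by
        have h3 := Complex.abs_re_le_norm ((y : ℂ) + e * I + n)
        have h4 : ((y : ℂ) + n) = ((y + n : ℝ) : ℂ) := by push_cast; rfl
        rw [h4, Complex.norm_real, Real.norm_eq_abs]
        simpa using h3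
      gcongr
  have hw : 1 - Complex.exp (2 * π * I * y) ≠ 0 := by
    intro h
    obtain ⟨n, hn⟩ := Complex.exp_eq_one_iff.1 (sub_eq_zero.1 h).symm
    have h2 : (y : ℂ) = n := by
      have := Complex.two_pi_I_ne_zero
      exact mul_left_cancel₀ this (by rw [hn]; ring)
    apply hy (-n)
    have h3 : y = n := by exact_mod_cast h2
    rw [h3]
    simp
  have h2 : ContinuousAt (fun e : ℝ => (2 * π * I) ^ 2 * (Complex.exp (2 * π * I * (y + e * I)) /
      (1 - Complex.exp (2 * π * I * (y + e * I))) ^ 2)) 0 := by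
    refine continuousAt_const.mul (ContinuousAt.div (by fun_prop) (by fun_prop) ?_)
    simpa using hw
  have h3 := tendsto_nhds_unique_of_eventuallyEq
    (h1.continuousAt.tendsto.mono_left (nhdsWithin_le_nhds (s := Set.Ioi (0 : ℝ))))
    (h2.tendsto.mono_left nhdsWithin_le_nhds) (by
      filter_upwards [self_mem_nhdsWithin] with e he
      exact cs_up (by simpa using he))
  simpa using h3

theorem hasSum_div (a : ℕ → ℕ → ℂ) (ha : ∀ c j, ‖a c j‖ ≤ j) {Q : ℂ} (hQ : ‖Q‖ < 1) :
    ∃ s, HasSum (fun n : ℕ => (∑ j ∈ n.divisors, a (n / j) j) * Q ^ n) s ∧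
      HasSum (fun c : ℕ => ∑' j : ℕ+, a (c + 1) j * Q ^ ((c + 1) * j : ℕ)) s := by
  have hS : Summable fun c : ℕ+ × ℕ+ => a c.1 c.2 * Q ^ (c.1 * c.2 : ℕ) := by
    refine Summable.of_norm_bounded (summable_prod_mul_pow 1 hQ).norm fun c => ?_
    rw [norm_mul, norm_mul]
    refine mul_le_mul_of_nonneg_right ?_ (norm_nonneg _)
    simpa using ha _ _
  refine ⟨∑' c : ℕ+ × ℕ+, a c.1 c.2 * Q ^ (c.1 * c.2 : ℕ), ?_, ?_⟩
  · have h1 := (sigmaAntidiagonalEquivProd.hasSum_iff).2 hS.hasSum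
    have h2 := h1.sigma (g := fun n : ℕ+ =>
      (∑ j ∈ (n : ℕ).divisors, a (n / j) j) * Q ^ (n : ℕ))
      (fun n => by
        have : (∑ j ∈ (n : ℕ).divisors, a (n / j) j) * Q ^ (n : ℕ)
            = ∑ x : (n : ℕ).divisorsAntidiagonal, a x.1.1 x.1.2 * Q ^ (x.1.1 * x.1.2 : ℕ) := by
          rw [Finset.sum_coe_sort (n : ℕ).divisorsAntidiagonal
            (fun x : ℕ × ℕ => a x.1 x.2 * Q ^ (x.1 * x.2 : ℕ)), ← Nat.sum_divisorsAntidiagonal' a,
            Finset.sum_mul]
          refine Finset.sum_congr rfl fun x hx => ?_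
          rw [(Nat.mem_divisorsAntidiagonal.1 hx).1]
        rw [this]
        exact hasSum_fintype _)
    rw [← PNat.coe_injective.hasSum_iff]
    · exact h2
    · intro n hn
      have : n = 0 := by
        by_contra h
        exact hn ⟨⟨n, Nat.pos_of_ne_zero h⟩, rfl⟩
      subst this
      simp
  · have h1 := hS.hasSum.prod_fiberwise fun c => (hS.prod_factor c).hasSum
    exact (Equiv.pnatEquivNat.symm.hasSum_iff).2 h1

theorem norm_ze (N : ℕ) (b : ℤ) : ‖ze N b‖ = 1 := by
  have : ze N b = Complex.exp (((2 * π * b / N : ℝ) : ℂ) * I) := by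
    rw [ze]
    congr 1
    push_cast
    ring
  rw [this, Complex.norm_exp_ofReal_mul_I]

theorem cs_div {N : ℕ} (hN : 0 < N) (τ : ℍ) (b : ℤ) (c : ℕ) :
    ((2 * π * I) ^ 2)⁻¹ * cs (((c + 1 : ℕ) * (τ : ℂ) + b) / N) =
      ∑' j : ℕ+, ((j : ℕ) : ℂ) * ze N (b * (j : ℕ)) * qParam N τ ^ ((c + 1) * j : ℕ) := by
  have hr : (0 : ℝ) < N := by exact_mod_cast hN
  have him : 0 < (((c + 1 : ℕ) * (τ : ℂ) + b) / N).im := by
    rw [show ((N : ℕ) : ℂ) = ((N : ℝ) : ℂ) by push_cast; rfl, Complex.div_ofReal_im]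
    refine div_pos ?_ hr
    have : (0 : ℝ) < (c : ℝ) + 1 := by positivity
    simpa using mul_pos this τ.im_pos
  rw [cs_pnat him, ← mul_assoc, inv_mul_cancel₀ (pow_ne_zero _ Complex.two_pi_I_ne_zero), one_mul]
  refine tsum_congr fun j => ?_
  rw [mul_assoc ((j : ℕ) : ℂ), ze, qParam, ← Complex.exp_nat_mul, ← Complex.exp_nat_mul,
    ← Complex.exp_add]
  congr 2
  push_cast
  ring

/-- the row sums add up to the series -/
theorem hasSum_X {N : ℕ} (hN : 0 < N) {v : Fin 2 → ℤ} (hv : NZ N v) (τ : ℍ) :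
    ∃ s, HasSum (fun k : ℕ => Xc N v k * qParam N τ ^ k) s ∧
      HasSum (fun m : ℤ => ((2 * π * I) ^ 2)⁻¹ * cs (zt N v τ - m * τ)) s := by
  have hr : (0 : ℝ) < N := by exact_mod_cast hN
  have hC : (N : ℂ) ≠ 0 := by exact_mod_cast hN.ne'
  have hQ : ‖qParam N τ‖ < 1 := norm_qParam_lt_one hr τ.im_pos
  obtain ⟨s1, h1, h1'⟩ := hasSum_div
    (fun c j => if (N : ℤ) ∣ (c : ℤ) - v 0 then (j : ℂ) * ze N (v 1 * j) else 0)
    (fun c j => by split_ifs <;> simp [norm_ze]) hQ
  obtain ⟨s2, h2, h2'⟩ := hasSum_div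
    (fun c j => if (N : ℤ) ∣ (c : ℤ) + v 0 then (j : ℂ) * ze N (-(v 1 * j)) else 0)
    (fun c j => by split_ifs <;> simp [norm_ze]) hQ
  refine ⟨s1 + Xc N v 0 + s2, ?_, ?_⟩
  · have h3 := (h1.add (hasSum_ite_eq 0 (Xc N v 0))).add h2
    refine h3.congr_fun fun k => ?_
    by_cases hk : k = 0
    · subst hk
      simp
    · rw [if_neg hk, add_zero, ← add_mul, ← Finset.sum_add_distrib, Xc, if_neg hk]
  · obtain ⟨H, hH⟩ : ∃ H : ℤ → ℂ, H = fun c => if (N : ℤ) ∣ c - v 0 then
        ((2 * π * I) ^ 2)⁻¹ * cs ((c * (τ : ℂ) + v 1) / N) else 0 := ⟨_, rfl⟩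
    have hp : HasSum (fun n : ℕ => H (n + 1)) s1 := by
      refine h1'.congr_fun fun c => ?_
      rw [hH]
      simp only [Nat.cast_add, Nat.cast_one]
      split_ifs with hc
      · have := cs_div hN τ (v 1) c
        push_cast at this ⊢
        exact this
      · simp
    have hm : HasSum (fun n : ℕ => H (-(n + 1))) s2 := by
      refine h2'.congr_fun fun c => ?_
      rw [hH]
      simp only [Nat.cast_add, Nat.cast_one]
      have e : (N : ℤ) ∣ -((c : ℤ) + 1) - v 0 ↔ (N : ℤ) ∣ (c : ℤ) + 1 + v 0 := by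
        rw [← dvd_neg]
        congr! 1
        ring
      simp only [e]
      split_ifs with hc
      · have := cs_div hN τ (-v 1) c
        rw [← cs_neg] at this
        simp only [neg_mul] at this
        rw [← this]
        congr 2
        push_cast
        ring
      · simp
    have h0 : H 0 = Xc N v 0 := by
      rw [hH, Xc, if_pos rfl]
      simp only [zero_sub, dvd_neg]
      split_ifs with hc
      · have hy : ∀ n : ℤ, ((v 1 : ℝ) / N) + n ≠ 0 := by
          intro n hn
          apply hv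
          rw [Fin.forall_fin_two]
          refine ⟨hc, -n, ?_⟩
          have h4 : (v 1 : ℝ) = N * (-n) := by
            field_simp at hn
            linarith
          exact_mod_cast h4
        have h5 := cs_real hy
        have e1 : (((0 : ℤ) : ℂ) * (τ : ℂ) + v 1) / N = (((v 1 : ℝ) / N : ℝ) : ℂ) := by
          push_cast
          ring
        have e2 : Complex.exp (2 * π * I * (((v 1 : ℝ) / N : ℝ) : ℂ)) = ze N (v 1) := by
          rw [ze]
          congr 1
          push_cast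
          ring
        rw [e1, h5, e2, ← mul_assoc, inv_mul_cancel₀ (pow_ne_zero _ Complex.two_pi_I_ne_zero),
          one_mul]
      · rfl
    have h4 := hp.of_add_one_of_neg_add_one hm
    rw [h0] at h4
    have hinj : Function.Injective fun m : ℤ => v 0 - N * m := by
      intro m n h
      have h5 : (N : ℤ) * m = N * n := by simpa using h
      exact mul_left_cancel₀ (by exact_mod_cast hN.ne') h5
    have h6 := (hinj.hasSum_iff (f := H) (a := s1 + Xc N v 0 + s2) (by
      intro c hc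
      rw [hH]
      refine if_neg ?_
      rintro ⟨m, hm⟩
      exact hc ⟨-m, by linarith⟩)).2 h4
    refine h6.congr_fun fun m => ?_
    rw [Function.comp_apply, hH]
    simp only
    rw [if_pos ⟨-m, by ring⟩, zt]
    congr 2
    push_cast
    field_simp
    ring

theorem hasSum_wp (τ : ℍ) (z z' : ℂ) :
    HasSum (fun m : ℤ => cs (z - m * τ) - cs (z' - m * τ)) (wp (lat τ) z - wp (lat τ) z') := by
  have h1 := ((pp τ).hasSum_weierstrassP z).sub ((pp τ).hasSum_weierstrassP z')
  have h2 := ((pp τ).latticeEquivProd.symm.toEquiv.hasSum_iff).2 h1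
  refine h2.prod_fiberwise fun m => ?_
  have h3 := (cs_summable (z - m * τ)).hasSum.sub (cs_summable (z' - m * τ)).hasSum
  have h4 := ((Equiv.neg ℤ).hasSum_iff).2 h3
  refine h4.congr_fun fun n => ?_
  have e : (((pp τ).latticeEquivProd.symm.toEquiv (m, n) : (pp τ).lattice) : ℂ) = m * τ + n := by
    exact ((pp τ).latticeEquiv_symm_apply (m, n)).trans (by simp [pp])
  simp only [Function.comp_apply, e, Equiv.neg_apply, Int.cast_neg]
  ring

end A3

open A3

/-- **A3**: the expansion converges on the whole upper half plane -/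
theorem Wf_hasSum {N : ℕ} (hN : 0 < N) {v w : Fin 2 → ℤ} (hv : NZ N v) (hw : NZ N w) (τ : ℍ) :
    HasSum (fun k : ℕ => (Xc N v k - Xc N w k) * qParam N τ ^ k) (Wf N v w τ) := by
  obtain ⟨s, h1, h2⟩ := hasSum_X hN hv τ
  obtain ⟨s', h1', h2'⟩ := hasSum_X hN hw τ
  have h3 := (hasSum_wp τ (zt N v τ) (zt N w τ)).mul_left ((2 * π * I) ^ 2)⁻¹
  simp only [mul_sub] at h3
  have h4 := h3.unique (h2.sub h2')
  have h5 := h1.sub h1'
  rw [← h4] at h5
  simp only [sub_mul]
  exact h5

/-- a function with an everywhere convergent expansion is holomorphic -/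
theorem hol_of_hasSum {N : ℕ} (hN : 0 < N) {a : ℕ → ℂ} {f : ℍ → ℂ}
    (hf : ∀ τ : ℍ, HasSum (fun k : ℕ => a k * qParam N τ ^ k) (f τ)) : f ∈ Hol := by
  have hr : (0 : ℝ) < N := by exact_mod_cast hN
  rw [mem_Hol, UpperHalfPlane.mdifferentiable_iff]
  intro z hz
  have hz' : 0 < z.im := hz
  obtain ⟨τ0, hτ0⟩ : ∃ τ0 : ℍ, τ0.im = z.im / 2 :=
    ⟨⟨((z.im / 2 : ℝ) : ℂ) * I, by simpa using hz'⟩, by
      show (((z.im / 2 : ℝ) : ℂ) * I).im = _
      simp⟩
  have hUo : IsOpen {w : ℂ | z.im / 2 < w.im} := isOpen_lt continuous_const Complex.continuous_im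
  have hzU : z ∈ {w : ℂ | z.im / 2 < w.im} := by
    show z.im / 2 < z.im
    linarith
  have key := Complex.differentiableOn_tsum_of_summable_norm
    (F := fun k w => a k * qParam N w ^ k) (hf τ0).summable.norm
    (fun k w _ => ((((differentiable_qParam (h := N)) w).pow k).const_mul (a k)).differentiableWithinAt)
    hUo (by
      intro k w hw
      simp only [norm_mul, norm_pow]
      refine mul_le_mul_of_nonneg_left (pow_le_pow_left₀ (norm_nonneg _) ?_ k) (norm_nonneg _)
      rw [norm_qParam, norm_qParam]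
      apply Real.exp_le_exp.2
      have e1 : ((τ0 : ℍ) : ℂ).im = z.im / 2 := hτ0
      rw [e1]
      have hw' : z.im / 2 < w.im := hw
      refine div_le_div_of_nonneg_right ?_ hr.le
      have := Real.pi_pos
      nlinarith)
  refine ((key.differentiableAt (hUo.mem_nhds hzU)).congr_of_eventuallyEq ?_).differentiableWithinAt
  filter_upwards [hUo.mem_nhds hzU] with w hw
  have hw' : z.im / 2 < w.im := hw
  have hw0 : 0 < w.im := by linarith
  rw [Function.comp_apply, ofComplex_apply_of_im_pos hw0]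
  exact (hf ⟨w, hw0⟩).tsum_eq.symm

theorem sa3 : SA3 := by
  intro N hN v w hv hw
  have hr : (0 : ℝ) < N := by exact_mod_cast hN
  refine ⟨⟨hol_of_hasSum hN (Wf_hasSum hN hv hw), fun γ => ?_⟩, ?_⟩
  · rw [Wf_slash]
    exact isBoundedAtImInfty_of_hasSum_qExpansion hr (Wf_hasSum hN (hv.vecMul γ) (hw.vecMul γ))
  · have h := exL_of_hasSum (Wf_hasSum hN hv hw)
    have e : Xs N v - Xs N w = HahnSeries.ofPowerSeries ℤ ℂ
        (PowerSeries.mk fun k => Xc N v k - Xc N w k) := by
      rw [Xs, Xs, ls, ls, ← mul_sub, ← map_sub]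
      have : PowerSeries.mk (Xc N v) - PowerSeries.mk (Xc N w) =
          PowerSeries.mk fun k => Xc N v k - Xc N w k := by
        ext k
        simp
      rw [this]
      exact one_mul _
    rw [e]
    exact h

end Vale.Agent.P027M.M
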