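import Vale.Agent.P027M.M.Spec

/-! # P027, block M: row UNRAM -/

set_option autoImplicit false
set_option linter.all false

open UpperHalfPlane Matrix
open scoped MatrixGroups Manifold IntermediateField

noncomputable section

namespace Vale.Agent.P027M.M

open Vale.Agent.P022 Vale.Agent.P022.H218.L3 Vale.Agent.P022.H231.L3 Vale.Agent.P022.H236.L3
  Vale.Agent.P022.H542.L3 Vale.Agent.P019P P025H816 P025H492

section abs

variable {k K K' M : Type*} [Field k] [Field K] [Field K'] [Field M]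
  [Algebra k K] [Algebra k K'] [Algebra k M] [Algebra K K'] [Algebra K M] [Algebra K' M]
  [IsScalarTower k K K'] [IsScalarTower k K M] [IsScalarTower k K' M] [IsScalarTower K K' M]
  [CFF k K] [CFF k K'] [CFF k M] [Algebra.IsAlgebraic K K']
  [FiniteDimensional K M] [IsGalois K M] [FiniteDimensional K' M] [IsGalois K' M]

/-- if the inertia group fixes the middle field, the middle field is unramified -/
theorem unr_ram_one (Q : Plk k M)
    (h : ∀ σ ∈ inertia K Q, ∀ x : K', σ (algebraMap K' M x) = algebraMap K' M x) :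
    ram K (down K' Q) = 1 := by
  let f : inertia K Q → inertia K' Q := fun σ =>
    ⟨{ σ.1.toRingEquiv with commutes' := h σ.1 σ.2 }, σ.2⟩
  have hf : Function.Injective f := by
    intro σ τ e
    refine Subtype.ext (AlgEquiv.ext fun x => ?_)
    exact congrArg (fun u : inertia K' Q => u.1 x) e
  have h1 := Nat.card_le_card_of_injective f hf
  rw [card_inertia, card_inertia, ram_mul (L := K')] at h1
  have h2 := ram_pos (K := K') Q
  have h3 := ram_pos (K := K) (down K' Q)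
  by_contra h4
  have h5 : 2 ≤ ram K (down K' Q) := by omega
  nlinarith

end abs

theorem Mdl.unr_cv_pg (X : Mdl) (γ : SL(2, ℤ)) (x : FF) : cv (X.pg γ x) = act γ⁻¹ (cv x) := by
  rw [Mdl.pg, X.pb_coe, pbz_SL]

theorem Mdl.unr_pg_fix (X : Mdl) {Γ : Subgroup SL(2, ℤ)} {γ : SL(2, ℤ)} (h : γ ∈ Γ) {x : FF}
    (hx : x ∈ L Γ) : X.pg γ x = x :=
  cv_inj (by rw [X.unr_cv_pg, hx _ (Γ.inv_mem h)])

theorem Mdl.unr_t_nc (X : Mdl) {N : ℕ} (hN : Lv N) (a : Qb) : X.t ≠ algebraMap Qb FF a := by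
  intro h
  obtain ⟨s, hs, he⟩ := X.tex1 N hN ModularGroup.S (by simp [ModularGroup.S])
  rw [h, cv_alg, AlgEquiv.commutes] at he
  have h1 := he.unique hN.pos.ne' (ExM.const N (io a))
  have h2 := hs.ord
  rw [h1, HahnSeries.order_C] at h2
  obtain ⟨m, rfl⟩ := hN.four
  have h3 := hN.pos
  omega

theorem unr_trace (γ : SL(2, ℤ)) (j : ℤ) :
    ((γ * ModularGroup.T ^ j * γ⁻¹ : SL(2, ℤ)) : M2).trace = 2 := by
  rw [Matrix.SpecialLinearGroup.coe_mul, Matrix.trace_mul_comm, ← Matrix.SpecialLinearGroup.coe_mul,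
    ← mul_assoc, inv_mul_cancel, one_mul, ModularGroup.coe_T_zpow]
  simp [Matrix.trace_fin_two]

theorem unram (X : Mdl) (hA : PLA X) (hC : PLC X) (hAr : ARTIN X) (hG : GRP) (hF : CFFS) :
    UNRAM := by
  intro N Γ Γ' h m m' htr i1 i2
  letI := algL h
  haveI := towerL h
  intro i3 P'
  obtain ⟨fi, nor, mt, -⟩ := hG N m.lv
  letI := algL m.lo
  letI := algL m'.lo
  haveI := towerL m.lo
  haveI := towerL m'.lo
  haveI : IsScalarTower (L Γ) (L Γ') (L (Gt N)) := IsScalarTower.of_algebraMap_eq fun _ => rfl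
  haveI : CFF Qb (L (Gt N)) := hF _ mt.hi fi
  obtain ⟨f1, a1⟩ := hAr Γ (Gt N) m.lo fi
  obtain ⟨g1, a2, -⟩ := a1 fun γ _ => nor γ
  obtain ⟨f2, b1⟩ := hAr Γ' (Gt N) m'.lo fi
  obtain ⟨g2, -, -⟩ := b1 fun γ _ => nor γ
  have cusp : (0 < ord P' (X.tL m'.hi - 2) ∨ 0 < ord P' (X.tL m'.hi + 2) ∨
      ord P' (X.tL m'.hi) < 0) → ram (L Γ) P' = 1 := by
    intro hc
    obtain ⟨Q, rfl⟩ := exists_over (L := L (Gt N)) P'
    have et : algebraMap (L Γ') (L (Gt N)) (X.tL m'.hi) = X.tL mt.hi := rfl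
    obtain ⟨γ, hγ⟩ := (hC N mt).2.1 Q (by
      rcases hc with hc | hc | hc
      · left
        rw [← ord_up_pos_iff, map_sub, map_ofNat, et] at hc
        exact hc
      · right; left
        rw [← ord_up_pos_iff, map_add, map_ofNat, et] at hc
        exact hc
      · right; right
        rw [← et, ord_algebraMap]
        have := ram_pos (K := L Γ') Q
        exact mul_neg_of_pos_of_neg (by omega) hc)
    refine unr_ram_one Q fun σ hσ x => ?_
    obtain ⟨δ, hδ, e⟩ := a2 σ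
    obtain ⟨j, hj⟩ := (hC N mt).2.2 γ Q hγ δ (m.hi hδ) (by
      intro u v huv
      have e1 : v = σ u := Subtype.ext (huv.trans (e u).symm)
      rw [e1, ord_aut, mem_inertia.1 ((inertia (L Γ) Q).inv_mem hσ)])
    have hu : γ * ModularGroup.T ^ j * γ⁻¹ ∈ Γ := by
      have h1 := Γ.mul_mem (Γ.inv_mem (m.lo hj)) hδ
      have h2 : (δ * (γ * ModularGroup.T ^ j * γ⁻¹)⁻¹)⁻¹ * δ = γ * ModularGroup.T ^ j * γ⁻¹ := by
        group
      rwa [h2] at h1
    have hd : δ ∈ Γ' := by
      have h1 := Γ'.mul_mem (m'.lo hj) (htr _ hu (unr_trace γ j))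
      rwa [inv_mul_cancel_right] at h1
    exact Subtype.ext ((e _).trans (X.unr_pg_fix hd x.2))
  by_cases h0 : 0 ≤ ord P' (X.tL m'.hi)
  · have nc : ∀ a : Qb, X.tL m'.hi ≠ algebraMap Qb (L Γ') a := fun a e =>
      X.unr_t_nc m.lv a (congrArg Subtype.val e)
    obtain ⟨a, h1⟩ := exists_cst P' ((mem_iff_ord P' _).2 (Or.inr h0))
    replace h1 := h1.resolve_left (nc a)
    by_cases h2 : a = 2
    · rw [h2, map_ofNat] at h1
      exact cusp (Or.inl h1)
    by_cases h3 : a = -2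
    · rw [h3, map_neg, map_ofNat, sub_neg_eq_add] at h1
      exact cusp (Or.inr (Or.inl h1))
    exact ram_eq_one_of_exists (z := X.tL m.hi - algebraMap Qb (L Γ) a) (hA N Γ' m' P' a h2 h3 h1)
  · exact cusp (Or.inr (Or.inr (by omega)))

end Vale.Agent.P027M.M
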