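import Vale.Agent.P027M.M.DpLev
import Vale.Agent.P027M.M.EsH
import Vale.Agent.P027M.M.CAll
import Vale.Agent.P027M.M.Artin
import Vale.Agent.P027M.M.Cffs
import Vale.Agent.P027M.M.Ess
import Vale.Agent.P027M.M.Exp
import Vale.Agent.P027M.M.Faith
import Vale.Agent.P027M.M.Galx
import Vale.Agent.P027M.M.Good
import Vale.Agent.P027M.M.Grp
import Vale.Agent.P027M.M.Hec1
import Vale.Agent.P027M.M.Hec2
import Vale.Agent.P027M.M.Hec3
import Vale.Agent.P027M.M.Hec4
import Vale.Agent.P027M.M.Pla
import Vale.Agent.P027M.M.Plc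
import Vale.Agent.P027M.M.Prim
import Vale.Agent.P027M.M.Ser
import Vale.Agent.P027M.M.Ser0
import Vale.Agent.P027M.M.Serg
import Vale.Agent.P027M.M.Shim
import Vale.Agent.P027M.M.Step
import Vale.Agent.P027M.M.Unram
import Vale.Agent.P027M.M.Cf2
import Vale.Agent.P027M.TW.InDef

/-! # P027, block M: the rows as closed terms -/

namespace Vale.Agent.P027M.M.All

variable (X : Mdl)

theorem cffs0 : CFFS := mdl.elim fun X => cffs X (artin X)

theorem faith0 : FAITH X := faith X ser grp (artin X)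

theorem galx0 : GALX X := galx X cf2 exp serg ser0 grp

theorem shim0 : SHIM X := shim X (galx0 X) cf2 exp serg ser0

theorem pla0 : PLA X := pla X (artin X) cffs0 grp

theorem plc0 : PLC X := plc X (artin X) ser exp grp cffs0

theorem unram0 : UNRAM := mdl.elim fun X => unram X (pla0 X) (plc0 X) (artin X) grp cffs0

theorem prim0 : PRIM := mdl.elim fun X => prim X ser0 (galx0 X) exp

theorem ess0 : ESS := ess' prim0

theorem hec10 : HEC1 X := hec1 X step grp

theorem hec20 : HEC2 X := hec2 X exp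

theorem hec30 : HEC3 X := hec3 X (shim0 X) (galx0 X) (hec10 X) (hec20 X) cf2 exp serg grp

theorem hec40 : HEC4 X := hec4 X (hec10 X) grp

theorem normf0 : NORMF X := normf X (faith0 X)

theorem act0 : ACT X := act' X (faith0 X) grp cffs0 (galx0 X) (hec10 X) (hec30 X)

theorem comm0 : COMM X := comm X (hec10 X) (hec30 X) (hec40 X)

theorem opn0 : OPEN X := opn X (galx0 X)

theorem lev0 : LEV X := lev X (faith0 X) grp (hec10 X) (hec30 X)

theorem es0 (hK : KEY) : ES X := es X hK ess0 (hec20 X) exp cf2 (galx0 X) grp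

theorem unr0 (hK : KEY) : UNR X := unr X hK ess0 exp cf2 (galx0 X) grp

theorem mIn (hK : KEY) (hA : ALK X) : TW.MIn X :=
  ⟨grp, cffs0, artin X, faith0 X, galx0 X, unram0, hec30 X, act0 X, comm0 X, es0 X hK, unr0 X hK,
    opn0 X, lev0 X, hA⟩

end Vale.Agent.P027M.M.All
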