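import Vale.Agent.P027M.M.All1

/-! # P027, block M: automorphisms of `ℂ` and bounded denominators in period one -/

set_option autoImplicit false
set_option linter.all false

open UpperHalfPlane Matrix
open scoped MatrixGroups IntermediateField PowerSeries

noncomputable section

namespace Vale.Agent.P027M.M

open Vale.Agent.P022 Vale.Agent.P022.H218.L3 Vale.Agent.P022.H231.L3 Vale.Agent.P022.H236.L3
  Vale.Agent.P022.H542.L3 Vale.Agent.P019P P025H816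

/-- the expansions of `MF (GH N H)` in period one are stable under the automorphisms of `ℂ` -/
theorem aut1 (σ : ℂ ≃+* ℂ) {N : ℕ} {H : Subgroup (ZMod N)ˣ} (hN : Lv N) (h1 : -1 ∈ H) {y : Mer}
    (hy : y ∈ MF (GH N H)) {s : LS} (hs : ExM 1 s y) : ∃ y' ∈ MF (GH N H), ExM 1 (cm σ s) y' := by
  obtain ⟨g, k, -, -, -, -, h⟩ := x_autc σ N hN
  obtain ⟨y', hy', s0, h2, h3⟩ := h H h1 y hy
  have h4 := exM_period hN.pos one_ne_zero hs
  rw [one_mul] at h4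
  rw [h2.unique hN.pos.ne' h4, cm_sb] at h3
  exact ⟨y', hy', Exp.down hN.pos one_pos (by rwa [one_mul])⟩

theorem ioL_coe (f : Qb⟦X⟧) :
    ioL (f : LaurentSeries Qb) = ((f.map (io : Qb →+* ℂ) : ℂ⟦X⟧) : LS) := by
  ext n
  rw [coeff_ioL, PowerSeries.coeff_coe, PowerSeries.coeff_coe]
  split_ifs
  · exact map_zero io
  · rw [PowerSeries.coeff_map]; rfl

/-- bounded denominators -/
theorem frb1 {N : ℕ} {Γ : Subgroup SL(2, ℤ)} (h : Mid N Γ) {y : Mer} (hy : y ∈ MF Γ) {M : ℕ}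
    (hM : 0 < M) {f : Qb⟦X⟧} (hf : ExM M ((f.map (io : Qb →+* ℂ) : ℂ⟦X⟧) : LS) y) :
    P027M.N.FrBD f :=
  x_frb N M h.lv.pos hM y (MF_mono ((gamma_le_Gt N).trans h.lo) hy) f (by rwa [ioL_coe])

/-- `MF Γ` is finite over every non constant function -/
theorem fin_nc {N : ℕ} {Γ : Subgroup SL(2, ℤ)} (h : Mid N Γ) (x : MF Γ)
    (hx : ∀ c : ℂ, (x : Mer) ≠ algebraMap ℂ Mer c) : FiniteDimensional ℂ⟮x⟯ (MF Γ) := by
  haveI := (x_bc N Γ h).2.2
  refine CFld_finite fun ha => ?_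
  obtain ⟨a, e⟩ := minpoly.mem_range_of_degree_eq_one _ _
    (IsAlgClosed.degree_eq_one_of_irreducible ℂ (minpoly.irreducible ha.isIntegral))
  exact hx a (congrArg Subtype.val e).symm

theorem alg_nc {N : ℕ} {Γ : Subgroup SL(2, ℤ)} (h : Mid N Γ) (x : MF Γ)
    (hx : ∀ c : ℂ, (x : Mer) ≠ algebraMap ℂ Mer c) : Algebra.IsAlgebraic ℂ⟮x⟯ (MF Γ) :=
  @Algebra.IsAlgebraic.of_finite _ _ _ _ _ _ (fin_nc h x hx)

theorem mid_GH {N : ℕ} {H : Subgroup (ZMod N)ˣ} (hN : Lv N) (h1 : -1 ∈ H) : Mid N (GH N H) :=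
  ((grp N hN).2.2.2.2.2.2.2 H).2.1 h1

end Vale.Agent.P027M.M
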