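import Vale.Agent.P027M.M.Defs

/-! # P027, block M, part C: the fields `base gen pb gal` of the model (statements) -/

set_option autoImplicit false

open UpperHalfPlane Matrix
open scoped MatrixGroups Manifold IntermediateField

noncomputable section

namespace Vale.Agent.P027M.M

open Vale.Agent.P022 Vale.Agent.P022.H218.L3 Vale.Agent.P022.H231.L3 Vale.Agent.P022.H236.L3
  Vale.Agent.P022.H542.L3

/-- the analytic half of the model -/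
structure PreM where
  /-- the Hauptmodul of `Γ₀(4)` -/
  t : FF
  /-- the generators -/
  r : ℕ → (Fin 2 → ℤ) → FF
  baseC : MF G0 = ℂ⟮cv t⟯
  genC : ∀ N, Lv N →
    MF (Gt N) = IntermediateField.adjoin ℂ ((fun v => cv (r N v)) '' {v | NZ N v})
  law : ∀ N, Lv N → ∀ v, NZ N v → ∀ γ ∈ G0, act γ⁻¹ (cv (r N v)) = cv (r N (v ᵥ* (γ : M2)))
  rex : ∀ N, Lv N → ∀ v, NZ N v → ∀ γ : SL(2, ℤ),
    ExM N ((Xs N (v ᵥ* (γ : M2)) - Xs N (p1 N ᵥ* (γ : M2))) /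
      (Xs N (p4 N ᵥ* (γ : M2)) - Xs N (p1 N ᵥ* (γ : M2)))) (act γ⁻¹ (cv (r N v)))
  t_eq : ∀ N, Lv N → t = -r N (p2 N) - r N (p3 N)
  tex0 : ∀ N, Lv N → ∀ γ : SL(2, ℤ), (4 : ℤ) ∣ γ 1 0 →
    ∃ s, Good N N s ∧ ExM N (2 + s) (act γ⁻¹ (cv t))
  tex2 : ∀ N, Lv N → ∀ γ : SL(2, ℤ), (4 : ℤ) ∣ γ 1 0 - 2 →
    ∃ s, Good N N s ∧ ExM N (-2 + s) (act γ⁻¹ (cv t))
  tex1 : ∀ N, Lv N → ∀ γ : SL(2, ℤ), Odd (γ 1 0) →
    ∃ s, Good N (-((N / 4 : ℕ) : ℤ)) s ∧ ExM N s (act γ⁻¹ (cv t))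
  hol : ∃ (P : ℍ → ℂ) (hP : P ∈ Hol), cv t = inc P hP ∧
    (∀ τ : ℍ, deriv (P ∘ ofComplex) (τ : ℂ) ≠ 0) ∧ (∀ τ, P τ ≠ 2 ∧ P τ ≠ -2) ∧
    ∀ a : ℂ, a ≠ 2 → a ≠ -2 → ∃ τ, P τ = a

/-- descent for series: `ℂ(R) ∩ Qb((u)) = Qb(R)` -/
def SDesc : Prop := ∀ R : Set LS, (∀ s ∈ R, Alg s) → ∀ s ∈ IntermediateField.adjoin ℂ R, Alg s →
  s ∈ Subfield.closure (R ∪ Set.range fun a : Qb => (HahnSeries.C (io a) : LS))

/-- generators over `ℂ` are generators over `Qb` -/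
def SGenL : Prop := ∀ (Γ : Subgroup SL(2, ℤ)) (N : ℕ), 0 < N → CongruenceSubgroup.Gamma N ≤ Γ →
  ∀ S : Set FF, MF Γ = IntermediateField.adjoin ℂ ((fun x => cv x) '' S) →
    L Γ = IntermediateField.adjoin Qb S

/-- pull-backs of modular functions are modular functions; Hermite form -/
def SPbM : Prop := ∀ (A : M2) (hA : 0 < A.det),
  (∀ N : ℕ, 0 < N → ∀ x ∈ MF (CongruenceSubgroup.Gamma N),
    pbz A hA x ∈ MF (CongruenceSubgroup.Gamma (N * A.det.natAbs))) ∧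
  ∃ (γ : SL(2, ℤ)) (a d : ℕ) (b : ℤ), 0 < a ∧ 0 < d ∧ A = (γ : M2) * !![(a : ℤ), b; 0, (d : ℤ)]

/-- the series `X_v` under the Galois group -/
def SXs : Prop := ∀ N : ℕ, 0 < N →
  (∀ v, Alg (Xs N v)) ∧
  (∀ v w, ¬ NZ N (v - w) ∨ ¬ NZ N (v + w) → Xs N v = Xs N w) ∧
  (∀ g : GQ, ∃ k : ℤ, IsCoprime k (N : ℤ) ∧ Cyc N g k) ∧
  ∀ (g : GQ) (k : ℤ), Cyc N g k → ∀ v, Cf g (Xs N v) (Xs N ![v 0, k * v 1])

/-- every element has an admissible level -/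
def SLev : Prop := ∀ x : FF, ∃ N, Lv N ∧ ∀ M, 0 < M → x ∈ L (Gt (N * M))

/-- `FS` is stable under `SL(2, ℤ)` -/
def SAct : Prop := ∀ (γ : SL(2, ℤ)), ∀ x ∈ FS, act γ x ∈ FS

/-- `FS` is stable under pull-backs -/
def SPb : Prop := ∃ pb : ∀ A : M2, 0 < A.det → (FF ≃ₐ[Qb] FF),
  ∀ (A : M2) (hA : 0 < A.det) (x : FF), cv (pb A hA x) = pbz A hA (cv x)

/-- conjugates exist -/
def SGex : Prop := ∀ (g : GQ) (x : FF), ∃ y : FF, IsGal g (cv x) (cv y)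

/-- the Galois action -/
def SGal : Prop := ∃ gal : GQ →* (FF ≃+* FF), ∀ (g : GQ) (x : FF), IsGal g (cv x) (cv (gal g x))

end Vale.Agent.P027M.M
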