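import Vale.Agent.P027M.M.CAsm

/-! # P027, block M, part C: conjugates of modular functions exist -/

set_option autoImplicit false

open UpperHalfPlane Matrix
open scoped MatrixGroups Manifold IntermediateField

noncomputable section

namespace Vale.Agent.P027M.M

open Vale.Agent.P022 Vale.Agent.P022.H218.L3 Vale.Agent.P022.H231.L3 Vale.Agent.P022.H236.L3
  Vale.Agent.P022.H542.L3

namespace Gex

/-- `g` applied to the coefficients -/
def gF (g : GQ) (x : LaurentSeries Qb) : LaurentSeries Qb := HahnSeries.map x (g : Qb →+* Qb)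

theorem coeff_gF (g : GQ) (x : LaurentSeries Qb) (n : ℤ) : (gF g x).coeff n = g (x.coeff n) := rfl

theorem gF_mul (g : GQ) (x y : LaurentSeries Qb) : gF g (x * y) = gF g x * gF g y := by
  have hs : ∀ z : LaurentSeries Qb, (gF g z).support = z.support := by
    intro z
    ext n
    rw [HahnSeries.mem_support, HahnSeries.mem_support, coeff_gF]
    exact (map_eq_zero_iff g g.injective).not
  ext n
  rw [coeff_gF, HahnSeries.coeff_mul, HahnSeries.coeff_mul, map_sum]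
  refine Finset.sum_congr ?_ ?_
  · ext ij
    simp only [Finset.mem_antidiagonal, hs]
  · intro ij _
    rw [map_mul, coeff_gF, coeff_gF]

/-- `g` applied to the coefficients, as a ring homomorphism -/
def gL (g : GQ) : LaurentSeries Qb →+* LaurentSeries Qb where
  toFun := gF g
  map_one' := by
    ext n
    rw [coeff_gF, HahnSeries.coeff_one]
    split_ifs
    · exact map_one g
    · exact map_zero g
  map_mul' := gF_mul g
  map_zero' := by
    ext n
    exact map_zero g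
  map_add' x y := by
    ext n
    exact map_add g (x.coeff n) (y.coeff n)

theorem coeff_gL (g : GQ) (x : LaurentSeries Qb) (n : ℤ) : (gL g x).coeff n = g (x.coeff n) := rfl

theorem cf_iff {g : GQ} {s s' : LS} : Cf g s s' ↔ ∃ z, ioL z = s ∧ ioL (gL g z) = s' := by
  constructor
  · intro h
    have h1 : Alg s := fun n => by
      obtain ⟨a, ha, -⟩ := h n
      exact ⟨a, ha⟩
    obtain ⟨z, rfl⟩ := alg_iff.1 h1
    refine ⟨z, rfl, ?_⟩
    ext n
    obtain ⟨a, ha, hb⟩ := h n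
    rw [coeff_ioL] at ha
    have e : z.coeff n = a := (io : Qb →+* ℂ).injective ha
    rw [coeff_ioL, coeff_gL, e, hb]
  · rintro ⟨z, rfl, rfl⟩ n
    exact ⟨z.coeff n, rfl, rfl⟩

theorem cf_mul {g : GQ} {s s' t t' : LS} (h : Cf g s s') (h' : Cf g t t') :
    Cf g (s * t) (s' * t') := by
  obtain ⟨x, rfl, rfl⟩ := cf_iff.1 h
  obtain ⟨y, rfl, rfl⟩ := cf_iff.1 h'
  exact cf_iff.2 ⟨x * y, map_mul _ _ _, by rw [map_mul, map_mul]⟩

theorem cf_add {g : GQ} {s s' t t' : LS} (h : Cf g s s') (h' : Cf g t t') :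
    Cf g (s + t) (s' + t') := by
  obtain ⟨x, rfl, rfl⟩ := cf_iff.1 h
  obtain ⟨y, rfl, rfl⟩ := cf_iff.1 h'
  exact cf_iff.2 ⟨x + y, map_add _ _ _, by rw [map_add, map_add]⟩

theorem cf_sub {g : GQ} {s s' t t' : LS} (h : Cf g s s') (h' : Cf g t t') :
    Cf g (s - t) (s' - t') := by
  obtain ⟨x, rfl, rfl⟩ := cf_iff.1 h
  obtain ⟨y, rfl, rfl⟩ := cf_iff.1 h'
  exact cf_iff.2 ⟨x - y, map_sub _ _ _, by rw [map_sub, map_sub]⟩

theorem cf_div {g : GQ} {s s' t t' : LS} (h : Cf g s s') (h' : Cf g t t') :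
    Cf g (s / t) (s' / t') := by
  obtain ⟨x, rfl, rfl⟩ := cf_iff.1 h
  obtain ⟨y, rfl, rfl⟩ := cf_iff.1 h'
  exact cf_iff.2 ⟨x / y, map_div₀ _ _ _, by rw [map_div₀, map_div₀]⟩

theorem cf_inv {g : GQ} {s s' : LS} (h : Cf g s s') : Cf g s⁻¹ s'⁻¹ := by
  obtain ⟨x, rfl, rfl⟩ := cf_iff.1 h
  exact cf_iff.2 ⟨x⁻¹, map_inv₀ _ _, by rw [map_inv₀, map_inv₀]⟩

theorem cf_C (g : GQ) (a : Qb) : Cf g (HahnSeries.C (io a)) (HahnSeries.C (io (g a))) := by
  intro n
  by_cases h : n = 0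
  · subst h
    exact ⟨a, by simp, by simp⟩
  · refine ⟨0, ?_, ?_⟩
    · rw [map_zero, HahnSeries.C_apply, HahnSeries.coeff_single_of_ne h]
    · rw [map_zero, map_zero, HahnSeries.C_apply, HahnSeries.coeff_single_of_ne h]

theorem nz_mul {N : ℕ} {k : ℤ} (hk : IsCoprime k (N : ℤ)) {v : Fin 2 → ℤ} (hv : NZ N v) :
    NZ N ![v 0, k * v 1] := by
  intro h
  apply hv
  intro i
  fin_cases i
  · simpa using h 0
  · have h1 : (N : ℤ) ∣ k * v 1 := by simpa using h 1
    exact hk.symm.dvd_of_dvd_mul_left h1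

theorem odd_of {N : ℕ} (hN : Lv N) {k : ℤ} (hk : IsCoprime k (N : ℤ)) : k % 2 = 1 := by
  obtain ⟨m, rfl⟩ := hN.four
  obtain ⟨a, b, h⟩ := hk
  by_contra h1
  have h2 : (2 : ℤ) ∣ k := by omega
  have h3 : (2 : ℤ) ∣ a * k + b * ((4 * m : ℕ) : ℤ) := by
    refine dvd_add (h2.mul_left _) (Dvd.dvd.mul_left ?_ _)
    push_cast
    exact ⟨2 * m, by ring⟩
  rw [h] at h3
  omega

theorem p1_eq {N : ℕ} (hN : Lv N) {k : ℤ} (hk : k % 2 = 1) :
    ¬ NZ N (![p1 N 0, k * p1 N 1] - p1 N) := by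
  obtain ⟨m, rfl⟩ := hN.four
  have e : (4 * m / 2 : ℕ) = 2 * m := by omega
  obtain ⟨j, rfl⟩ : ∃ j, k = 2 * j + 1 := ⟨k / 2, by omega⟩
  intro h
  apply h
  intro i
  fin_cases i
  · simp [p1]
  · refine ⟨j, ?_⟩
    simp only [p1, e]
    simp
    ring

theorem p4_eq {N : ℕ} (hN : Lv N) {k : ℤ} (hk : k % 2 = 1) :
    ¬ NZ N (![p4 N 0, k * p4 N 1] - p4 N) ∨ ¬ NZ N (![p4 N 0, k * p4 N 1] + p4 N) := by
  obtain ⟨m, rfl⟩ := hN.four
  have e : (4 * m / 4 : ℕ) = m := by omega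
  rcases (by omega : k % 4 = 1 ∨ k % 4 = 3) with h4 | h4
  · left
    obtain ⟨j, rfl⟩ : ∃ j, k = 4 * j + 1 := ⟨k / 4, by omega⟩
    intro h
    apply h
    intro i
    fin_cases i
    · simp [p4]
    · refine ⟨j, ?_⟩
      simp only [p4, e]
      simp
      ring
  · right
    obtain ⟨j, rfl⟩ : ∃ j, k = 4 * j + 3 := ⟨k / 4, by omega⟩
    intro h
    apply h
    intro i
    fin_cases i
    · simp [p4]
    · refine ⟨j + 1, ?_⟩
      simp only [p4, e]
      simp
      ring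

theorem rex1 (P : PreM) {N : ℕ} (hN : Lv N) {v : Fin 2 → ℤ} (hv : NZ N v) :
    ExM N ((Xs N v - Xs N (p1 N)) / (Xs N (p4 N) - Xs N (p1 N))) (cv (P.r N v)) := by
  have h := P.rex N hN v hv 1
  simpa using h

end Gex

open Gex in
theorem sGex : PreM → SGenL → SLev → SXs → SGex := by
  intro P hG hL hX g x
  obtain ⟨N, hN, hx⟩ := hL x
  have hx1 := hx 1 one_pos
  rw [mul_one, P.gen hG N hN] at hx1
  obtain ⟨-, hc, hk, hcf⟩ := hX N hN.pos
  obtain ⟨k, hk, hcy⟩ := hk g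
  have ho := odd_of hN hk
  have key : ∃ (y : FF) (s s' : LS), ExM N s (cv x) ∧ ExM N s' (cv y) ∧ Cf g s s' := by
    clear hx
    induction hx1 using IntermediateField.adjoin_induction with
    | mem z hz =>
      obtain ⟨v, hv, rfl⟩ := hz
      refine ⟨P.r N ![v 0, k * v 1], _, _, rex1 P hN hv, rex1 P hN (nz_mul hk hv), ?_⟩
      have h1 := hcf g k hcy (p1 N)
      have h4 := hcf g k hcy (p4 N)
      rw [hc _ _ (Or.inl (p1_eq hN ho))] at h1
      rw [hc _ _ (p4_eq hN ho)] at h4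
      exact cf_div (cf_sub (hcf g k hcy v) h1) (cf_sub h4 h1)
    | algebraMap a =>
      refine ⟨algebraMap Qb FF (g a), _, _, ?_, ?_, cf_C g a⟩
      · rw [cv_alg]
        exact ExM.const N _
      · rw [cv_alg]
        exact ExM.const N _
    | add z w _ _ hz hw =>
      obtain ⟨y, s, s', h1, h2, h3⟩ := hz
      obtain ⟨y', t, t', h1', h2', h3'⟩ := hw
      refine ⟨y + y', _, _, ?_, ?_, cf_add h3 h3'⟩
      · rw [map_add]
        exact h1.add h1'
      · rw [map_add]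
        exact h2.add h2'
    | inv z _ hz =>
      obtain ⟨y, s, s', h1, h2, h3⟩ := hz
      refine ⟨y⁻¹, _, _, ?_, ?_, cf_inv h3⟩
      · rw [map_inv₀]
        exact h1.inv hN.pos.ne'
      · rw [map_inv₀]
        exact h2.inv hN.pos.ne'
    | mul z w _ _ hz hw =>
      obtain ⟨y, s, s', h1, h2, h3⟩ := hz
      obtain ⟨y', t, t', h1', h2', h3'⟩ := hw
      refine ⟨y * y', _, _, ?_, ?_, cf_mul h3 h3'⟩
      · rw [map_mul]
        exact h1.mul h1'
      · rw [map_mul]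
        exact h2.mul h2'
  obtain ⟨y, s, s', h1, h2, h3⟩ := key
  exact ⟨y, N, hN.pos, s, s', h1, h2, h3⟩

end Vale.Agent.P027M.M
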