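import Vale.Agent.P022.H231.L3.Chr
import Vale.Agent.P022.H236.L3.Te
import Vale.Agent.P022.H20.GalDef

/-! # P027, block M: the field of modular functions with algebraic expansions (definitions) -/

set_option autoImplicit false

open UpperHalfPlane Matrix
open scoped MatrixGroups Manifold IntermediateField

noncomputable section

namespace Vale.Agent.P027M.M

open Vale.Agent.P022 Vale.Agent.P022.H218.L3 Vale.Agent.P022.H231.L3 Vale.Agent.P022.H236.L3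
  Vale.Agent.P022.H542.L3

/-- integral `2 × 2` matrices -/
abbrev M2 : Type := Matrix (Fin 2) (Fin 2) ℤ

/-- the fixed embedding of the algebraic numbers -/
def io : Qb →ₐ[ℚ] ℂ :=
  haveI : Algebra.IsAlgebraic ℚ Qb := AlgebraicClosure.isAlgebraic ℚ
  IsAlgClosed.lift

instance algMer : Algebra Qb Mer := ((algebraMap ℂ Mer).comp (io : Qb →+* ℂ)).toAlgebra

theorem algMer_apply (a : Qb) : algebraMap Qb Mer a = algebraMap ℂ Mer (io a) := rfl

/-- all coefficients are algebraic -/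
def Alg (s : LS) : Prop := ∀ n, ∃ a : Qb, s.coeff n = io a

/-- the same function in the finer parameter -/
theorem exL_period {N m : ℕ} (hN : 0 < N) (hm : m ≠ 0) {x : LS} {f : ℍ → ℂ} (hf : ExL m x f) :
    ExL (m * N) (sb N hN x) f := by
  obtain ⟨k, F, rfl, hF⟩ := hf
  rw [sb_ls hN.ne' hN]
  refine H236.Exq.exL ?_
  filter_upwards [hF] with τ h
  have hNC : (N : ℂ) ≠ 0 := by exact_mod_cast hN.ne'
  have hmC : (m : ℂ) ≠ 0 := by exact_mod_cast hm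
  have e : Function.Periodic.qParam m τ = Function.Periodic.qParam (m * N : ℕ) τ ^ N := by
    rw [Function.Periodic.qParam, Function.Periodic.qParam, ← Complex.exp_nat_mul]
    congr 1
    push_cast
    field_simp
  rw [e] at h
  rw [H236.ev_expand_iff]
  have e2 : Function.Periodic.qParam (m * N : ℕ) τ ^ (-((N : ℤ) * k)) =
      (Function.Periodic.qParam (m * N : ℕ) τ ^ N) ^ (-k) := by
    rw [← _root_.zpow_natCast, ← _root_.zpow_mul]
    congr 1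
    ring
  rw [e2]
  exact h

theorem exM_period {N m : ℕ} (hN : 0 < N) (hm : m ≠ 0) {s : LS} {x : Mer} (h : ExM m s x) :
    ExM (m * N) (sb N hN s) x := by
  obtain ⟨g, k, hg, hk, G, H, h0, hG, hH, rfl, rfl⟩ := h
  rw [map_div₀]
  exact (exL_period hN hm hG).exM hg hk h0 (exL_period hN hm hH)

/-- coefficientwise embedding -/
def ioF (x : LaurentSeries Qb) : LS := HahnSeries.map x (io : Qb →+* ℂ)

theorem coeff_ioF (x : LaurentSeries Qb) (n : ℤ) : (ioF x).coeff n = io (x.coeff n) := rfl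

theorem ioF_mul (x y : LaurentSeries Qb) : ioF (x * y) = ioF x * ioF y := by
  have hs : ∀ z : LaurentSeries Qb, (ioF z).support = z.support := by
    intro z
    ext n
    rw [HahnSeries.mem_support, HahnSeries.mem_support, coeff_ioF]
    exact (map_eq_zero_iff io (io : Qb →+* ℂ).injective).not
  ext n
  rw [coeff_ioF, HahnSeries.coeff_mul, HahnSeries.coeff_mul, map_sum]
  refine Finset.sum_congr ?_ ?_
  · ext ij
    simp only [Finset.mem_antidiagonal, hs]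
  · intro ij _
    rw [map_mul, coeff_ioF, coeff_ioF]

/-- Laurent series with algebraic coefficients -/
def ioL : LaurentSeries Qb →+* LS where
  toFun := ioF
  map_one' := by
    ext n
    rw [coeff_ioF, HahnSeries.coeff_one, HahnSeries.coeff_one]
    split_ifs
    · exact map_one io
    · exact map_zero io
  map_mul' := ioF_mul
  map_zero' := by
    ext n
    exact map_zero io
  map_add' x y := by
    ext n
    exact map_add io (x.coeff n) (y.coeff n)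

theorem coeff_ioL (x : LaurentSeries Qb) (n : ℤ) : (ioL x).coeff n = io (x.coeff n) := rfl

theorem alg_iff {s : LS} : Alg s ↔ ∃ x, ioL x = s := by
  constructor
  · intro h
    choose a ha using h
    refine ⟨⟨a, s.isPWO_support'.mono fun n hn => ?_⟩, ?_⟩
    · intro h0
      apply hn
      have h1 := ha n
      rw [h0] at h1
      exact (map_eq_zero_iff io (io : Qb →+* ℂ).injective).1 h1.symm
    · ext n
      exact (ha n).symm
  · rintro ⟨x, rfl⟩ n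
    exact ⟨_, rfl⟩

theorem Alg.mul {s s' : LS} (h : Alg s) (h' : Alg s') : Alg (s * s') := by
  obtain ⟨x, rfl⟩ := alg_iff.1 h
  obtain ⟨y, rfl⟩ := alg_iff.1 h'
  exact alg_iff.2 ⟨x * y, map_mul _ _ _⟩

theorem Alg.add {s s' : LS} (h : Alg s) (h' : Alg s') : Alg (s + s') := by
  obtain ⟨x, rfl⟩ := alg_iff.1 h
  obtain ⟨y, rfl⟩ := alg_iff.1 h'
  exact alg_iff.2 ⟨x + y, map_add _ _ _⟩

theorem Alg.inv {s : LS} (h : Alg s) : Alg s⁻¹ := by
  obtain ⟨x, rfl⟩ := alg_iff.1 h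
  exact alg_iff.2 ⟨x⁻¹, map_inv₀ _ _⟩

theorem Alg.sb {s : LS} (h : Alg s) (m : ℕ) (hm : 0 < m) : Alg (sb m hm s) := by
  intro n
  by_cases hd : (m : ℤ) ∣ n
  · obtain ⟨k, rfl⟩ := hd
    rw [coeff_sb_mul]
    exact h k
  · rw [coeff_sb_of_not_dvd _ _ _ _ hd]
    exact ⟨0, (map_zero io).symm⟩

theorem alg_C (a : Qb) : Alg (HahnSeries.C (io a)) := by
  intro n
  by_cases h : n = 0
  · subst h
    exact ⟨a, by simp⟩
  · exact ⟨0, by rw [map_zero, HahnSeries.C_apply, HahnSeries.coeff_single_of_ne h]⟩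

theorem gamma_le {N M : ℕ} : CongruenceSubgroup.Gamma (N * M) ≤ CongruenceSubgroup.Gamma N := by
  intro γ h
  rw [CongruenceSubgroup.Gamma_mem'] at h ⊢
  have h1 : SpecialLinearGroup.map (Int.castRingHom (ZMod N)) γ =
      SpecialLinearGroup.map (ZMod.castHom (dvd_mul_right N M) (ZMod N))
        (SpecialLinearGroup.map (Int.castRingHom (ZMod (N * M))) γ) := by
    ext i j
    simp
  rw [h1, h, map_one]

/-- `x` is a modular function of level `Γ(N)` with an algebraic expansion in `e(τ / N)` -/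
def InF (N : ℕ) (x : Mer) : Prop :=
  x ∈ MF (CongruenceSubgroup.Gamma N) ∧ ∃ s, ExM N s x ∧ Alg s

theorem InF.up {N : ℕ} (hN : 0 < N) {x : Mer} (h : InF N x) (M : ℕ) (hM : 0 < M) :
    InF (N * M) x := by
  obtain ⟨h1, s, h2, h3⟩ := h
  exact ⟨MF_mono gamma_le h1, _, exM_period hM hN.ne' h2, h3.sb M hM⟩

/-- all modular functions with algebraic expansions, as a subfield -/
def FS : IntermediateField Qb Mer where
  carrier := {x | ∃ N, 0 < N ∧ InF N x}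
  mul_mem' := by
    rintro x y ⟨N, hN, hx⟩ ⟨M, hM, hy⟩
    obtain ⟨h1, s, h2, h3⟩ := hx.up hN M hM
    have hy' := hy.up hM N hN
    rw [mul_comm] at hy'
    obtain ⟨h1', s', h2', h3'⟩ := hy'
    exact ⟨N * M, Nat.mul_pos hN hM, mul_mem h1 h1', _, h2.mul h2', h3.mul h3'⟩
  add_mem' := by
    rintro x y ⟨N, hN, hx⟩ ⟨M, hM, hy⟩
    obtain ⟨h1, s, h2, h3⟩ := hx.up hN M hM
    have hy' := hy.up hM N hN
    rw [mul_comm] at hy'
    obtain ⟨h1', s', h2', h3'⟩ := hy'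
    exact ⟨N * M, Nat.mul_pos hN hM, add_mem h1 h1', _, h2.add h2', h3.add h3'⟩
  algebraMap_mem' a :=
    ⟨1, one_pos, IntermediateField.algebraMap_mem _ (io a), _, ExM.const 1 (io a), alg_C a⟩
  inv_mem' := by
    rintro x ⟨N, hN, h1, s, h2, h3⟩
    exact ⟨N, hN, inv_mem h1, _, h2.inv hN.ne', h3.inv⟩

theorem mem_FS {x : Mer} : x ∈ FS ↔ ∃ N, 0 < N ∧ InF N x := Iff.rfl

/-- **the field of all modular functions with algebraic expansions** -/
def FF : Type := FS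

instance : Field FF := inferInstanceAs (Field FS)

instance : Algebra Qb FF := inferInstanceAs (Algebra Qb FS)

/-- the underlying meromorphic function -/
def cv : FF →ₐ[Qb] Mer := FS.val

theorem cv_mem (x : FF) : cv x ∈ FS := (show FS from x).2

/-- an element of `FF` from a meromorphic function -/
def mkF (x : Mer) (h : x ∈ FS) : FF := (⟨x, h⟩ : FS)

theorem cv_mkF (x : Mer) (h : x ∈ FS) : cv (mkF x h) = x := rfl

theorem cv_inj {x y : FF} (h : cv x = cv y) : x = y := (cv : FF →+* Mer).injective h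

theorem cv_alg (a : Qb) : cv (algebraMap Qb FF a) = algebraMap ℂ Mer (io a) := cv.commutes a

/-- the functions of level `Γ` -/
def L (Γ : Subgroup SL(2, ℤ)) : IntermediateField Qb FF where
  carrier := {x | ∀ γ ∈ Γ, act γ (cv x) = cv x}
  mul_mem' := by
    intro x y hx hy γ h
    rw [map_mul, map_mul, hx γ h, hy γ h]
  add_mem' := by
    intro x y hx hy γ h
    rw [map_add, map_add, hx γ h, hy γ h]
  algebraMap_mem' a γ _ := by
    rw [cv_alg]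
    exact (act γ).commutes (io a)
  inv_mem' := by
    intro x hx γ h
    rw [map_inv₀, map_inv₀, hx γ h]

theorem mem_L {Γ : Subgroup SL(2, ℤ)} {x : FF} : x ∈ L Γ ↔ ∀ γ ∈ Γ, act γ (cv x) = cv x := Iff.rfl

theorem L_mono {Γ Γ' : Subgroup SL(2, ℤ)} (h : Γ' ≤ Γ) : L Γ ≤ L Γ' :=
  fun _ hx γ hγ => hx γ (h hγ)

/-- the inclusion of the level fields as an algebra (use with `letI`) -/
@[reducible] def algL {Γ Γ' : Subgroup SL(2, ℤ)} (h : Γ' ≤ Γ) : Algebra (L Γ) (L Γ') :=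
  (IntermediateField.inclusion (L_mono h)).toRingHom.toAlgebra

theorem towerL {Γ Γ' : Subgroup SL(2, ℤ)} (h : Γ' ≤ Γ) :
    letI := algL h
    IsScalarTower Qb (L Γ) (L Γ') :=
  letI := algL h
  IsScalarTower.of_algebraMap_eq fun _ => rfl

/-! ### groups -/

/-- `Γ₀(4)` -/
abbrev G0 : Subgroup SL(2, ℤ) := CongruenceSubgroup.Gamma0 4

/-- `±Γ(N)` -/
abbrev Gt (N : ℕ) : Subgroup SL(2, ℤ) := Gp (N : ℤ) (N : ℤ)

/-- `Γ_H(N)` -/
def GH (N : ℕ) (H : Subgroup (ZMod N)ˣ) : Subgroup SL(2, ℤ) where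
  carrier := {γ | (N : ℤ) ∣ γ 1 0 ∧ ∃ h ∈ H, ((h : (ZMod N)ˣ) : ZMod N) = ((γ 1 1 : ℤ) : ZMod N)}
  one_mem' := ⟨by simp, 1, H.one_mem, by simp⟩
  mul_mem' := by
    rintro γ δ ⟨h1, a, ha, h2⟩ ⟨h3, b, hb, h4⟩
    have e1 : (γ * δ) 1 0 = γ 1 0 * δ 0 0 + γ 1 1 * δ 1 0 := by
      simp [Matrix.mul_apply, Fin.sum_univ_two]
    have e2 : (γ * δ) 1 1 = γ 1 0 * δ 0 1 + γ 1 1 * δ 1 1 := by
      simp [Matrix.mul_apply, Fin.sum_univ_two]
    refine ⟨by rw [e1]; exact dvd_add (h1.mul_right _) (h3.mul_left _), a * b, H.mul_mem ha hb, ?_⟩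
    rw [e2, Units.val_mul, h2, h4]
    push_cast
    rw [(ZMod.intCast_zmod_eq_zero_iff_dvd _ _).2 h1, zero_mul, zero_add]
  inv_mem' := by
    rintro γ ⟨h1, a, ha, h2⟩
    have e1 : (γ⁻¹) 1 0 = -γ 1 0 := by
      simp [Matrix.SpecialLinearGroup.coe_inv, Matrix.adjugate_fin_two]
    have e2 : (γ⁻¹) 1 1 = γ 0 0 := by
      simp [Matrix.SpecialLinearGroup.coe_inv, Matrix.adjugate_fin_two]
    refine ⟨by rw [e1]; exact h1.neg_right, a⁻¹, H.inv_mem ha, ?_⟩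
    have hdet := γ.det_coe
    rw [Matrix.det_fin_two] at hdet
    have h3 : ((γ 0 0 : ℤ) : ZMod N) * ((γ 1 1 : ℤ) : ZMod N) = 1 := by
      have h4 := congrArg (Int.cast : ℤ → ZMod N) hdet
      push_cast at h4
      rw [(ZMod.intCast_zmod_eq_zero_iff_dvd _ _).2 h1, mul_zero, sub_zero] at h4
      exact h4
    rw [e2, Units.inv_eq_of_mul_eq_one_left (a := ((γ 0 0 : ℤ) : ZMod N)) (by rw [h2]; exact h3)]

theorem mem_GH {N : ℕ} {H : Subgroup (ZMod N)ˣ} {γ : SL(2, ℤ)} : γ ∈ GH N H ↔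
    (N : ℤ) ∣ γ 1 0 ∧ ∃ h ∈ H, ((h : (ZMod N)ˣ) : ZMod N) = ((γ 1 1 : ℤ) : ZMod N) := Iff.rfl

/-- an admissible level -/
structure Lv (N : ℕ) : Prop where
  pos : 0 < N
  four : 4 ∣ N

/-! ### series -/

/-- `e(b / N)` -/
def ze (N : ℕ) (b : ℤ) : ℂ := Complex.exp (2 * Real.pi * Complex.I * b / N)

/-- `ℤ[ζ_N, 1/N]` -/
def ZN (N : ℕ) : Subalgebra ℤ ℂ := Algebra.adjoin ℤ {ze N 1, (N : ℂ)⁻¹}

/-- the coefficients of the expansion of `(2πi)⁻² ℘((a τ + b) / N)` in `u = e(τ / N)`, up to a series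
which does not depend on `(a, b)` -/
def Xc (N : ℕ) (v : Fin 2 → ℤ) (k : ℕ) : ℂ :=
  if k = 0 then (if (N : ℤ) ∣ v 0 then ze N (v 1) / (1 - ze N (v 1)) ^ 2 else 0)
  else ∑ j ∈ k.divisors,
    ((if (N : ℤ) ∣ ((k / j : ℕ) : ℤ) - v 0 then (j : ℂ) * ze N (v 1 * j) else 0) +
      (if (N : ℤ) ∣ ((k / j : ℕ) : ℤ) + v 0 then (j : ℂ) * ze N (-(v 1 * j)) else 0))

/-- the series `X_v` -/
def Xs (N : ℕ) (v : Fin 2 → ℤ) : LS := ls 0 (PowerSeries.mk (Xc N v))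

/-- `v ≢ 0` modulo `N` -/
def NZ (N : ℕ) (v : Fin 2 → ℤ) : Prop := ¬ ∀ i, (N : ℤ) ∣ v i

/-- a series over `ℤ[ζ_N, 1/N]` of order `k` whose leading coefficient is a unit -/
structure Good (N : ℕ) (k : ℤ) (s : LS) : Prop where
  ne : s ≠ 0
  int : ∀ n, s.coeff n ∈ ZN N
  ord : s.order = k
  unit : (s.coeff k)⁻¹ ∈ ZN N

/-- `1/2` -/
def p1 (N : ℕ) : Fin 2 → ℤ := ![0, ((N / 2 : ℕ) : ℤ)]
/-- `τ/2` -/
def p2 (N : ℕ) : Fin 2 → ℤ := ![((N / 2 : ℕ) : ℤ), 0]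
/-- `(τ + 1)/2` -/
def p3 (N : ℕ) : Fin 2 → ℤ := ![((N / 2 : ℕ) : ℤ), ((N / 2 : ℕ) : ℤ)]
/-- `1/4` -/
def p4 (N : ℕ) : Fin 2 → ℤ := ![0, ((N / 4 : ℕ) : ℤ)]

/-- `s'` is `s` with `g` applied to the coefficients -/
def Cf (g : GQ) (s s' : LS) : Prop := ∀ n, ∃ a : Qb, s.coeff n = io a ∧ s'.coeff n = io (g a)

/-- `y` is the conjugate of `x` under `g` -/
def IsGal (g : GQ) (x y : Mer) : Prop :=
  ∃ N, 0 < N ∧ ∃ s s', ExM N s x ∧ ExM N s' y ∧ Cf g s s'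

/-- `g ζ_N = ζ_N ^ k` -/
def Cyc (N : ℕ) (g : GQ) (k : ℤ) : Prop := ∀ a : Qb, io a = ze N 1 → io (g a) = ze N k

/-- **the model** -/
structure Mdl where
  /-- `f ↦ f ∘ A` -/
  pb : ∀ A : M2, 0 < A.det → (FF ≃ₐ[Qb] FF)
  pb_coe : ∀ (A : M2) (hA : 0 < A.det) (x : FF), cv (pb A hA x) = pbz A hA (cv x)
  /-- the action on the coefficients -/
  gal : GQ →* (FF ≃+* FF)
  gal_spec : ∀ (g : GQ) (x : FF), IsGal g (cv x) (cv (gal g x))
  /-- the Hauptmodul of `Γ₀(4)` -/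
  t : FF
  /-- `(℘(v) - ℘(1/2)) / (℘(1/4) - ℘(1/2))` -/
  r : ℕ → (Fin 2 → ℤ) → FF
  base : L G0 = Qb⟮t⟯
  gen : ∀ N, Lv N → L (Gt N) = IntermediateField.adjoin Qb (r N '' {v | NZ N v})
  baseC : MF G0 = ℂ⟮cv t⟯
  genC : ∀ N, Lv N →
    MF (Gt N) = IntermediateField.adjoin ℂ ((fun v => cv (r N v)) '' {v | NZ N v})
  law : ∀ N, Lv N → ∀ v, NZ N v → ∀ γ ∈ G0, act γ⁻¹ (cv (r N v)) = cv (r N (v ᵥ* (γ : M2)))
  rex : ∀ N, Lv N → ∀ v, NZ N v → ∀ γ : SL(2, ℤ),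
    ExM N ((Xs N (v ᵥ* (γ : M2)) - Xs N (p1 N ᵥ* (γ : M2))) /
      (Xs N (p4 N ᵥ* (γ : M2)) - Xs N (p1 N ᵥ* (γ : M2)))) (act γ⁻¹ (cv (r N v)))
  t_eq : ∀ N, Lv N → t = -r N (p2 N) - r N (p3 N)
  tex0 : ∀ N, Lv N → ∀ γ : SL(2, ℤ), (4 : ℤ) ∣ γ 1 0 →
    ∃ s, Good N N s ∧ ExM N (2 + s) (act γ⁻¹ (cv t))
  tex2 : ∀ N, Lv N → ∀ γ : SL(2, ℤ), (4 : ℤ) ∣ γ 1 0 - 2 →
    ∃ s, Good N N s ∧ ExM N (-2 + s) (act γ⁻¹ (cv t))
  tex1 : ∀ N, Lv N → ∀ γ : SL(2, ℤ), Odd (γ 1 0) →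
    ∃ s, Good N (-((N / 4 : ℕ) : ℤ)) s ∧ ExM N s (act γ⁻¹ (cv t))
  hol : ∃ (P : ℍ → ℂ) (hP : P ∈ Hol), cv t = inc P hP ∧
    (∀ τ : ℍ, deriv (P ∘ ofComplex) (τ : ℂ) ≠ 0) ∧ (∀ τ, P τ ≠ 2 ∧ P τ ≠ -2) ∧
    ∀ a : ℂ, a ≠ 2 → a ≠ -2 → ∃ τ, P τ = a

namespace Mdl

variable (X : Mdl)

/-- `f ↦ f ∘ γ` -/
def pg (γ : SL(2, ℤ)) : FF ≃ₐ[Qb] FF := X.pb (γ : M2) (SL_pos γ)

/-- the Hecke operator `T_l` (`d` a diamond matrix, `IsDel 1 N l d`) -/
def T {l : ℕ} (h0 : 0 < l) (d : SL(2, ℤ)) : FF →* FF where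
  toFun x := ∏ i, X.pb (al 1 l d i) (al_pos h0 d i) x
  map_one' := by simp
  map_mul' x y := by simp [Finset.prod_mul_distrib]

/-- the Hecke operator `U_q` -/
def U {q : ℕ} (h0 : 0 < q) : FF →* FF where
  toFun x := ∏ j : Fin q, X.pb (al 1 q 1 (some j)) (al_pos h0 1 (some j)) x
  map_one' := by simp
  map_mul' x y := by simp [Finset.prod_mul_distrib]

end Mdl

end Vale.Agent.P027M.M
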