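import Vale.Agent.P027M.M.Pla
import Vale.Agent.P297Y.An.Crr

/-! # P027 block M: tools for the dimension count (function fields, division of holomorphic
functions, linear disjointness) -/

set_option autoImplicit false

open UpperHalfPlane Matrix Filter Topology
open scoped MatrixGroups Manifold IntermediateField

noncomputable section

namespace Vale.Agent.P027M.M

open Vale.Agent.P022 Vale.Agent.P022.H218.L3 Vale.Agent.P022.H231.L3 Vale.Agent.P022.H236.L3
  Vale.Agent.P022.H542.L3 Vale.Agent.P019P P025H816 P025H492 Vale.Agent.P022.H587.L3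

namespace Dim

/-- the valuation defined by an embedding in Laurent series -/
theorem triv_or_place {k F Ω : Type*} [Field k] [Field F] [Algebra k F] [CFF k F] [Field Ω]
    (φ : F →+* LaurentSeries Ω) (h0 : ∀ c : k, (φ (algebraMap k F c)).order = 0) :
    (∀ x, (φ x).order = 0) ∨ ∃ (Q : Plk k F) (e : ℤ), 0 < e ∧ ∀ x, (φ x).order = e * ord Q x := by
  have hne : ∀ x : F, x ≠ 0 → φ x ≠ 0 := fun x hx => (_root_.map_ne_zero φ).2 hx
  have hmul : ∀ x y : F, x ≠ 0 → y ≠ 0 → (φ (x * y)).order = (φ x).order + (φ y).order := by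
    intro x y hx hy
    rw [map_mul, HahnSeries.order_mul (hne x hx) (hne y hy)]
  have hadd : ∀ x y : F, x + y ≠ 0 → min (φ x).order (φ y).order ≤ (φ (x + y)).order := by
    intro x y hxy
    have := hne _ hxy
    rw [map_add] at this ⊢
    exact HahnSeries.min_order_le_order_add this
  have hz : (φ 0).order = 0 := by rw [map_zero, HahnSeries.order_zero]
  have hone : (φ 1).order = 0 := by rw [map_one, HahnSeries.order_one]
  have hinv : ∀ x : F, (φ x⁻¹).order = -(φ x).order := by
    intro x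
    by_cases hx : x = 0
    · rw [hx, _root_.inv_zero, hz, neg_zero]
    · have := hmul x x⁻¹ hx (inv_ne_zero hx)
      rw [mul_inv_cancel₀ hx, hone] at this
      omega
  have hpow : ∀ (x : F) (n : ℕ), (φ (x ^ n)).order = n * (φ x).order := by
    intro x n
    rw [map_pow, HahnSeries.order_pow, nsmul_eq_mul]
  have hzpow : ∀ (x : F) (n : ℤ), (φ (x ^ n)).order = n * (φ x).order := by
    intro x n
    cases n with
    | ofNat n => rw [Int.ofNat_eq_natCast, _root_.zpow_natCast, hpow]
    | negSucc n =>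
      rw [zpow_negSucc, hinv, hpow, Int.negSucc_eq]
      push_cast
      ring
  let O : ValuationSubring F :=
    { carrier := {x | 0 ≤ (φ x).order}
      mul_mem' := by
        intro x y hx hy
        show 0 ≤ (φ (x * y)).order
        by_cases h : x = 0
        · rw [h, zero_mul, hz]
        by_cases h' : y = 0
        · rw [h', mul_zero, hz]
        rw [hmul x y h h']
        exact add_nonneg hx hy
      one_mem' := hone.ge
      add_mem' := by
        intro x y hx hy
        show 0 ≤ (φ (x + y)).order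
        by_cases h : x + y = 0
        · rw [h, hz]
        exact (le_min hx hy).trans (hadd x y h)
      zero_mem' := hz.ge
      neg_mem' := by
        intro x hx
        show 0 ≤ (φ (-x)).order
        rw [map_neg, HahnSeries.order_neg]
        exact hx
      mem_or_inv_mem' := by
        intro x
        show 0 ≤ (φ x).order ∨ 0 ≤ (φ x⁻¹).order
        rw [hinv]
        omega }
  have hO : ∀ x, x ∈ O ↔ 0 ≤ (φ x).order := fun x => Iff.rfl
  by_cases hT : O = ⊤
  · left
    intro x
    have h1 : x ∈ O := hT ▸ ValuationSubring.mem_top _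
    have h2 : x⁻¹ ∈ O := hT ▸ ValuationSubring.mem_top _
    rw [hO] at h1 h2
    rw [hinv] at h2
    omega
  right
  let Q : Plk k F := ⟨O, fun a => (h0 a).ge, hT⟩
  have hQ : ∀ x, x ≠ 0 → (0 ≤ (φ x).order ↔ 0 ≤ ord Q x) := by
    intro x hx
    rw [← hO]
    exact (mem_iff_ord Q x).trans (or_iff_right hx)
  obtain ⟨π, hπ0, hπ⟩ := exists_unif Q
  refine ⟨Q, (φ π).order, ?_, fun x => ?_⟩
  · have := (hQ π⁻¹ (inv_ne_zero hπ0)).not
    rw [hinv, P019P.ord_inv, hπ] at this
    have h1 := this.2 (by omega)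
    omega
  · by_cases hx : x = 0
    · rw [hx, hz, ord_zero, mul_zero]
    have hp : π ^ (-ord Q x) ≠ 0 := zpow_ne_zero _ hπ0
    have hu : x * π ^ (-ord Q x) ≠ 0 := mul_ne_zero hx hp
    have h1 : ord Q (x * π ^ (-ord Q x)) = 0 := by
      rw [P019P.ord_mul Q hx hp, P019P.ord_zpow, hπ]
      ring
    have h2 := (hQ _ hu).2 h1.ge
    have h3 := (hQ _ (inv_ne_zero hu)).2 (by rw [P019P.ord_inv, h1]; rfl)
    rw [hinv] at h3
    rw [hmul _ _ hx hp, hzpow] at h2 h3
    linarith

section alg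
variable {k K : Type*} [Field k] [Field K] [Algebra k K] [CFF k K]

/-- the place lies over `2`, `-2` or `∞` -/
def Cs (t : K) (P : Plk k K) : Prop :=
  0 < ord P (t - algebraMap k K 2) ∨ 0 < ord P (t - algebraMap k K (-2)) ∨ ord P t < 0

theorem ord_sub_pole {P : Plk k K} {t : K} (h : ord P t < 0) (c : k) :
    ord P (t - algebraMap k K c) = ord P t := by
  have h0 : t ≠ 0 := by
    rintro rfl
    rw [ord_zero] at h
    omega
  rw [sub_eq_add_neg]
  refine (ord_add_of_lt h0 (mem_Mge.2 (Or.inr ?_))).2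
  rw [P019P.ord_neg, ord_const]
  omega

theorem ord_sub_nonneg {P : Plk k K} {t : K} (h : 0 ≤ ord P t) (c : k) :
    0 ≤ ord P (t - algebraMap k K c) :=
  ord_nonneg_of_mem P (sub_mem ((mem_iff_ord P t).2 (Or.inr h)) (P.2.1 c))

theorem diff_ord [CharZero k] {t : K} (ht : ∀ a : k, t ≠ algebraMap k K a)
    (H : ∀ (P : Plk k K) (a : k), a ≠ 2 → a ≠ -2 → 0 < ord P (t - algebraMap k K a) →
      ord P (t - algebraMap k K a) = 1) {y : K} (hy0 : y ≠ 0) (hy : y ∈ LL k (wdv k t))
    (P : Plk k K) :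
    -pol k t P ≤ ord P (y * ((t - algebraMap k K 2) * (t - algebraMap k K (-2)))) ∧
    (Cs t P → 1 - pol k t P ≤ ord P (y * ((t - algebraMap k K 2) * (t - algebraMap k K (-2))))) := by
  have n1 := sub_ne_zero.2 (ht 2)
  have n2 := sub_ne_zero.2 (ht (-2))
  have h1 := ((mem_LL.1 hy).resolve_left hy0) P
  rw [wdv_apply ht, wd] at h1
  rw [P019P.ord_mul P hy0 (mul_ne_zero n1 n2), P019P.ord_mul P n1 n2, pol_apply]
  split_ifs at h1 with h
  · have h2 := ord_sub_nonneg h 2
    have h3 := ord_sub_nonneg h (-2)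
    have h4 := ord_sub_vl_pos ht h
    by_cases e1 : vl P t = 2
    · rw [e1] at h1 h4
      exact ⟨by omega, fun _ => by omega⟩
    by_cases e2 : vl P t = -2
    · rw [e2] at h1 h4
      exact ⟨by omega, fun _ => by omega⟩
    rw [H P _ e1 e2 h4] at h1
    refine ⟨by omega, ?_⟩
    rintro (h5 | h5 | h5)
    · exact absurd (vl_eq_of_pos h5) e1
    · exact absurd (vl_eq_of_pos h5) e2
    · omega
  · rw [ord_sub_pole (not_le.1 h), ord_sub_pole (not_le.1 h)]
    exact ⟨by omega, fun _ => by omega⟩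

theorem count [CharZero k] {t : K} (ht : ∀ a : k, t ≠ algebraMap k K a) :
    Module.finrank k⟮t⟯ K + 1 ≤
      Module.finrank k (LL k (pol k t)) + Module.finrank k (LL k (wdv k t)) := by
  have h1 := RR (pol k t)
  rw [dg_pol ht] at h1
  rw [P297Y.Crr.l_wdv ht]
  omega

end alg

/-- division of holomorphic functions -/
theorem exists_div {g h : ℍ → ℂ} (hg : g ∈ Hol) (hh : h ∈ Hol) (g0 : g ≠ 0) (h0 : h ≠ 0)
    (H : ∀ τ, om τ h ≤ om τ g) : ∃ Y ∈ Hol, Y * h = g := by
  have ag : ∀ z ∈ {z : ℂ | 0 < z.im}, AnalyticAt ℂ (g ∘ ofComplex) z :=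
    fun z hz => analyticAt_of_mdiff hg hz
  have ah : ∀ z ∈ {z : ℂ | 0 < z.im}, AnalyticAt ℂ (h ∘ ofComplex) z :=
    fun z hz => analyticAt_of_mdiff hh hz
  have hm : MeromorphicOn (g ∘ ofComplex / h ∘ ofComplex) {z : ℂ | 0 < z.im} :=
    fun z hz => (ag z hz).meromorphicAt.div (ah z hz).meromorphicAt
  obtain ⟨F, hF⟩ : ∃ F, F = toMeromorphicNFOn (g ∘ ofComplex / h ∘ ofComplex) {z : ℂ | 0 < z.im} :=
    ⟨_, rfl⟩
  have aF : ∀ z ∈ {z : ℂ | 0 < z.im}, AnalyticAt ℂ F z := by
    intro z hz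
    rw [hF, ← (meromorphicNFOn_toMeromorphicNFOn _ _ hz).meromorphicOrderAt_nonneg_iff_analyticAt,
      meromorphicOrderAt_toMeromorphicNFOn hm hz,
      meromorphicOrderAt_div (ag z hz).meromorphicAt (ah z hz).meromorphicAt,
      (ag z hz).meromorphicOrderAt_eq, (ah z hz).meromorphicOrderAt_eq]
    have e1 := om_eq hg g0 ⟨z, hz⟩
    have e2 := om_eq hh h0 ⟨z, hz⟩
    have h1 := H ⟨z, hz⟩
    change analyticOrderAt _ z = _ at e1 e2
    rw [e1, e2, ENat.map_coe, ENat.map_coe, ← WithTop.LinearOrderedAddCommGroup.coe_sub]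
    exact_mod_cast sub_nonneg.2 (Int.ofNat_le.2 h1)
  refine ⟨fun τ => F τ, ?_, ?_⟩
  · rw [mem_Hol, UpperHalfPlane.mdifferentiable_iff]
    intro z hz
    refine ((aF z hz).differentiableAt.congr_of_eventuallyEq ?_).differentiableWithinAt
    filter_upwards [isOpen_upperHalfPlaneSet.mem_nhds hz] with w hw
    rw [Function.comp_apply, ofComplex_apply_of_im_pos hw]
  · funext τ
    have h1 := hm.toMeromorphicNFOn_eq_self_on_nhdsNE τ.im_pos
    rw [← hF] at h1
    have h2 : ∀ᶠ w in 𝓝[≠] (τ : ℂ), (h ∘ ofComplex) w ≠ 0 :=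
      ((ah τ τ.im_pos).eventually_eq_zero_or_eventually_ne_zero).resolve_left fun e =>
        order_ne_top hh h0 τ (analyticOrderAt_eq_top.2 e)
    have h3 := tendsto_nhds_unique_of_eventuallyEq
      (((aF τ τ.im_pos).mul (ah τ τ.im_pos)).continuousAt.tendsto.mono_left
        (nhdsWithin_le_nhds (s := {(τ : ℂ)}ᶜ)))
      ((ag τ τ.im_pos).continuousAt.tendsto.mono_left nhdsWithin_le_nhds) (by
        filter_upwards [h1, h2] with w e1 e2
        rw [Pi.mul_apply, e1, Pi.div_apply, div_mul_cancel₀ _ e2])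
    simpa using h3

/-- algebraic series which are independent over `Qb` are independent over `ℂ` -/
theorem indep_series {ι : Type*} [Fintype ι] (s : ι → LaurentSeries Qb)
    (hs : ∀ a : ι → Qb, ∑ i, HahnSeries.C (a i) * s i = 0 → ∀ i, a i = 0) (c : ι → ℂ)
    (hc : ∑ i, HahnSeries.C (c i) * ioL (s i) = 0) (i : ι) : c i = 0 := by
  letI : Algebra Qb ℂ := (io : Qb →+* ℂ).toAlgebra
  rw [← Module.forall_dual_apply_eq_zero_iff Qb]
  intro l
  refine hs (fun j => l (c j)) ?_ i
  ext n
  have h1 := congrArg (fun x => l (HahnSeries.coeff x n)) hc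
  simp only [HahnSeries.coeff_sum, HahnSeries.C_mul_eq_smul, HahnSeries.coeff_smul, coeff_ioL,
    HahnSeries.coeff_zero, map_zero, map_sum, smul_eq_mul] at h1 ⊢
  rw [← h1]
  refine Finset.sum_congr rfl fun j _ => ?_
  have : c j * io ((s j).coeff n) = (s j).coeff n • c j := mul_comm _ _
  rw [this, map_smul, smul_eq_mul, mul_comm]

end Dim

end Vale.Agent.P027M.M
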