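import Vale.Agent.P027M.M.A3

/-!
# P027 block M: the generators as elements of `FF`
-/

set_option autoImplicit false

open UpperHalfPlane hiding I
open Matrix Filter Topology Function.Periodic
open scoped MatrixGroups Manifold ModularForm Real IntermediateField

noncomputable section

namespace Vale.Agent.P027M.M

open Vale.Agent.P022 Vale.Agent.P022.H218.L3 Vale.Agent.P022.H231.L3 Vale.Agent.P022.H236.L3
  Vale.Agent.P022.H542.L3 Vale.Agent.P027H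

namespace Pre

theorem ze_pow (N : ℕ) (b : ℤ) : ze N b = ze N 1 ^ b := by
  rw [ze, ze, ← Complex.exp_int_mul]
  congr 1
  push_cast
  ring

theorem ze_prim {N : ℕ} (hN : 0 < N) : IsPrimitiveRoot (ze N 1) N := by
  have := Complex.isPrimitiveRoot_exp N hN.ne'
  rw [ze]
  simpa using this

theorem exists_io_ze {N : ℕ} (hN : 0 < N) : ∃ a : Qb, io a = ze N 1 := by
  have : NeZero N := ⟨hN.ne'⟩
  have : NeZero ((N : ℕ) : Qb) := ⟨by exact_mod_cast hN.ne'⟩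
  obtain ⟨z, hz⟩ := HasEnoughRootsOfUnity.exists_primitiveRoot Qb N
  have h1 : IsPrimitiveRoot (io z) N := hz.map_of_injective (io : Qb →+* ℂ).injective
  obtain ⟨i, -, hi⟩ := h1.eq_pow_of_pow_eq_one (ze_prim hN).pow_eq_one
  exact ⟨z ^ i, by rw [map_pow, hi]⟩

theorem io_ze {N : ℕ} (hN : 0 < N) (b : ℤ) : ze N b ∈ (io : Qb →+* ℂ).fieldRange := by
  obtain ⟨a, ha⟩ := exists_io_ze hN
  rw [ze_pow]
  exact zpow_mem (show ze N 1 ∈ (io : Qb →+* ℂ).fieldRange from ⟨a, ha⟩) b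

theorem io_Xc {N : ℕ} (hN : 0 < N) (v : Fin 2 → ℤ) (k : ℕ) :
    Xc N v k ∈ (io : Qb →+* ℂ).fieldRange := by
  unfold Xc
  split_ifs
  · exact div_mem (io_ze hN _) (pow_mem (sub_mem (one_mem _) (io_ze hN _)) _)
  · exact zero_mem _
  · refine sum_mem fun j _ => add_mem ?_ ?_ <;> split_ifs
    · exact mul_mem (natCast_mem _ _) (io_ze hN _)
    · exact zero_mem _
    · exact mul_mem (natCast_mem _ _) (io_ze hN _)
    · exact zero_mem _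

theorem alg_Xs {N : ℕ} (hN : 0 < N) (v : Fin 2 → ℤ) : Alg (Xs N v) := by
  intro n
  rcases lt_or_ge n 0 with h | h
  · exact ⟨0, by rw [Xs, coeff_ls_of_lt 0 _ h, map_zero]⟩
  · obtain ⟨k, rfl⟩ : ∃ k : ℕ, n = 0 + k := ⟨n.toNat, by omega⟩
    obtain ⟨a, ha⟩ := io_Xc hN v k
    exact ⟨a, by rw [Xs, coeff_ls, PowerSeries.coeff_mk]; exact ha.symm⟩

theorem alg_sub {s s' : LS} (h : Alg s) (h' : Alg s') : Alg (s - s') := by
  obtain ⟨x, rfl⟩ := alg_iff.1 h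
  obtain ⟨y, rfl⟩ := alg_iff.1 h'
  exact alg_iff.2 ⟨x - y, map_sub _ _ _⟩

theorem alg_div {s s' : LS} (h : Alg s) (h' : Alg s') : Alg (s / s') := by
  rw [div_eq_mul_inv]
  exact h.mul h'.inv

theorem nz_of {N : ℕ} {v : Fin 2 → ℤ} (i : Fin 2) (h0 : v i ≠ 0) (h : |v i| < N) : NZ N v :=
  fun hv => h0 (Int.eq_zero_of_abs_lt_dvd (hv i) h)

section
variable {N : ℕ} (h : Lv N)
include h

theorem nz1 : NZ N (p1 N) := by
  obtain ⟨h0, k, rfl⟩ := h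
  refine nz_of 1 ?_ ?_ <;> simp only [p1, cons_val_one, cons_val_zero, abs_lt] <;> omega

theorem nz2 : NZ N (p2 N) := by
  obtain ⟨h0, k, rfl⟩ := h
  refine nz_of 0 ?_ ?_ <;> simp only [p2, cons_val_zero, abs_lt] <;> omega

theorem nz3 : NZ N (p3 N) := by
  obtain ⟨h0, k, rfl⟩ := h
  refine nz_of 0 ?_ ?_ <;> simp only [p3, cons_val_zero, abs_lt] <;> omega

theorem nz4 : NZ N (p4 N) := by
  obtain ⟨h0, k, rfl⟩ := h
  refine nz_of 1 ?_ ?_ <;> simp only [p4, cons_val_one, cons_val_zero, abs_lt] <;> omega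

theorem nz41 : NZ N (p4 N - p1 N) := by
  obtain ⟨h0, k, rfl⟩ := h
  refine nz_of 1 ?_ ?_ <;>
    simp only [p4, p1, Pi.sub_apply, cons_val_one, cons_val_zero, abs_lt] <;> omega

theorem nz41' : NZ N (p4 N + p1 N) := by
  obtain ⟨h0, k, rfl⟩ := h
  refine nz_of 1 ?_ ?_ <;>
    simp only [p4, p1, Pi.add_apply, cons_val_one, cons_val_zero, abs_lt] <;> omega

theorem xv1 : xv N (p1 N) = xv 4 (p1 4) := by
  obtain ⟨h0, k, rfl⟩ := h
  refine xv_level h0 (by norm_num) ?_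
  rw [Fin.forall_fin_two]
  simp only [p1, cons_val_one, cons_val_zero]
  omega

theorem xv2 : xv N (p2 N) = xv 4 (p2 4) := by
  obtain ⟨h0, k, rfl⟩ := h
  refine xv_level h0 (by norm_num) ?_
  rw [Fin.forall_fin_two]
  simp only [p2, cons_val_one, cons_val_zero]
  omega

theorem xv3 : xv N (p3 N) = xv 4 (p3 4) := by
  obtain ⟨h0, k, rfl⟩ := h
  refine xv_level h0 (by norm_num) ?_
  rw [Fin.forall_fin_two]
  simp only [p3, cons_val_one, cons_val_zero]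
  omega

theorem xv4 : xv N (p4 N) = xv 4 (p4 4) := by
  obtain ⟨h0, k, rfl⟩ := h
  refine xv_level h0 (by norm_num) ?_
  rw [Fin.forall_fin_two]
  simp only [p4, cons_val_one, cons_val_zero]
  omega

theorem Af_eq : Af = Wf N (p4 N) (p1 N) := by
  funext τ
  rw [Af, Wf, Wf, xv4 h, xv1 h]

end

theorem lv4 : Lv 4 := ⟨by norm_num, dvd_rfl⟩

theorem Af_ne (τ : ℍ) : Af τ ≠ 0 :=
  Wf_ne (by norm_num) (nz4 lv4) (nz1 lv4) (nz41 lv4) (nz41' lv4) τ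

theorem Af_ne' : Af ≠ 0 := fun h => Af_ne UpperHalfPlane.I (congrFun h _)

theorem Wf_hol {N : ℕ} (hN : 0 < N) {v w : Fin 2 → ℤ} (hv : NZ N v) (hw : NZ N w) :
    Wf N v w ∈ Hol := (sa3 N hN v w hv hw).1.1

theorem Af_hol : Af ∈ Hol := Wf_hol (by norm_num) (nz4 lv4) (nz1 lv4)

/-- `v γ ≡ ± v` for `γ` in `± Γ(N)` -/
theorem xv_Gt {N : ℕ} (hN : 0 < N) (v : Fin 2 → ℤ) {γ : SL(2, ℤ)} (hγ : γ ∈ Gt N) :
    xv N (v ᵥ* (γ : M2)) = xv N v := by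
  obtain ⟨e, he, ⟨a, ha⟩, ⟨b, hb⟩, ⟨c, hc⟩, ⟨d, hd⟩⟩ := mem_Gp'.1 hγ
  rcases mul_self_eq_one_iff.1 he with rfl | rfl
  · refine xv_congr hN fun hz => hz ?_
    rw [Fin.forall_fin_two, Pi.sub_apply, Pi.sub_apply, vm0, vm1]
    exact ⟨⟨v 0 * c + v 1 * b, by linear_combination v 0 * hc + v 1 * hb⟩,
      ⟨v 0 * a + v 1 * d, by linear_combination v 0 * ha + v 1 * hd⟩⟩
  · refine xv_congr' hN fun hz => hz ?_
    rw [Fin.forall_fin_two, Pi.add_apply, Pi.add_apply, vm0, vm1]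
    exact ⟨⟨v 0 * c + v 1 * b, by linear_combination v 0 * hc + v 1 * hb⟩,
      ⟨v 0 * a + v 1 * d, by linear_combination v 0 * ha + v 1 * hd⟩⟩

/-- `W(v, w)` is a modular form of weight two for `± Γ(N)` -/
theorem Wf_isMF {N : ℕ} (hN : 0 < N) {v w : Fin 2 → ℤ} (hv : NZ N v) (hw : NZ N w) :
    IsMF (Gt N) 2 (Wf N v w) :=
  (sa3 N hN v w hv hw).1.isMF fun γ hγ => by
    rw [Wf_slash]
    funext τ
    rw [Wf, Wf, xv_Gt hN v hγ, xv_Gt hN w hγ]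

section
variable {N : ℕ} (h : Lv N)
include h

theorem rM_eq {v : Fin 2 → ℤ} (hv : NZ N v) : rM N v =
    inc _ (Wf_hol h.pos hv (nz1 h)) / inc _ (Wf_hol h.pos (nz4 h) (nz1 h)) := by
  rw [rM, Af_eq h, ic_eq (Wf_hol h.pos hv (nz1 h)), ic_eq (Wf_hol h.pos (nz4 h) (nz1 h))]

theorem rM_mem {v : Fin 2 → ℤ} (hv : NZ N v) : rM N v ∈ MF (Gt N) :=
  ⟨2, _, _, Wf_isMF h.pos hv (nz1 h), Wf_isMF h.pos (nz4 h) (nz1 h),
    by rw [← Af_eq h]; exact Af_ne', rM_eq h hv⟩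

theorem act_rM {v : Fin 2 → ℤ} (hv : NZ N v) (γ : SL(2, ℤ)) : act γ⁻¹ (rM N v) =
    inc _ (Wf_hol h.pos (hv.vecMul γ) ((nz1 h).vecMul γ)) /
      inc _ (Wf_hol h.pos ((nz4 h).vecMul γ) ((nz1 h).vecMul γ)) := by
  rw [rM_eq h hv, act_div γ⁻¹ 2 _ _ (by rw [← Af_eq h]; exact Af_ne')]
  congr 1
  · exact inc_congr _ (by rw [inv_inv, Wf_slash])
  · exact inc_congr _ (by rw [inv_inv, Wf_slash])

/-- the expansions at all cusps -/
theorem rex {v : Fin 2 → ℤ} (hv : NZ N v) (γ : SL(2, ℤ)) :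
    ExM N ((Xs N (v ᵥ* (γ : M2)) - Xs N (p1 N ᵥ* (γ : M2))) /
      (Xs N (p4 N ᵥ* (γ : M2)) - Xs N (p1 N ᵥ* (γ : M2)))) (act γ⁻¹ (rM N v)) := by
  rw [act_rM h hv]
  refine ExL.exM _ _ ?_ (sa3 N h.pos _ _ (hv.vecMul γ) ((nz1 h).vecMul γ)).2
    (sa3 N h.pos _ _ ((nz4 h).vecMul γ) ((nz1 h).vecMul γ)).2
  rw [← Wf_slash, ← Af_eq h]
  exact slash_ne_zero Af_ne' γ

theorem xv1_G0 {γ : SL(2, ℤ)} (hγ : γ ∈ G0) : xv N (p1 N ᵥ* (γ : M2)) = xv N (p1 N) := by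
  obtain ⟨c, hc⟩ := (ZMod.intCast_zmod_eq_zero_iff_dvd _ 4).1 (CongruenceSubgroup.Gamma0_mem.1 hγ)
  have hd := det_eq γ
  obtain ⟨d, hd'⟩ : ∃ d, γ 1 1 = 2 * d + 1 := by
    rcases Int.even_or_odd' (γ 1 1) with ⟨d, e | e⟩
    · exfalso
      rw [e, hc] at hd
      have : (2 : ℤ) ∣ 1 := ⟨γ 0 0 * d - γ 0 1 * (2 * c), by push_cast at hd; linear_combination -hd⟩
      omega
    · exact ⟨d, e⟩
  obtain ⟨h0, k, rfl⟩ := h
  refine xv_congr h0 fun hz => hz ?_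
  rw [Fin.forall_fin_two, Pi.sub_apply, Pi.sub_apply, vm0, vm1, hc, hd']
  have e : ((4 * k / 2 : ℕ) : ℤ) = 2 * k := by omega
  simp only [p1, cons_val_one, cons_val_zero, e]
  exact ⟨⟨2 * c, by push_cast; ring⟩, ⟨d, by push_cast; ring⟩⟩

theorem xv4_G0 {γ : SL(2, ℤ)} (hγ : γ ∈ G0) : xv N (p4 N ᵥ* (γ : M2)) = xv N (p4 N) := by
  obtain ⟨c, hc⟩ := (ZMod.intCast_zmod_eq_zero_iff_dvd _ 4).1 (CongruenceSubgroup.Gamma0_mem.1 hγ)
  have hd := det_eq γ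
  obtain ⟨d, hd'⟩ : ∃ d, γ 1 1 = 4 * d + 1 ∨ γ 1 1 = 4 * d - 1 := by
    rcases Int.even_or_odd' (γ 1 1) with ⟨d, e | e⟩
    · exfalso
      rw [e, hc] at hd
      have : (2 : ℤ) ∣ 1 := ⟨γ 0 0 * d - γ 0 1 * (2 * c), by push_cast at hd; linear_combination -hd⟩
      omega
    · rcases Int.even_or_odd' d with ⟨f, e' | e'⟩
      · exact ⟨f, Or.inl (by omega)⟩
      · exact ⟨f + 1, Or.inr (by omega)⟩
  obtain ⟨h0, k, rfl⟩ := h
  have e : ((4 * k / 4 : ℕ) : ℤ) = k := by omega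
  rcases hd' with hd' | hd'
  · refine xv_congr h0 fun hz => hz ?_
    rw [Fin.forall_fin_two, Pi.sub_apply, Pi.sub_apply, vm0, vm1, hc, hd']
    simp only [p4, cons_val_one, cons_val_zero, e]
    exact ⟨⟨c, by push_cast; ring⟩, ⟨d, by push_cast; ring⟩⟩
  · refine xv_congr' h0 fun hz => hz ?_
    rw [Fin.forall_fin_two, Pi.add_apply, Pi.add_apply, vm0, vm1, hc, hd']
    simp only [p4, cons_val_one, cons_val_zero, e]
    exact ⟨⟨c, by push_cast; ring⟩, ⟨d, by push_cast; ring⟩⟩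

/-- the law under `Γ₀(4)` -/
theorem law {v : Fin 2 → ℤ} (hv : NZ N v) {γ : SL(2, ℤ)} (hγ : γ ∈ G0) :
    act γ⁻¹ (rM N v) = rM N (v ᵥ* (γ : M2)) := by
  rw [act_rM h hv, rM_eq h (hv.vecMul γ)]
  congr 1
  · exact inc_congr _ (by funext τ; rw [Wf, Wf, xv1_G0 h hγ])
  · exact inc_congr _ (by funext τ; rw [Wf, Wf, xv1_G0 h hγ, xv4_G0 h hγ])

theorem t_eq : tM = -rM N (p2 N) - rM N (p3 N) := by
  have h2 := Wf_hol h.pos (nz2 h) (nz1 h)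
  have h3 := Wf_hol h.pos (nz3 h) (nz1 h)
  have e : Bf = -(Wf N (p2 N) (p1 N) + Wf N (p3 N) (p1 N)) := by
    funext τ
    simp only [Bf, alf, bef, Pi.add_apply, Pi.neg_apply, Wf, xv1 h, xv2 h, xv3 h]
    ring
  have hB : Bf ∈ Hol := e ▸ Hol.neg_mem (Hol.add_mem h2 h3)
  have e2 : inc Bf hB = -(inc _ h2 + inc _ h3) := by
    rw [← inc_add h2 h3, inc, inc, ← map_neg]
    exact congrArg _ (Subtype.ext e)
  rw [tM, rM, rM, ic_eq hB, ic_eq h2, ic_eq h3, e2]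
  ring

theorem rM_FS {v : Fin 2 → ℤ} (hv : NZ N v) : rM N v ∈ FS := by
  refine ⟨N, h.pos, MF_mono (Gamma_le _ N dvd_rfl) (rM_mem h hv), ?_⟩
  have := rex h hv 1
  rw [inv_one, map_one, AlgEquiv.one_apply] at this
  exact ⟨_, this, alg_div (alg_sub (alg_Xs h.pos _) (alg_Xs h.pos _))
    (alg_sub (alg_Xs h.pos _) (alg_Xs h.pos _))⟩

end

theorem tM_FS : tM ∈ FS := by
  rw [t_eq lv4]
  exact sub_mem (neg_mem (rM_FS lv4 (nz2 lv4))) (rM_FS lv4 (nz3 lv4))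

theorem Bf_hol : Bf ∈ Hol :=
  Hol.add_mem (Wf_hol (by norm_num) (nz1 lv4) (nz2 lv4)) (Wf_hol (by norm_num) (nz1 lv4) (nz3 lv4))

theorem tf_hol : tf ∈ Hol := (mem_Hol.1 Bf_hol).div (mem_Hol.1 Af_hol) Af_ne

theorem tM_eq : tM = inc tf tf_hol := by
  rw [tM, ic_eq Bf_hol, ic_eq Af_hol, div_eq_iff (inc_ne_zero Af_hol Af_ne'), ← inc_mul]
  refine inc_congr _ ?_
  funext τ
  rw [Pi.mul_apply, tf, div_mul_cancel₀ _ (Af_ne τ)]

theorem gaf_ne (τ : ℍ) : gaf τ ≠ 0 := by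
  have hπ : (Real.pi : ℂ) ≠ 0 := by exact_mod_cast Real.pi_ne_zero
  refine Wf_ne (by norm_num) (nz3 lv4) (nz2 lv4) ?_ ?_ τ
  · exact nz_of 1 (by simp [p3, p2]) (by simp [p3, p2])
  · exact nz_of 1 (by simp [p3, p2]) (by simp [p3, p2])

theorem tf_ne (h1 : SB1) (τ : ℍ) : tf τ ≠ 2 ∧ tf τ ≠ -2 := by
  have e : gaf τ = alf τ - bef τ := by
    simp only [gaf, alf, bef, Wf]
    ring
  have e2 : tf τ * Af τ = alf τ + bef τ := by
    rw [tf, div_mul_cancel₀ _ (Af_ne τ)]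
    rfl
  have e3 := h1.1 τ
  constructor <;> intro e4 <;> rw [e4] at e2 <;> apply pow_ne_zero 2 (gaf_ne τ) <;> rw [e]
  · linear_combination (-(alf τ + bef τ) - 2 * Af τ) * e2 + 4 * e3
  · linear_combination (-(alf τ + bef τ) + 2 * Af τ) * e2 + 4 * e3

end Pre

/-- the Hauptmodul in `FF` -/
def tF : FF := mkF tM Pre.tM_FS

open Classical in
/-- the generators in `FF` -/
def rF (N : ℕ) (v : Fin 2 → ℤ) : FF := if h : rM N v ∈ FS then mkF _ h else 0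

theorem cv_tF : cv tF = tM := rfl

theorem cv_rF {N : ℕ} (h : Lv N) {v : Fin 2 → ℤ} (hv : NZ N v) : cv (rF N v) = rM N v := by
  rw [rF, dif_pos (Pre.rM_FS h hv), cv_mkF]

end Vale.Agent.P027M.M
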