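import Vale.Agent.P027M.M.Dim1
import Vale.Agent.P027M.M.Pre0
import Vale.Agent.P027M.M.A4
import Vale.Agent.P027M.M.B1
import Vale.Agent.P027M.M.B3
import Vale.Agent.P027M.M.B4

/-! # P027 block M: `dim M₂(Γ) + dim S₂(Γ) ≥ [Γ₀(4) : Γ] + 1` by the theorem of Riemann and Roch -/

set_option autoImplicit false

open UpperHalfPlane Matrix Filter Topology
open scoped MatrixGroups Manifold IntermediateField ModularForm

noncomputable section

namespace Vale.Agent.P027M.M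

open Vale.Agent.P022 Vale.Agent.P022.H218.L3 Vale.Agent.P022.H231.L3 Vale.Agent.P022.H236.L3
  Vale.Agent.P022.H542.L3 Vale.Agent.P019P P025H816 P025H492 Vale.Agent.P022.H587.L3

/-- the lower bound for the dimensions -/
def DIMS : Prop := ∀ (N : ℕ) (Γ : Subgroup SL(2, ℤ)), Mid N Γ →
  ∃ (a b : ℕ) (f : Fin a → ℍ → ℂ) (g : Fin b → ℍ → ℂ), (∀ i, IsMF Γ 2 (f i)) ∧
    (∀ j, IsMF Γ 2 (g j) ∧ ∀ c : SL(2, ℤ), IsZeroAtImInfty (g j ∣[(2 : ℤ)] c)) ∧
    LinearIndependent ℂ f ∧ LinearIndependent ℂ g ∧ Γ.relIndex G0 + 1 ≤ a + b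

namespace Dim

theorem exL_of_exM {N : ℕ} (hN : N ≠ 0) {f : ℍ → ℂ} (hf : f ∈ Hol) {s : LS}
    (h : ExM N s (inc f hf)) : ExL N s f := by
  obtain ⟨g, k, hg, hk, G, H, h0, hG, hH, e, rfl⟩ := h
  have n := hH.ne_zero hk h0
  rw [eq_div_iff (inc_ne_zero hk h0), ← inc_mul] at e
  have e1 := inc_injective _ _ e
  refine (hG.div hN hH n).congr ?_
  filter_upwards [(hH.inv hN n).1] with τ hτ
  rw [Pi.div_apply, ← e1, Pi.mul_apply, mul_div_cancel_right₀ _ hτ]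

theorem tendsto_of_exL {N : ℕ} (hN : N ≠ 0) {f : ℍ → ℂ} {s : LS} (h : ExL N s f)
    (h0 : 0 ≤ s.order) : Tendsto f atImInfty (𝓝 (s.coeff 0)) := by
  have e : s = ls 0 (PowerSeries.mk fun n => s.coeff n) := by
    apply ls_ext
    · intro n
      simp
    · intro k hk
      exact HahnSeries.coeff_eq_zero_of_lt_order (hk.trans_le h0)
  rw [e] at h
  have := B4.exq_tendsto hN h.exq
  simpa using this

variable (X : Mdl) {N : ℕ} {Γ : Subgroup SL(2, ℤ)}

theorem cv_pg (γ : SL(2, ℤ)) (x : FF) : cv (X.pg γ x) = act γ⁻¹ (cv x) := by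
  rw [Mdl.pg, X.pb_coe, pbz_SL]

include X in
/-- the expansion at the cusp `γ ∞` -/
theorem exists_phi (hE : EXP) (hG : GRP) (h : Mid N Γ) (γ : SL(2, ℤ)) :
    ∃ φ : L Γ →+* LS, ∀ x : L Γ, ExM N (φ x) (act γ⁻¹ (cv (x : FF))) ∧ Alg (φ x) := by
  have : NeZero N := ⟨h.lv.pos.ne'⟩
  obtain ⟨-, hn, -, -, hT, -⟩ := hG N h.lv
  have key : ∀ x : L Γ, ∃ s, ExM N s (act γ⁻¹ (cv (x : FF))) ∧ Alg s := by
    intro x
    rw [← cv_pg X]
    refine hE.2.2.1 N _ h.lv.pos ?_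
    have h1 := x.2 _ (h.lo (hn γ _ hT))
    rw [cv_pg, ← AlgEquiv.mul_apply, ← map_mul,
      show ModularGroup.T ^ N * γ⁻¹ = γ⁻¹ * (γ * ModularGroup.T ^ N * γ⁻¹) by group, map_mul,
      AlgEquiv.mul_apply, h1]
  let ψ : L Γ →+* Mer := ((act γ⁻¹ : Mer ≃ₐ[ℂ] Mer) : Mer →+* Mer).comp
    ((cv : FF →+* Mer).comp (L Γ).val)
  have hψ : ∀ x, ψ x ∈ EF N := fun x => (key x).imp fun s hs => hs.1
  refine ⟨(tex N : EF N →+* LS).comp (ψ.codRestrict (EF N) hψ), fun x => ?_⟩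
  obtain ⟨s, h1, h2⟩ := key x
  have e : tex N (ψ.codRestrict (EF N) hψ x) = s := tex_eq h1
  have e' : ((tex N : EF N →+* LS).comp (ψ.codRestrict (EF N) hψ)) x = s := e
  rw [e']
  exact ⟨h1, h2⟩

omit X in
theorem phi_const (hN : N ≠ 0) {γ : SL(2, ℤ)} {φ : L Γ →+* LS}
    (hφ : ∀ x : L Γ, ExM N (φ x) (act γ⁻¹ (cv (x : FF)))) (c : Qb) :
    φ (algebraMap Qb (L Γ) c) = HahnSeries.C (io c) := by
  refine (hφ _).unique hN ?_
  have : ((algebraMap Qb (L Γ) c : L Γ) : FF) = algebraMap Qb FF c := rfl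
  rw [this, cv_alg, AlgEquiv.commutes]
  exact ExM.const N _

omit X in
theorem goodA (h : Lv N) (γ : SL(2, ℤ)) :
    ∃ m : ℕ, Good N m (Xs N (p4 N ᵥ* (γ : M2)) - Xs N (p1 N ᵥ* (γ : M2))) ∧
      (Odd (γ 1 0) → m = N / 4) := by
  refine ⟨_, (sa4 N h.pos).2 _ _ ((Pre.nz4 h).vecMul γ) ((Pre.nz1 h).vecMul γ)
    (by rw [← sub_vecMul]; exact (Pre.nz41 h).vecMul γ)
    (by rw [← add_vecMul]; exact (Pre.nz41' h).vecMul γ), fun hc => ?_⟩
  obtain ⟨h0, n, rfl⟩ := h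
  obtain ⟨c, hc⟩ := hc
  have e1 : A.ab (red (4 * n) (p4 (4 * n) ᵥ* (γ : M2))).1 = n := by
    refine B3.ab_cast h0 (by omega) ?_
    rw [vm0, B3.P4, hc]
    simp only [cons_val_zero, cons_val_one]
    rcases Int.even_or_odd' c with ⟨d, rfl | rfl⟩
    · exact Or.inl ⟨d, by push_cast; ring⟩
    · exact Or.inr ⟨d + 1, by push_cast; ring⟩
  have e2 : A.ab (red (4 * n) (p1 (4 * n) ᵥ* (γ : M2))).1 = 2 * n := by
    refine B3.ab_cast h0 (by omega) ?_
    rw [vm0, B3.P1, hc]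
    simp only [cons_val_zero, cons_val_one]
    exact Or.inl ⟨c, by push_cast; ring⟩
  rw [A.eo, e1, e2]
  omega

theorem cusp_ord (h : Mid N Γ) [CFF Qb (L Γ)] {γ : SL(2, ℤ)} {φ : L Γ →+* LS}
    (hφ : ∀ x : L Γ, ExM N (φ x) (act γ⁻¹ (cv (x : FF)))) :
    ∃ (Q : Plk Qb (L Γ)) (e : ℤ), 0 < e ∧ (∀ x, (φ x).order = e * ord Q x) ∧ Cs (X.tL h.hi) Q ∧
      e * pol Qb (X.tL h.hi) Q ≤ (Xs N (p4 N ᵥ* (γ : M2)) - Xs N (p1 N ᵥ* (γ : M2))).order := by
  have hN := h.lv.pos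
  have hc := phi_const hN.ne' hφ
  obtain ⟨m, hm, hm'⟩ := goodA h.lv γ
  have even : ∀ (a : Qb) (s : LS), Good N N s → φ (X.tL h.hi) = HahnSeries.C (io a) + s →
      ∃ (Q : Plk Qb (L Γ)) (e : ℤ), 0 < e ∧ (∀ x, (φ x).order = e * ord Q x) ∧
        0 < ord Q (X.tL h.hi - algebraMap Qb (L Γ) a) ∧ e * pol Qb (X.tL h.hi) Q ≤ m := by
    intro a s hs e
    have h1 : (φ (X.tL h.hi - algebraMap Qb (L Γ) a)).order = N := by
      rw [map_sub, hc, e, add_sub_cancel_left, hs.ord]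
    rcases triv_or_place (k := Qb) φ (fun c => by rw [hc, HahnSeries.order_C]) with h2 | ⟨Q, e, he, hQ⟩
    · rw [h2] at h1
      omega
    have h3 : 0 < ord Q (X.tL h.hi - algebraMap Qb (L Γ) a) := by
      rw [hQ] at h1
      exact (mul_pos_iff_of_pos_left he).1 (by rw [h1]; exact_mod_cast hN)
    refine ⟨Q, e, he, hQ, h3, ?_⟩
    have h4 : ¬ ord Q (X.tL h.hi) < 0 := fun h5 => by
      rw [ord_sub_pole h5] at h3
      omega
    rw [pol_apply, max_eq_left (by omega), mul_zero]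
    positivity
  rw [hm.ord]
  have hu : ∀ s, ExM N s (act γ⁻¹ (cv X.t)) → φ (X.tL h.hi) = s :=
    fun s hs => (hφ (X.tL h.hi)).unique hN.ne' hs
  have c2 : (HahnSeries.C (io 2) : LS) = 2 := by rw [map_ofNat, map_ofNat]
  have c2' : (HahnSeries.C (io (-2)) : LS) = -2 := by rw [map_neg, map_neg, c2]
  rcases Int.even_or_odd' (γ 1 0) with ⟨c, e | e⟩
  · rcases Int.even_or_odd' c with ⟨d, e' | e'⟩
    · obtain ⟨s, hs, h1⟩ := X.tex0 N h.lv γ ⟨d, by omega⟩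
      obtain ⟨Q, e, h2, h3, h4, h5⟩ := even 2 s hs (by rw [hu _ h1, c2])
      exact ⟨Q, e, h2, h3, Or.inl h4, h5⟩
    · obtain ⟨s, hs, h1⟩ := X.tex2 N h.lv γ ⟨d, by omega⟩
      obtain ⟨Q, e, h2, h3, h4, h5⟩ := even (-2) s hs (by rw [hu _ h1, c2'])
      exact ⟨Q, e, h2, h3, Or.inr (Or.inl h4), h5⟩
  · obtain ⟨s, hs, h1⟩ := X.tex1 N h.lv γ ⟨c, e⟩
    have h2 : (φ (X.tL h.hi)).order = -((N / 4 : ℕ) : ℤ) := by
      rw [hu _ h1, hs.ord]
    have h4 : 0 < N / 4 := by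
      obtain ⟨n, rfl⟩ := h.lv.four
      omega
    rcases triv_or_place (k := Qb) φ (fun c => by rw [hc, HahnSeries.order_C]) with h3 | ⟨Q, e', he, hQ⟩
    · rw [h3] at h2
      omega
    rw [hQ] at h2
    have h5 : ord Q (X.tL h.hi) < 0 := by
      by_contra h6
      have := mul_nonneg he.le (not_lt.1 h6)
      omega
    refine ⟨Q, e', he, hQ, Or.inr (Or.inr h5), ?_⟩
    rw [pol_apply, max_eq_right (by omega), mul_neg, h2, hm' ⟨c, e⟩, neg_neg]

/-- functions without poles at the affine places are holomorphic -/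
theorem exists_hol (h : Γ ≤ G0) [CFF Qb (L Γ)] {y : L Γ} (hy0 : y ≠ 0)
    (hy : ∀ P : Plk Qb (L Γ), -pol Qb (X.tL h) P ≤ ord P y) :
    ∃ (Y : ℍ → ℂ) (hY : Y ∈ Hol), cv (y : FF) = inc Y hY := by
  obtain ⟨P, hP, e, hd, -, -⟩ := X.hol
  have h0 : cv (y : FF) ≠ 0 := fun h1 => hy0 (Subtype.ext (cv_inj (h1.trans (map_zero cv).symm)))
  obtain ⟨g, k, hg, hk, g0, k0, e1⟩ := exists_frac _ h0
  obtain ⟨Y, hY, e2⟩ := exists_div hg hk g0 k0 fun τ => by
    obtain ⟨θ, h1, h2⟩ := H406.L3.exists_theta hP τ (hd τ)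
    let φ : L Γ →+* LS := (θ : Mer →+* LS).comp ((cv : FF →+* Mer).comp (L Γ).val)
    have hc : ∀ c : Qb, φ (algebraMap Qb (L Γ) c) = HahnSeries.C (io c) := by
      intro c
      show θ (cv (algebraMap Qb FF c)) = _
      rw [cv_alg, θ.commutes, algMap_ls]
    have h3 : 0 ≤ (φ y).order := by
      rcases triv_or_place (k := Qb) φ (fun c => by rw [hc, HahnSeries.order_C]) with
        h3 | ⟨Q, e', he, hQ⟩
      · exact (h3 y).ge
      have h4 : 0 ≤ (φ (X.tL h)).order := by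
        show 0 ≤ (θ (cv X.t)).order
        rw [e, h1]
        by_cases hz : (HahnSeries.C (P τ) + HahnSeries.single 1 1 : LS) = 0
        · rw [hz, HahnSeries.order_zero]
        · refine le_trans ?_ (HahnSeries.min_order_le_order_add hz)
          rw [HahnSeries.order_C, HahnSeries.order_single one_ne_zero]
          norm_num
      rw [hQ] at h4 ⊢
      have h5 := nonneg_of_mul_nonneg_right h4 he
      have h6 := hy Q
      rw [pol_apply, max_eq_left (by omega)] at h6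
      exact mul_nonneg he.le (by omega)
    have h4 : φ y * θ (inc k hk) = θ (inc g hg) := by
      show θ (cv (y : FF)) * _ = _
      rw [← map_mul, e1, div_mul_cancel₀ _ (inc_ne hk k0)]
    have h5 := congrArg HahnSeries.order h4
    rw [HahnSeries.order_mul ((_root_.map_ne_zero φ).2 hy0)
      ((_root_.map_ne_zero θ).2 (inc_ne hk k0)), h2 k hk k0, h2 g hg g0] at h5
    omega
  refine ⟨Y, hY, ?_⟩
  rw [e1, div_eq_iff (inc_ne hk k0), ← inc_mul]
  exact inc_congr _ e2.symm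

/-- the form attached to a function -/
theorem exists_form (hE : EXP) (hG : GRP) (h : Mid N Γ) [CFF Qb (L Γ)] {y : L Γ} (hy0 : y ≠ 0)
    (hy : ∀ P : Plk Qb (L Γ), -pol Qb (X.tL h.hi) P ≤ ord P y) :
    ∃ (f : ℍ → ℂ) (hf : IsMF Γ 2 f), inc f hf.hol = cv (y : FF) * inc Af Pre.Af_hol ∧
      ((∀ P : Plk Qb (L Γ), Cs (X.tL h.hi) P → 1 - pol Qb (X.tL h.hi) P ≤ ord P y) →
        ∀ c : SL(2, ℤ), IsZeroAtImInfty (f ∣[(2 : ℤ)] c)) := by
  have hN := h.lv.pos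
  obtain ⟨Y, hY, e⟩ := exists_hol X h.hi hy0 hy
  have hf : Y * Af ∈ Hol := Hol.mul_mem hY Pre.Af_hol
  have e1 : inc (Y * Af) hf = cv (y : FF) * inc Af Pre.Af_hol := by rw [e, inc_mul]
  have e2 : ∀ γ : SL(2, ℤ), inc ((Y * Af) ∣[(2 : ℤ)] γ) (slash_mem hf 2 γ) =
      act γ⁻¹ (cv (y : FF)) * inc (Af ∣[(2 : ℤ)] γ) (slash_mem Pre.Af_hol 2 γ) := by
    intro γ
    have h1 := act_div γ⁻¹ 2 hf Pre.Af_hol Pre.Af_ne'
    rw [e1, mul_div_cancel_right₀ _ (inc_ne _ Pre.Af_ne')] at h1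
    simp only [inv_inv] at h1
    rw [h1, div_mul_cancel₀ _ (inc_ne _ (slash_ne_zero Pre.Af_ne' γ))]
  have key : ∀ γ : SL(2, ℤ), ∃ s : LS, ExL N s ((Y * Af) ∣[(2 : ℤ)] γ) ∧ 0 ≤ s.order ∧
      ((∀ P : Plk Qb (L Γ), Cs (X.tL h.hi) P → 1 - pol Qb (X.tL h.hi) P ≤ ord P y) →
        0 < s.order) := by
    intro γ
    obtain ⟨φ, hφ⟩ := exists_phi X hE hG h γ
    obtain ⟨Q, m, hm, h1, h2, h3⟩ := cusp_ord X h fun x => (hφ x).1
    obtain ⟨_, hA, -⟩ := goodA h.lv γ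
    have h4 : ExL N (Xs N (p4 N ᵥ* (γ : M2)) - Xs N (p1 N ᵥ* (γ : M2))) (Af ∣[(2 : ℤ)] γ) := by
      rw [Pre.Af_eq h.lv, Wf_slash]
      exact (sa3 N hN _ _ ((Pre.nz4 h.lv).vecMul γ) ((Pre.nz1 h.lv).vecMul γ)).2
    have h5 := (hφ y).1.mul (h4.exM_inc (slash_mem Pre.Af_hol 2 γ))
    rw [← e2] at h5
    refine ⟨_, exL_of_exM hN.ne' _ h5, ?_, fun h6 => ?_⟩
    · rw [HahnSeries.order_mul ((_root_.map_ne_zero φ).2 hy0) hA.ne, h1]
      have := mul_le_mul_of_nonneg_left (hy Q) hm.le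
      linarith
    · rw [HahnSeries.order_mul ((_root_.map_ne_zero φ).2 hy0) hA.ne, h1]
      have := mul_le_mul_of_nonneg_left (h6 Q h2) hm.le
      linarith
  refine ⟨Y * Af, ⟨hf, fun γ hγ => ?_, fun γ => ?_⟩, e1, fun h6 γ => ?_⟩
  · refine inc_injective (slash_mem hf 2 γ) hf ?_
    rw [e2, e1, y.2 _ (Γ.inv_mem hγ)]
    congr 1
    exact inc_congr _ ((rb1 sa3).2.1.slash γ (h.hi hγ))
  · obtain ⟨s, h1, h2, -⟩ := key γ
    exact (tendsto_of_exL hN.ne' h1 h2).isBigO_one ℝ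
  · obtain ⟨s, h1, h2, h3⟩ := key γ
    have := tendsto_of_exL hN.ne' h1 h2
    rwa [HahnSeries.coeff_eq_zero_of_lt_order (h3 h6)] at this

include X in
theorem indep (hE : EXP) (hG : GRP) (h : Mid N Γ) {ι : Type} [Fintype ι] {y : ι → L Γ}
    (hy : LinearIndependent Qb y) {f : ι → ℍ → ℂ} (hf : ∀ i, f i ∈ Hol)
    (e : ∀ i, inc (f i) (hf i) = cv (y i : FF) * inc Af Pre.Af_hol) : LinearIndependent ℂ f := by
  have hN := h.lv.pos
  obtain ⟨φ, hφ⟩ := exists_phi X hE hG h 1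
  choose s hs using fun i => alg_iff.1 (hφ (y i)).2
  have hc := phi_const hN.ne' fun x => (hφ x).1
  rw [Fintype.linearIndependent_iff] at hy ⊢
  intro c hc0
  refine indep_series s (fun a ha => hy a ?_) c ?_
  · apply φ.injective
    have := congrArg ioL ha
    rw [map_sum, map_zero] at this
    rw [map_sum, map_zero, ← this]
    refine Finset.sum_congr rfl fun i _ => ?_
    rw [Algebra.smul_def, map_mul, map_mul, hs, hc]
    congr 1
    ext n
    rw [coeff_ioL, HahnSeries.C_apply, HahnSeries.C_apply, HahnSeries.coeff_single,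
      HahnSeries.coeff_single]
    split_ifs
    · rfl
    · exact (map_zero io).symm
  · have h1 : (∑ i, algebraMap ℂ Mer (c i) * cv (y i : FF)) * inc Af Pre.Af_hol = 0 := by
      rw [Finset.sum_mul]
      have h2 : (∑ i, c i • (⟨f i, hf i⟩ : Hol)) = 0 := Subtype.ext (by
        rw [AddSubmonoidClass.coe_finsetSum]
        exact hc0)
      have h3 := congrArg (IsScalarTower.toAlgHom ℂ Hol Mer) h2
      rw [map_sum, map_zero] at h3
      rw [← h3]
      refine Finset.sum_congr rfl fun i _ => ?_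
      rw [map_smul, mul_assoc, ← e, Algebra.smul_def]
      rfl
    have h2 := (mul_eq_zero.1 h1).resolve_right (inc_ne _ Pre.Af_ne')
    have h3 : ∀ S : Finset ι, ExM N (∑ i ∈ S, HahnSeries.C (c i) * ioL (s i))
        (∑ i ∈ S, algebraMap ℂ Mer (c i) * cv (y i : FF)) := by
      intro S
      classical
      induction S using Finset.induction_on with
      | empty =>
        have := ExM.const N 0
        simpa using this
      | insert a S ha ih =>
        rw [Finset.sum_insert ha, Finset.sum_insert ha]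
        refine ((ExM.const N _).mul ?_).add ih
        have := (hφ (y a)).1
        rwa [inv_one, map_one, AlgEquiv.one_apply, ← hs] at this
    have h4 := h3 Finset.univ
    rw [h2] at h4
    have h5 := ExM.const N 0
    rw [map_zero, map_zero] at h5
    exact h4.unique hN.ne' h5

theorem finrank_tL (hC : CFFS) (hA : ARTIN X) (h : Γ ≤ G0) (hfi : Γ.FiniteIndex) :
    letI := algL h
    Module.finrank Qb⟮X.tL h⟯ (L Γ) = Module.finrank (L G0) (L Γ) := by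
  letI := algL h
  haveI := towerL h
  haveI := (hA G0 Γ h hfi).1
  haveI := hC _ h hfi
  haveI := hC _ le_rfl (Subgroup.finiteIndex_of_le h)
  have h1 := finrank_up (k := Qb) (L := L Γ) (z := X.tL (le_refl G0))
  have h2 := Pla.adjoin_tL X 0
  rw [map_zero, sub_zero] at h2
  rw [h2, IntermediateField.finrank_top, one_mul] at h1
  exact h1

end Dim

open Dim

theorem dims (X : Mdl) (hE : EXP) (hG : GRP) (hC : CFFS) (hA : ARTIN X) (hF : FAITH X)
    (hP : PLA X) : DIMS := by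
  intro N Γ h
  obtain ⟨hfi, -, -, hm0, -⟩ := hG N h.lv
  have hfi' : Γ.FiniteIndex := Subgroup.finiteIndex_of_le h.lo
  have : CFF Qb (L Γ) := hC _ h.hi hfi'
  have : CharZero Qb := inferInstance
  obtain ⟨Q, hQ⟩ := Pla.exists_simple X h.hi (a := 0) (by norm_num) (by norm_num)
  rw [map_zero, sub_zero] at hQ
  have ht := nc_of_ord (P := Q) (z := X.tL h.hi) (by omega)
  have h1 := count ht
  rw [finrank_tL X hC hA h.hi hfi', hF.2.2 N G0 Γ h.hi hm0 h] at h1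
  let b1 := Module.finBasis Qb (LL Qb (pol Qb (X.tL h.hi)))
  let b2 := Module.finBasis Qb (LL Qb (wdv Qb (X.tL h.hi)))
  have i1 : LinearIndependent Qb fun i => (b1 i : L Γ) :=
    b1.linearIndependent.map' (Submodule.subtype _) (Submodule.ker_subtype _)
  have i2 : LinearIndependent Qb fun i => (b2 i : L Γ) :=
    b2.linearIndependent.map' (Submodule.subtype _) (Submodule.ker_subtype _)
  have n : (X.tL h.hi - algebraMap Qb (L Γ) 2) * (X.tL h.hi - algebraMap Qb (L Γ) (-2)) ≠ 0 :=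
    mul_ne_zero (sub_ne_zero.2 (ht _)) (sub_ne_zero.2 (ht _))
  have i3 : LinearIndependent Qb fun i => (b2 i : L Γ) *
      ((X.tL h.hi - algebraMap Qb (L Γ) 2) * (X.tL h.hi - algebraMap Qb (L Γ) (-2))) :=
    i2.map' (LinearMap.mulRight Qb _) (LinearMap.ker_eq_bot.2 (mul_left_injective₀ n))
  choose f hf e1 _ using fun i => exists_form X hE hG h (i1.ne_zero i)
    ((mem_LL.1 (b1 i).2).resolve_left (i1.ne_zero i))
  choose g hg e2 hz using fun i => exists_form X hE hG h (i3.ne_zero i)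
    fun P => (diff_ord ht (hP N Γ h) (i2.ne_zero i) (b2 i).2 P).1
  exact ⟨_, _, f, g, hf,
    fun j => ⟨hg j, hz j fun P => (diff_ord ht (hP N Γ h) (i2.ne_zero j) (b2 j).2 P).2⟩,
    indep X hE hG h i1 _ e1, indep X hE hG h i3 _ e2, h1⟩

end Vale.Agent.P027M.M
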