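import Vale.Agent.P027M.M.Spec
import Vale.Agent.P027M.K.Fun

/-! # P027, block M, part D': pull-backs and norms between level fields -/

set_option linter.all false
set_option autoImplicit false

open UpperHalfPlane Matrix
open scoped MatrixGroups Manifold IntermediateField

noncomputable section

namespace Vale.Agent.P027M.M

open Vale.Agent.P022 Vale.Agent.P022.H218.L3 Vale.Agent.P022.H231.L3 Vale.Agent.P022.H236.L3
  Vale.Agent.P022.H542.L3 Vale.Agent.P019P P025H816 P025H492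

namespace Dp

/-- every algebra map of function fields keeps the divisibility of all orders -/
theorem pull {k K K' : Type} [Field k] [Field K] [Field K'] [Algebra k K] [Algebra k K'] [CFF k K]
    [CFF k K'] (φ : K →ₐ[k] K') {n : ℕ} {x : K} (hx : ∀ P : Plk k K, (n : ℤ) ∣ ord P x)
    (Q : Plk k K') : (n : ℤ) ∣ ord Q (φ x) := by
  by_cases h0 : x = 0
  · rw [h0, map_zero, ord_zero]; exact dvd_zero _
  letI : Algebra K K' := φ.toRingHom.toAlgebra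
  haveI : IsScalarTower k K K' := IsScalarTower.of_algebraMap_eq fun a => (φ.commutes a).symm
  obtain ⟨y, hy, -⟩ := CFF.ex (k := k) (F := K)
  haveI : FiniteDimensional K K' := finite_of_transcendental (k := k) hy
  exact P027M.K.jU_mem (L := K') (f := Units.mk0 x h0) hx Q

/-- norms keep the divisibility of all orders -/
theorem nrm {k K K' : Type} [Field k] [Field K] [Field K'] [Algebra k K] [Algebra k K'] [CFF k K]
    [CFF k K'] [Algebra K K'] [IsScalarTower k K K'] {n : ℕ} {x : K'}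
    (hx : ∀ P : Plk k K', (n : ℤ) ∣ ord P x) (P : Plk k K) : (n : ℤ) ∣ ord P (Algebra.norm K x) := by
  obtain ⟨y, hy, -⟩ := CFF.ex (k := k) (F := K)
  haveI : FiniteDimensional K K' := finite_of_transcendental (k := k) hy
  by_cases h0 : x = 0
  · rw [h0, Algebra.norm_zero, ord_zero]; exact dvd_zero _
  exact P027M.K.nU_mem (K := K) (g := Units.mk0 _ h0) hx P

/-- semilinear automorphisms keep the divisibility of all orders -/
theorem semi {k K K' : Type} [Field k] [Field K] [Field K'] [Algebra k K] [Algebra k K'] [CFF k K]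
    [CFF k K'] (s : K ≃+* K') (s₀ : k ≃+* k) (hs : ∀ a, s (algebraMap k K a) = algebraMap k K' (s₀ a))
    {n : ℕ} {x : K} (hx : ∀ P : Plk k K, (n : ℤ) ∣ ord P x) (Q : Plk k K') : (n : ℤ) ∣ ord Q (s x) := by
  obtain ⟨P, rfl⟩ := (plEquiv s s₀ hs).surjective Q
  rw [ord_plEquiv]
  exact hx P

variable (X : Mdl)

theorem pb_congr {A B : M2} (e : A = B) (hA : 0 < A.det) (hB : 0 < B.det) (x : FF) :
    X.pb A hA x = X.pb B hB x := by
  subst e; rfl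

theorem mul_pos' {A B : M2} (hA : 0 < A.det) (hB : 0 < B.det) : 0 < (A * B).det := by
  rw [Matrix.det_mul]; exact mul_pos hA hB

theorem pb_mul {A B : M2} (hA : 0 < A.det) (hB : 0 < B.det) (hAB : 0 < (A * B).det) (x : FF) :
    X.pb (A * B) hAB x = X.pb B hB (X.pb A hA x) :=
  cv_inj (by rw [X.pb_coe, X.pb_coe, X.pb_coe, pbz_mul])

theorem cv_pg (γ : SL(2, ℤ)) (x : FF) : cv (X.pg γ x) = act γ⁻¹ (cv x) := by
  rw [Mdl.pg, X.pb_coe, pbz_SL]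

theorem pg_mul (γ δ : SL(2, ℤ)) (x : FF) : X.pg (γ * δ) x = X.pg δ (X.pg γ x) :=
  cv_inj (by rw [cv_pg, cv_pg, cv_pg, _root_.mul_inv_rev, map_mul, AlgEquiv.mul_apply])

theorem pg_one (x : FF) : X.pg 1 x = x :=
  cv_inj (by rw [cv_pg, inv_one, map_one, AlgEquiv.one_apply])

theorem mem_L' {Γ : Subgroup SL(2, ℤ)} {x : FF} : x ∈ L Γ ↔ ∀ γ ∈ Γ, X.pg γ x = x := by
  rw [mem_L]
  constructor
  · intro h γ hγ
    exact cv_inj (by rw [cv_pg, h _ (Γ.inv_mem hγ)])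
  · intro h γ hγ
    have := congrArg cv (h _ (Γ.inv_mem hγ))
    rwa [cv_pg, inv_inv] at this

theorem pg_self {Γ : Subgroup SL(2, ℤ)} {x : FF} (hx : x ∈ L Γ) {γ : SL(2, ℤ)} (h : γ ∈ Γ) :
    X.pg γ x = x := (mem_L' X).1 hx γ h

theorem pg_congr {Γ : Subgroup SL(2, ℤ)} {x : FF} (hx : x ∈ L Γ) {γ δ : SL(2, ℤ)}
    (h : γ * δ⁻¹ ∈ Γ) : X.pg γ x = X.pg δ x := by
  have e : γ = γ * δ⁻¹ * δ := by group
  rw [e, pg_mul, pg_self X hx h]

/-- `A γ = g A` -/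
theorem pg_pb {A B : M2} (hA : 0 < A.det) (hB : 0 < B.det) {γ g : SL(2, ℤ)}
    (e : A * (γ : M2) = (g : M2) * B) (x : FF) :
    X.pg γ (X.pb A hA x) = X.pb B hB (X.pg g x) := by
  rw [Mdl.pg, Mdl.pg, ← pb_mul X hA (SL_pos γ) (mul_pos' hA (SL_pos γ)),
    ← pb_mul X (SL_pos g) hB (mul_pos' (SL_pos g) hB)]
  exact pb_congr X e _ _ x

/-- `A Γ' A⁻¹ ≤ Γ` -/
def Cj (A : M2) (Γ Γ' : Subgroup SL(2, ℤ)) : Prop :=
  ∀ γ ∈ Γ', ∃ g ∈ Γ, A * (γ : M2) = (g : M2) * A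

theorem pb_mem {A : M2} (hA : 0 < A.det) {Γ Γ' : Subgroup SL(2, ℤ)} (h : Cj A Γ Γ') {x : FF}
    (hx : x ∈ L Γ) : X.pb A hA x ∈ L Γ' := by
  rw [mem_L' X]
  intro γ hγ
  obtain ⟨g, hg, e⟩ := h γ hγ
  rw [pg_pb X hA hA e, pg_self X hx hg]

/-- the pull-back between level fields -/
def pbL {A : M2} (hA : 0 < A.det) {Γ Γ' : Subgroup SL(2, ℤ)} (h : Cj A Γ Γ') : L Γ →ₐ[Qb] L Γ' :=
  (((X.pb A hA : FF ≃ₐ[Qb] FF) : FF →ₐ[Qb] FF).comp (L Γ).val).codRestrict (L Γ').toSubalgebra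
    fun x => pb_mem X hA h x.2

theorem pbL_coe {A : M2} (hA : 0 < A.det) {Γ Γ' : Subgroup SL(2, ℤ)} (h : Cj A Γ Γ') (x : L Γ) :
    ((pbL X hA h x : L Γ') : FF) = X.pb A hA x := rfl

/-- representatives of the cosets `Γ' γ` in `Γ` -/
structure Reps {I : Type} (Γ Γ' : Subgroup SL(2, ℤ)) (c : I → SL(2, ℤ)) : Prop where
  mem : ∀ i, c i ∈ Γ
  cov : ∀ γ ∈ Γ, ∃ i, γ * (c i)⁻¹ ∈ Γ'
  inj : ∀ i j, c i * (c j)⁻¹ ∈ Γ' → i = j

theorem Reps.card {I : Type} [Fintype I] {Γ Γ' : Subgroup SL(2, ℤ)} {c : I → SL(2, ℤ)}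
    (h : Reps Γ Γ' c) : Γ'.relIndex Γ = Fintype.card I := by
  rw [Subgroup.relIndex, Subgroup.index, ← Nat.card_eq_fintype_card]
  symm
  refine Nat.card_congr (Equiv.ofBijective
    (fun i => (QuotientGroup.mk ⟨(c i)⁻¹, Γ.inv_mem (h.mem i)⟩ : Γ ⧸ Γ'.subgroupOf Γ)) ⟨?_, ?_⟩)
  · intro i j e
    rw [QuotientGroup.eq, Subgroup.mem_subgroupOf] at e
    refine h.inj i j ?_
    simpa using e
  · intro q
    obtain ⟨⟨γ, hγ⟩, rfl⟩ := QuotientGroup.mk_surjective q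
    obtain ⟨i, hi⟩ := h.cov γ⁻¹ (Γ.inv_mem hγ)
    refine ⟨i, ?_⟩
    rw [QuotientGroup.eq, Subgroup.mem_subgroupOf]
    simpa using Γ'.inv_mem hi

/-- **the norm is the product over the cosets** -/
theorem norm_eq (hF : FAITH X) {N : ℕ} {Γ Γ' : Subgroup SL(2, ℤ)} (h : Γ' ≤ Γ) (m : Mid N Γ)
    (m' : Mid N Γ') {I : Type} [Fintype I] {c : I → SL(2, ℤ)} (hc : Reps Γ Γ' c) (y : L Γ') :
    letI := algL h
    ((Algebra.norm (L Γ) y : L Γ) : FF) = ∏ i, X.pg (c i) y := by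
  letI := algL h
  have hd : Module.finrank (L Γ) (L Γ') = Fintype.card I := by
    rw [← hc.card]; exact hF.2.2 N Γ Γ' h m m'
  haveI : Nonempty I := ⟨(hc.cov 1 Γ.one_mem).choose⟩
  haveI : FiniteDimensional (L Γ) (L Γ') :=
    Module.finite_of_finrank_pos (by rw [hd]; exact Fintype.card_pos)
  haveI : CharZero (L Γ) := algebraRat.charZero _
  let E := AlgebraicClosure FF
  let e : I → (L Γ' →ₐ[L Γ] E) := fun i =>
    { toRingHom := (algebraMap FF E).comp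
        (((X.pg (c i) : FF ≃ₐ[Qb] FF) : FF →+* FF).comp ((L Γ').val : L Γ' →+* FF))
      commutes' := fun a => by
        show algebraMap FF E (X.pg (c i) (a : FF)) = algebraMap FF E (a : FF)
        rw [pg_self X a.2 (hc.mem i)] }
  have he : ∀ i z, e i z = algebraMap FF E (X.pg (c i) z) := fun _ _ => rfl
  have inj : Function.Injective e := by
    intro i j hij
    refine hc.inj i j (hF.2.1 N Γ' m' _ (m.hi (Γ.mul_mem (hc.mem i) (Γ.inv_mem (hc.mem j)))) ?_)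
    intro x hx
    have e1 := DFunLike.congr_fun hij ⟨x, hx⟩
    rw [he, he] at e1
    have e2 : X.pg (c i) x = X.pg (c j) x := (algebraMap FF E).injective e1
    rw [pg_mul, e2, ← pg_mul, mul_inv_cancel, pg_one]
  have bij : Function.Bijective e :=
    (Fintype.bijective_iff_injective_and_card e).2 ⟨inj, by rw [AlgHom.card, hd]⟩
  apply (algebraMap FF E).injective
  rw [map_prod]
  exact (Algebra.norm_eq_prod_embeddings (L Γ) E y).trans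
    (Fintype.prod_bijective e bij _ _ fun i => (he i y).symm).symm

/-- `x` is a function of level `Γ` all of whose orders are divisible by `n` -/
def DU (Γ : Subgroup SL(2, ℤ)) [CFF Qb (L Γ)] (n : ℕ) (x : FF) : Prop :=
  ∃ h : x ∈ L Γ, ∀ P : Plk Qb (L Γ), (n : ℤ) ∣ ord P (⟨x, h⟩ : L Γ)

variable {X}

theorem DU.of_mem {Γ : Subgroup SL(2, ℤ)} [CFF Qb (L Γ)] {n : ℕ} {f : (L Γ)ˣ}
    (hf : f ∈ divU Qb (L Γ) n) : DU Γ n ((f : L Γ) : FF) := ⟨(f : L Γ).2, hf⟩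

theorem DU.mem {Γ : Subgroup SL(2, ℤ)} [CFF Qb (L Γ)] {n : ℕ} {f : (L Γ)ˣ}
    (hf : DU Γ n ((f : L Γ) : FF)) : f ∈ divU Qb (L Γ) n := hf.2

theorem DU.pb {Γ Γ' : Subgroup SL(2, ℤ)} [CFF Qb (L Γ)] [CFF Qb (L Γ')] {n : ℕ} {x : FF}
    (hx : DU Γ n x) {A : M2} (hA : 0 < A.det) (h : Cj A Γ Γ') : DU Γ' n (X.pb A hA x) :=
  ⟨pb_mem X hA h hx.1, pull (pbL X hA h) hx.2⟩

theorem DU.mono {Γ Γ' : Subgroup SL(2, ℤ)} [CFF Qb (L Γ)] [CFF Qb (L Γ')] {n : ℕ} {x : FF}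
    (hx : DU Γ n x) (h : Γ' ≤ Γ) : DU Γ' n x :=
  ⟨L_mono h hx.1, pull (IntermediateField.inclusion (L_mono h)) hx.2⟩

theorem cj_SL {Γ Γ' : Subgroup SL(2, ℤ)} {c : SL(2, ℤ)} (h : ∀ γ ∈ Γ', c * γ * c⁻¹ ∈ Γ) :
    Cj (c : M2) Γ Γ' := fun γ hγ =>
  ⟨_, h γ hγ, by rw [← Matrix.SpecialLinearGroup.coe_mul, ← Matrix.SpecialLinearGroup.coe_mul]; simp⟩

theorem DU.pg {Γ Γ' : Subgroup SL(2, ℤ)} [CFF Qb (L Γ)] [CFF Qb (L Γ')] {n : ℕ} {x : FF}
    (hx : DU Γ n x) {c : SL(2, ℤ)} (h : ∀ γ ∈ Γ', c * γ * c⁻¹ ∈ Γ) : DU Γ' n (X.pg c x) :=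
  hx.pb _ (cj_SL h)

theorem DU.norm (hF : FAITH X) {N : ℕ} {Γ Γ' : Subgroup SL(2, ℤ)} [CFF Qb (L Γ)] [CFF Qb (L Γ')]
    (h : Γ' ≤ Γ) (m : Mid N Γ) (m' : Mid N Γ') {I : Type} [Fintype I] {c : I → SL(2, ℤ)}
    (hc : Reps Γ Γ' c) {n : ℕ} {x : FF} (hx : DU Γ' n x) : DU Γ n (∏ i, X.pg (c i) x) := by
  letI := algL h
  haveI := towerL h
  have e := norm_eq X hF h m m' hc ⟨x, hx.1⟩
  have hm : ∏ i, X.pg (c i) x ∈ L Γ := e ▸ (Algebra.norm (L Γ) (⟨x, hx.1⟩ : L Γ')).2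
  refine ⟨hm, fun P => ?_⟩
  have e' : (⟨_, hm⟩ : L Γ) = Algebra.norm (L Γ) (⟨x, hx.1⟩ : L Γ') := Subtype.ext e.symm
  rw [e']
  exact nrm hx.2 P

/-- the Galois action on a stable level field -/
def galL (X : Mdl) {Γ : Subgroup SL(2, ℤ)} (h : ∀ g, ∀ x ∈ L Γ, X.gal g x ∈ L Γ) (g : GQ) :
    L Γ ≃+* L Γ where
  toFun x := ⟨X.gal g x, h g x x.2⟩
  invFun x := ⟨X.gal g⁻¹ x, h _ x x.2⟩
  left_inv x := Subtype.ext (by
    show X.gal g⁻¹ (X.gal g x) = x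
    rw [map_inv]; exact (X.gal g).symm_apply_apply _)
  right_inv x := Subtype.ext (by
    show X.gal g (X.gal g⁻¹ x) = x
    rw [map_inv]; exact (X.gal g).apply_symm_apply _)
  map_mul' x y := Subtype.ext (map_mul (X.gal g) (x : FF) y)
  map_add' x y := Subtype.ext (map_add (X.gal g) (x : FF) y)

theorem galL_coe {Γ : Subgroup SL(2, ℤ)} (h : ∀ g, ∀ x ∈ L Γ, X.gal g x ∈ L Γ) (g : GQ) (x : L Γ) :
    ((galL X h g x : L Γ) : FF) = X.gal g x := rfl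

theorem DU.gal (hG : GALX X) {Γ : Subgroup SL(2, ℤ)} [CFF Qb (L Γ)]
    (h : ∀ g, ∀ x ∈ L Γ, X.gal g x ∈ L Γ) {n : ℕ} {x : FF} (hx : DU Γ n x) (g : GQ) :
    DU Γ n (X.gal g x) :=
  ⟨h g x hx.1, semi (galL X h g) (g : Qb ≃+* Qb) (fun a => Subtype.ext (hG.2.1 g a)) hx.2⟩

end Dp

end Vale.Agent.P027M.M
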