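import Vale.Agent.P027M.M.Dp1

/-! # P027, block M, part D': the Hecke operators as norms of pull-backs -/

set_option linter.all false
set_option autoImplicit false

open UpperHalfPlane Matrix
open scoped MatrixGroups Manifold IntermediateField

noncomputable section

namespace Vale.Agent.P027M.M

open Vale.Agent.P022 Vale.Agent.P022.H218.L3 Vale.Agent.P022.H231.L3 Vale.Agent.P022.H236.L3
  Vale.Agent.P022.H542.L3 Vale.Agent.P019P P025H816 P025H492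

namespace Dp

theorem mul00 (γ δ : SL(2, ℤ)) : (γ * δ) 0 0 = γ 0 0 * δ 0 0 + γ 0 1 * δ 1 0 := by
  simp [Matrix.mul_apply, Fin.sum_univ_two]
theorem mul01 (γ δ : SL(2, ℤ)) : (γ * δ) 0 1 = γ 0 0 * δ 0 1 + γ 0 1 * δ 1 1 := by
  simp [Matrix.mul_apply, Fin.sum_univ_two]
theorem mul10 (γ δ : SL(2, ℤ)) : (γ * δ) 1 0 = γ 1 0 * δ 0 0 + γ 1 1 * δ 1 0 := by
  simp [Matrix.mul_apply, Fin.sum_univ_two]
theorem mul11 (γ δ : SL(2, ℤ)) : (γ * δ) 1 1 = γ 1 0 * δ 0 1 + γ 1 1 * δ 1 1 := by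
  simp [Matrix.mul_apply, Fin.sum_univ_two]
theorem inv00 (γ : SL(2, ℤ)) : (γ⁻¹) 0 0 = γ 1 1 := by
  simp [Matrix.SpecialLinearGroup.coe_inv, Matrix.adjugate_fin_two]
theorem inv01 (γ : SL(2, ℤ)) : (γ⁻¹) 0 1 = -γ 0 1 := by
  simp [Matrix.SpecialLinearGroup.coe_inv, Matrix.adjugate_fin_two]
theorem inv10 (γ : SL(2, ℤ)) : (γ⁻¹) 1 0 = -γ 1 0 := by
  simp [Matrix.SpecialLinearGroup.coe_inv, Matrix.adjugate_fin_two]
theorem inv11 (γ : SL(2, ℤ)) : (γ⁻¹) 1 1 = γ 0 0 := by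
  simp [Matrix.SpecialLinearGroup.coe_inv, Matrix.adjugate_fin_two]
theorem det' (γ : SL(2, ℤ)) : γ 0 0 * γ 1 1 - γ 0 1 * γ 1 0 = 1 := by
  have := γ.det_coe
  rwa [Matrix.det_fin_two] at this

/-- a matrix from its entries -/
def mk (a b c d : ℤ) (h : a * d - b * c = 1) : SL(2, ℤ) :=
  ⟨!![a, b; c, d], by rw [Matrix.det_fin_two_of]; exact h⟩

theorem mk00 (a b c d : ℤ) (h) : mk a b c d h 0 0 = a := rfl
theorem mk01 (a b c d : ℤ) (h) : mk a b c d h 0 1 = b := rfl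
theorem mk10 (a b c d : ℤ) (h) : mk a b c d h 1 0 = c := rfl
theorem mk11 (a b c d : ℤ) (h) : mk a b c d h 1 1 = d := rfl

theorem exists_row {c d : ℤ} (h : IsCoprime d c) : ∃ γ : SL(2, ℤ), γ 1 0 = c ∧ γ 1 1 = d := by
  obtain ⟨x, y, e⟩ := h
  exact ⟨mk x (-y) c d (by linear_combination e), rfl, rfl⟩

theorem cop {l N : ℕ} (hl : l.Prime) (h : ¬ l ∣ N) : IsCoprime (l : ℤ) (N : ℤ) :=
  Nat.isCoprime_iff_coprime.2 ((Nat.Prime.coprime_iff_not_dvd hl).2 h)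

theorem exists_unit_row {N : ℕ} (hN : 0 < N) (a : (ZMod N)ˣ) :
    ∃ γ : SL(2, ℤ), (N : ℤ) ∣ γ 1 0 ∧ (a : ZMod N) = ((γ 1 1 : ℤ) : ZMod N) := by
  haveI : NeZero N := ⟨hN.ne'⟩
  obtain ⟨γ, h1, h2⟩ := exists_row (c := N) (d := ((a : ZMod N).val : ℕ))
    (Nat.isCoprime_iff_coprime.2 (ZMod.val_coe_unit_coprime a))
  exact ⟨γ, h1 ▸ dvd_rfl, by rw [h2]; simp⟩

theorem mem_GH_one {N : ℕ} (H : Subgroup (ZMod N)ˣ) {γ : SL(2, ℤ)} (h1 : (N : ℤ) ∣ γ 1 0)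
    (h2 : (N : ℤ) ∣ γ 1 1 - 1) : γ ∈ GH N H := by
  refine ⟨h1, 1, H.one_mem, ?_⟩
  have := (ZMod.intCast_zmod_eq_zero_iff_dvd _ _).2 h2
  push_cast at this
  rw [Units.val_one, sub_eq_zero.1 this]

/-- `Γ⁰(l)` -/
def Gu (l : ℕ) : Subgroup SL(2, ℤ) where
  carrier := {γ | (l : ℤ) ∣ γ 0 1}
  one_mem' := by simp
  mul_mem' := by
    intro γ δ h1 h2
    show (l : ℤ) ∣ (γ * δ) 0 1
    rw [mul01]
    exact dvd_add (Dvd.dvd.mul_left h2 _) (Dvd.dvd.mul_right h1 _)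
  inv_mem' := by
    intro γ h
    show (l : ℤ) ∣ (γ⁻¹) 0 1
    rw [inv01]
    exact Dvd.dvd.neg_right h

theorem mem_Gu {l : ℕ} {γ : SL(2, ℤ)} : γ ∈ Gu l ↔ (l : ℤ) ∣ γ 0 1 := Iff.rfl

/-- `diag(1, l)` -/
def dg (l : ℕ) : M2 := !![1, 0; 0, (l : ℤ)]

theorem dg_pos {l : ℕ} (h : 0 < l) : 0 < (dg l).det := by
  rw [dg, Matrix.det_fin_two_of]; simpa using h

/-- `g = diag(1, l) γ diag(1, l)⁻¹` -/
def Rl (l : ℕ) (γ g : SL(2, ℤ)) : Prop := dg l * (γ : M2) = (g : M2) * dg l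

theorem rl_iff {l : ℕ} {γ g : SL(2, ℤ)} : Rl l γ g ↔
    γ 0 0 = g 0 0 ∧ γ 0 1 = g 0 1 * l ∧ l * γ 1 0 = g 1 0 ∧ l * γ 1 1 = g 1 1 * l := by
  rw [Rl, ← Matrix.ext_iff]
  simp [dg, Fin.forall_fin_two, Matrix.mul_apply, Fin.sum_univ_two, Matrix.vecMul, dotProduct,
    and_assoc]

theorem Rl.mul {l : ℕ} {γ g γ' g' : SL(2, ℤ)} (h : Rl l γ g) (h' : Rl l γ' g') :
    Rl l (γ * γ') (g * g') := by
  unfold Rl at *
  rw [Matrix.SpecialLinearGroup.coe_mul, Matrix.SpecialLinearGroup.coe_mul, ← Matrix.mul_assoc, h,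
    Matrix.mul_assoc, h', Matrix.mul_assoc]

theorem Rl.inv {l : ℕ} {γ g : SL(2, ℤ)} (h : Rl l γ g) (hl : 0 < l) : Rl l γ⁻¹ g⁻¹ := by
  have h0 : (l : ℤ) ≠ 0 := by exact_mod_cast hl.ne'
  rw [rl_iff] at h ⊢
  obtain ⟨h1, h2, h3, h4⟩ := h
  rw [inv00, inv00, inv01, inv01, inv10, inv10, inv11, inv11]
  refine ⟨mul_left_cancel₀ h0 (by linear_combination h4), by linear_combination -h2,
    by linear_combination -h3, by linear_combination l * h1⟩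

theorem exists_rl {l : ℕ} {γ : SL(2, ℤ)} (h : γ ∈ Gu l) : ∃ g, Rl l γ g := by
  obtain ⟨b, hb⟩ := h
  refine ⟨mk (γ 0 0) b (l * γ 1 0) (γ 1 1) (by linear_combination det' γ + γ 1 0 * hb), ?_⟩
  rw [rl_iff, mk00, mk01, mk10, mk11]
  exact ⟨rfl, by linear_combination hb, rfl, by ring⟩

theorem exists_rl' {l : ℕ} {g : SL(2, ℤ)} (h : (l : ℤ) ∣ g 1 0) : ∃ γ, Rl l γ g := by
  obtain ⟨c, hc⟩ := h
  refine ⟨mk (g 0 0) (g 0 1 * l) c (g 1 1) (by linear_combination det' g + g 0 1 * hc), ?_⟩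
  rw [rl_iff, mk00, mk01, mk10, mk11]
  exact ⟨rfl, rfl, hc.symm, by ring⟩

theorem Rl.gu {l : ℕ} {γ g : SL(2, ℤ)} (h : Rl l γ g) : γ ∈ Gu l := by
  rw [mem_Gu, (rl_iff.1 h).2.1]; exact Dvd.intro_left _ rfl

theorem Rl.e11 {l : ℕ} {γ g : SL(2, ℤ)} (h : Rl l γ g) (hl : 0 < l) : γ 1 1 = g 1 1 := by
  have h0 : (l : ℤ) ≠ 0 := by exact_mod_cast hl.ne'
  exact mul_left_cancel₀ h0 (by linear_combination (rl_iff.1 h).2.2.2)

theorem Rl.gh {l N : ℕ} {H : Subgroup (ZMod N)ˣ} {γ g : SL(2, ℤ)} (h : Rl l γ g) (hl : 0 < l)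
    (hγ : γ ∈ GH N H) : g ∈ GH N H := by
  obtain ⟨h1, h2⟩ := hγ
  refine ⟨?_, h.e11 hl ▸ h2⟩
  rw [← (rl_iff.1 h).2.2.1]; exact h1.mul_left _

theorem Rl.gh' {l N : ℕ} {H : Subgroup (ZMod N)ˣ} {γ g : SL(2, ℤ)} (h : Rl l γ g) (hl : 0 < l)
    (hc : IsCoprime (l : ℤ) (N : ℤ)) (hg : g ∈ GH N H) : γ ∈ GH N H := by
  obtain ⟨h1, h2⟩ := hg
  refine ⟨?_, (h.e11 hl).symm ▸ h2⟩
  rw [← (rl_iff.1 h).2.2.1] at h1
  exact hc.symm.dvd_of_dvd_mul_left h1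

theorem cj_dg {l N : ℕ} (hl : 0 < l) (H : Subgroup (ZMod N)ˣ) :
    Cj (dg l) (GH N H) (GH N H ⊓ Gu l) := by
  intro γ hγ
  obtain ⟨g, hg⟩ := exists_rl hγ.2
  exact ⟨g, hg.gh hl hγ.1, hg⟩

theorem Reps.trans {I J : Type} {Γ Γ' Γ'' : Subgroup SL(2, ℤ)} {c : I → SL(2, ℤ)} {t : J → SL(2, ℤ)}
    (hc : Reps Γ Γ' c) (ht : Reps Γ' Γ'' t) (h : Γ' ≤ Γ) (h' : Γ'' ≤ Γ') :
    Reps Γ Γ'' fun p : I × J => t p.2 * c p.1 := by
  refine ⟨fun p => Γ.mul_mem (h (ht.mem _)) (hc.mem _), fun γ hγ => ?_, ?_⟩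
  · obtain ⟨i, hi⟩ := hc.cov γ hγ
    obtain ⟨j, hj⟩ := ht.cov _ hi
    exact ⟨(i, j), by rwa [_root_.mul_inv_rev, ← mul_assoc]⟩
  · rintro ⟨i, j⟩ ⟨i', j'⟩ e
    have e1 : c i * (c i')⁻¹ ∈ Γ' := by
      have := Γ'.mul_mem (Γ'.mul_mem (Γ'.inv_mem (ht.mem j)) (h' e)) (ht.mem j')
      have e2 : (t j)⁻¹ * (t j * c i * (t j' * c i')⁻¹) * t j' = c i * (c i')⁻¹ := by group
      rwa [e2] at this
    obtain rfl := hc.inj _ _ e1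
    have e2 : t j * c i * (t j' * c i)⁻¹ = t j * (t j')⁻¹ := by group
    rw [show j = j' from ht.inj _ _ (e2 ▸ e)]

theorem exists_reps (Γ Γ' : Subgroup SL(2, ℤ)) :
    ∃ c : Γ ⧸ Γ'.subgroupOf Γ → SL(2, ℤ), Reps Γ Γ' c := by
  refine ⟨fun q => ((q.out : Γ) : SL(2, ℤ))⁻¹, fun q => Γ.inv_mem q.out.2, fun γ hγ => ?_,
    fun p q e => ?_⟩
  · refine ⟨QuotientGroup.mk ⟨γ⁻¹, Γ.inv_mem hγ⟩, ?_⟩
    have := QuotientGroup.eq.1 (QuotientGroup.out_eq' (s := Γ'.subgroupOf Γ)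
      (QuotientGroup.mk ⟨γ⁻¹, Γ.inv_mem hγ⟩)).symm
    rw [Subgroup.mem_subgroupOf] at this
    simpa using this
  · rw [← QuotientGroup.out_eq' p, ← QuotientGroup.out_eq' q, QuotientGroup.eq,
      Subgroup.mem_subgroupOf]
    simpa using e

/-- the translations -/
def tr (j : ℤ) : SL(2, ℤ) := mk 1 j 0 1 (by ring)

/-- the representatives for `T_l`; `d` has lower right entry `l` -/
def rT {l : ℕ} (d : SL(2, ℤ)) (hd : d 1 1 = l) : Option (Fin l) → SL(2, ℤ)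
  | some j => tr j.1
  | none => mk (l * d 0 0) (d 0 1) (d 1 0) 1 (by linear_combination det' d - d 0 0 * hd)

theorem al_some {l : ℕ} (d : SL(2, ℤ)) (j : Fin l) : al 1 l d (some j) = dg l * (tr j.1 : M2) := by
  ext a b
  fin_cases a <;> fin_cases b <;> simp [al, dg, tr, mk, Matrix.mul_apply, Fin.sum_univ_two]

theorem al_eq {l : ℕ} (d : SL(2, ℤ)) (hd : d 1 1 = l) (i : Option (Fin l)) :
    al 1 l d i = dg l * (rT d hd i : M2) := by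
  cases i with
  | some j => exact al_some d j
  | none =>
    ext a b
    fin_cases a <;> fin_cases b <;>
      simp [al, dg, rT, mk, Matrix.mul_apply, Fin.sum_univ_two, hd, mul_comm]

theorem tr_cov {l : ℕ} (hl : l.Prime) (γ : SL(2, ℤ)) (h : ¬ (l : ℤ) ∣ γ 0 0) :
    ∃ j : Fin l, γ * (tr j.1)⁻¹ ∈ Gu l := by
  haveI := Fact.mk hl
  have h0 : ((γ 0 0 : ℤ) : ZMod l) ≠ 0 := fun e => h ((ZMod.intCast_zmod_eq_zero_iff_dvd _ _).1 e)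
  refine ⟨⟨(((γ 0 1 : ℤ) : ZMod l) / ((γ 0 0 : ℤ) : ZMod l)).val, ZMod.val_lt _⟩, ?_⟩
  rw [mem_Gu, mul01, inv01, inv11, tr, mk01, mk00, ← ZMod.intCast_zmod_eq_zero_iff_dvd]
  push_cast
  rw [ZMod.natCast_val, ZMod.cast_id', id]
  field_simp
  ring

theorem tr_inj {l : ℕ} (i j : Fin l) (h : tr i.1 * (tr j.1)⁻¹ ∈ Gu l) : i = j := by
  rw [mem_Gu, mul01, inv01, inv11, tr, tr, mk01, mk00, mk01, mk00] at h
  have h1 := i.2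
  have h2 := j.2
  have : 1 * -((j : ℕ) : ℤ) + ((i : ℕ) : ℤ) * 1 = 0 :=
    Int.eq_zero_of_abs_lt_dvd h (by rw [abs_lt]; constructor <;> omega)
  exact Fin.ext (by omega)

theorem tr_mem {N : ℕ} (H : Subgroup (ZMod N)ˣ) (j : ℤ) : tr j ∈ GH N H :=
  mem_GH_one H (dvd_zero _) (by rw [tr, mk11]; simp)

theorem reps_U {l N : ℕ} (hl : l.Prime) (h : l ∣ N) (H : Subgroup (ZMod N)ˣ) :
    Reps (GH N H) (GH N H ⊓ Gu l) fun j : Fin l => tr j.1 := by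
  refine ⟨fun j => tr_mem H _, fun γ hγ => ?_, fun i j e => tr_inj i j e.2⟩
  obtain ⟨j, hj⟩ := tr_cov hl γ fun e => by
    have h1 : (l : ℤ) ∣ γ 1 0 := (Int.natCast_dvd_natCast.2 h).trans hγ.1
    have h2 : (l : ℤ) ∣ 1 := det' γ ▸ dvd_sub (e.mul_right _) (h1.mul_left _)
    exact hl.one_lt.ne' (by exact_mod_cast Int.eq_one_of_dvd_one (by positivity) h2)
  exact ⟨j, (GH N H).mul_mem hγ ((GH N H).inv_mem (tr_mem H _)), hj⟩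

theorem reps_T {l N : ℕ} (hl : l.Prime) (H : Subgroup (ZMod N)ˣ) (d : SL(2, ℤ)) (hd : d 1 1 = l)
    (hN : (N : ℤ) ∣ d 1 0) : Reps (GH N H) (GH N H ⊓ Gu l) (rT d hd) := by
  have hm : ∀ i, rT d hd i ∈ GH N H := by
    rintro (_ | j)
    · exact mem_GH_one H hN (by rw [rT, mk11]; simp)
    · exact tr_mem H _
  have nb : ¬ (l : ℤ) ∣ d 0 1 := fun e => by
    have h2 : (l : ℤ) ∣ 1 := det' d ▸ dvd_sub (hd ▸ Dvd.intro_left _ rfl) (e.mul_right _)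
    exact hl.one_lt.ne' (by exact_mod_cast Int.eq_one_of_dvd_one (by positivity) h2)
  have key : ∀ j : Fin l, rT d hd none * (tr j.1)⁻¹ ∉ Gu l := by
    intro j e
    rw [mem_Gu, mul01, inv01, inv11, rT, tr, mk00, mk01, mk01, mk00] at e
    apply nb
    have := dvd_add e (Dvd.intro (d 0 0 * (j.1 : ℤ)) rfl)
    have e2 : d 0 1 = l * d 0 0 * -(j.1 : ℤ) + d 0 1 * 1 + l * (d 0 0 * (j.1 : ℤ)) := by ring
    rw [e2]; exact this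
  refine ⟨hm, fun γ hγ => ?_, ?_⟩
  · by_cases h : (l : ℤ) ∣ γ 0 0
    · refine ⟨none, (GH N H).mul_mem hγ ((GH N H).inv_mem (hm _)), mem_Gu.2 ?_⟩
      rw [mul01, inv01, inv11, rT, mk00, mk01]
      exact dvd_add (h.mul_right _) ((Dvd.intro _ rfl).mul_left _)
    · obtain ⟨j, hj⟩ := tr_cov hl γ h
      exact ⟨some j, (GH N H).mul_mem hγ ((GH N H).inv_mem (hm _)), hj⟩
  · rintro (_ | i) (_ | j) e
    · rfl
    · exact absurd e.2 (key j)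
    · have := (Gu l).inv_mem e.2
      rw [_root_.mul_inv_rev, inv_inv] at this
      exact absurd this (key i)
    · rw [tr_inj i j e.2]

theorem mid_up (hG : GRP) {N : ℕ} {Γ : Subgroup SL(2, ℤ)} (h : Mid N Γ) {M : ℕ} (hM : 0 < M) :
    Mid (N * M) Γ :=
  ⟨((hG N h.lv).2.2.2.2.2.2.1 M hM).1, ((hG N h.lv).2.2.2.2.2.2.1 M hM).2.trans h.lo, h.hi⟩

theorem mid_gu (hG : GRP) {N : ℕ} {Γ : Subgroup SL(2, ℤ)} (h : Mid N Γ) {l : ℕ} (hl : 0 < l) :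
    Mid (N * l) (Γ ⊓ Gu l) := by
  refine ⟨(mid_up hG h hl).lv, le_inf (mid_up hG h hl).lo fun γ hγ => ?_, inf_le_left.trans h.hi⟩
  refine Dvd.dvd.trans ?_ hγ.2.1
  push_cast
  exact Dvd.intro_left _ rfl

theorem mid_gh (hG : GRP) {N : ℕ} (hN : Lv N) {H : Subgroup (ZMod N)ˣ} (h : -1 ∈ H) :
    Mid N (GH N H) := ((hG N hN).2.2.2.2.2.2.2 H).2.1 h

theorem Mid.fin (hG : GRP) {N : ℕ} {Γ : Subgroup SL(2, ℤ)} (h : Mid N Γ) : Γ.FiniteIndex :=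
  haveI := (hG N h.lv).1
  Subgroup.finiteIndex_of_le h.lo

variable (X : Mdl)

theorem T_eq {l : ℕ} (hl : 0 < l) (d : SL(2, ℤ)) (hd : d 1 1 = l) (x : FF) :
    X.T hl d x = ∏ i, X.pg (rT d hd i) (X.pb (dg l) (dg_pos hl) x) := by
  show ∏ i, X.pb (al 1 l d i) (al_pos hl d i) x = _
  refine Finset.prod_congr rfl fun i _ => ?_
  rw [Mdl.pg, ← pb_mul X (dg_pos hl) (SL_pos _) (mul_pos' (dg_pos hl) (SL_pos _))]
  exact pb_congr X (al_eq d hd i) _ _ x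

theorem U_eq {l : ℕ} (hl : 0 < l) (x : FF) :
    X.U hl x = ∏ j : Fin l, X.pg (tr j.1) (X.pb (dg l) (dg_pos hl) x) := by
  show ∏ j : Fin l, X.pb (al 1 l 1 (some j)) (al_pos hl 1 (some j)) x = _
  refine Finset.prod_congr rfl fun i _ => ?_
  rw [Mdl.pg, ← pb_mul X (dg_pos hl) (SL_pos _) (mul_pos' (dg_pos hl) (SL_pos _))]
  exact pb_congr X (al_some 1 i) _ _ x

variable {X}

theorem DU.hecke (hF : FAITH X) (hG : GRP) (hC : CFFS) {N : ℕ} {H : Subgroup (ZMod N)ˣ} (hN : Lv N)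
    (hH : -1 ∈ H) [CFF Qb (L (GH N H))] {l : ℕ} (hl : 0 < l) {I : Type} [Fintype I]
    {c : I → SL(2, ℤ)} (hc : Reps (GH N H) (GH N H ⊓ Gu l) c) {n : ℕ} {x : FF}
    (hx : DU (GH N H) n x) : DU (GH N H) n (∏ i, X.pg (c i) (X.pb (dg l) (dg_pos hl) x)) := by
  have m := mid_gh hG hN hH
  haveI := hC _ (mid_gu hG m hl).hi (Mid.fin hG (mid_gu hG m hl))
  exact DU.norm hF inf_le_left (mid_up hG m hl) (mid_gu hG m hl) hc (hx.pb _ (cj_dg hl H))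

theorem exists_del {l N : ℕ} (hl : l.Prime) (h : ¬ l ∣ N) :
    ∃ d : SL(2, ℤ), d 1 1 = l ∧ (N : ℤ) ∣ d 1 0 ∧ IsDel 1 N l d := by
  obtain ⟨d, h1, h2⟩ := exists_row (cop hl h)
  exact ⟨d, h2, h1 ▸ dvd_rfl, h1 ▸ dvd_rfl, one_dvd _, by rw [h2, sub_self]; exact dvd_zero _⟩

end Dp

end Vale.Agent.P027M.M
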