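import Vale.Agent.P027M.M.DpAct
import Vale.Agent.P027M.M.Hec1
import Vale.Agent.P027M.M.CPb

/-! # P027, block M, part D': the Atkin-Lehner operator -/

set_option linter.all false
set_option autoImplicit false

open UpperHalfPlane Matrix
open scoped MatrixGroups IntermediateField

noncomputable section

namespace Vale.Agent.P027M.M

open Vale.Agent.P022 Vale.Agent.P022.H218.L3 Vale.Agent.P022.H231.L3 Vale.Agent.P022.H236.L3
  Vale.Agent.P022.H542.L3 Vale.Agent.P019P P025H816 P025H492 Vale.Agent.P027M.TW Dp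

namespace Alk

variable {N q : ℕ} {d : SL(2, ℤ)}

theorem mem_up {H : Subgroup (ZMod N)ˣ} {γ : SL(2, ℤ)} :
    γ ∈ GH (N * q) (up H q) ↔ ((N * q : ℕ) : ℤ) ∣ γ 1 0 ∧ γ ∈ GH N H := by
  constructor
  · rintro ⟨h1, a, ha, h2⟩
    refine ⟨h1, (Int.natCast_dvd_natCast.2 (dvd_mul_right N q)).trans h1, _, ha, ?_⟩
    rw [ZMod.unitsMap_val, h2, ZMod.cast_intCast (dvd_mul_right N q)]
  · rintro ⟨h1, -, a, ha, h2⟩
    have h3 : ((γ 1 1 : ℤ) : ZMod (N * q)) * ((γ 0 0 : ℤ) : ZMod (N * q)) = 1 := by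
      have h4 := congrArg (Int.cast : ℤ → ZMod (N * q)) (det' γ)
      push_cast at h4
      rw [(ZMod.intCast_zmod_eq_zero_iff_dvd _ _).2 h1, mul_zero, sub_zero] at h4
      exact (mul_comm _ _).trans h4
    refine ⟨h1, Units.mkOfMulEqOne _ _ h3, ?_, rfl⟩
    have e : ZMod.unitsMap (dvd_mul_right N q) (Units.mkOfMulEqOne _ _ h3) = a := Units.ext (by
      rw [ZMod.unitsMap_val, Units.val_mkOfMulEqOne, h2, ZMod.cast_intCast (dvd_mul_right N q)])
    rw [up, Subgroup.mem_comap, e]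
    exact ha

theorem neg_up {H : Subgroup (ZMod N)ˣ} (h : -1 ∈ H) : -1 ∈ up H q := by
  have e : ZMod.unitsMap (dvd_mul_right N q) (-1) = -1 := Units.ext (by
    rw [ZMod.unitsMap_val, Units.val_neg, Units.val_one, Units.val_neg, Units.val_one,
      ZMod.cast_neg (dvd_mul_right N q), ZMod.cast_one (dvd_mul_right N q)])
  rw [up, Subgroup.mem_comap, e]
  exact h

theorem dn {a : ℤ} (h : ((N * q : ℕ) : ℤ) ∣ a) : (N : ℤ) ∣ a :=
  (Int.natCast_dvd_natCast.2 (dvd_mul_right N q)).trans h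

theorem mul_inv_up (H : Subgroup (ZMod N)ˣ) {γ γ' : SL(2, ℤ)} (h : ((N * q : ℕ) : ℤ) ∣ γ 1 0)
    (h' : ((N * q : ℕ) : ℤ) ∣ γ' 1 0) (e : (N : ℤ) ∣ γ 1 1 - γ' 1 1) :
    γ * γ'⁻¹ ∈ GH (N * q) (up H q) := by
  refine mem_up.2 ⟨?_, Hec.mul_inv_mem H (dn h) (dn h') e⟩
  rw [mul10, inv10]
  exact dvd_add (h.mul_right _) (h'.neg_right.mul_left _)

theorem w_eq : al 1 q d none = !![d 0 0 * q, d 0 1; d 1 0 * q, d 1 1] := by
  ext i j
  fin_cases i <;> fin_cases j <;> simp [al, Matrix.mul_apply, Fin.sum_univ_two]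

/-- conjugation of integral matrices -/
theorem cjM (hd : IsAL N q d) (B : M2) (h : ((N * q : ℕ) : ℤ) ∣ B 1 0) : ∃ B' : M2,
    al 1 q d none * B = B' * al 1 q d none ∧ ((N * q : ℕ) : ℤ) ∣ B' 1 0 ∧
      (N : ℤ) ∣ B' 1 1 - B 1 1 := by
  obtain ⟨⟨⟨c, hc⟩, -, -⟩, e, he⟩ := hd
  obtain ⟨κ, hκ⟩ := h
  have h1 := det' d
  rw [w_eq, Matrix.eta_fin_two B]
  push_cast at hκ ⊢
  rw [hκ, hc, he] at *
  generalize d 0 0 = a at *
  generalize d 0 1 = b at *
  generalize B 0 0 = α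
  generalize B 0 1 = β
  generalize B 1 1 = δ
  refine ⟨!![(a * α + b * N * κ) * (q * e) - (a * q * β + b * δ) * (N * c),
    -(a * α + b * N * κ) * b + (a * q * β + b * δ) * a;
    (N * c * α + q * e * N * κ) * (q * e) - (N * c * q * β + q * e * δ) * (N * c),
    -(N * c * α + q * e * N * κ) * b + (N * c * q * β + q * e * δ) * a], ?_,
    ⟨(c * α + q * e * κ) * e - (N * c * β + e * δ) * c, ?_⟩,
    ⟨-(c * α + q * e * κ) * b + c * q * β * a + b * c * δ, ?_⟩⟩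
  · rw [Matrix.mul_fin_two, Matrix.mul_fin_two]
    ext i j
    fin_cases i <;> fin_cases j
    · show a * q * α + b * (N * q * κ) = _ * (a * q) + _ * (N * c * q)
      linear_combination (-(q * (a * α + b * N * κ))) * h1
    · show a * q * β + b * δ = _ * b + _ * (q * e)
      linear_combination (-(a * q * β + b * δ)) * h1
    · show N * c * q * α + q * e * (N * q * κ) = _ * (a * q) + _ * (N * c * q)
      linear_combination (-(q * (N * c * α + q * e * N * κ))) * h1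
    · show N * c * q * β + q * e * δ = _ * b + _ * (q * e)
      linear_combination (-(N * c * q * β + q * e * δ)) * h1
  · show (N * c * α + q * e * N * κ) * (q * e) - (N * c * q * β + q * e * δ) * (N * c) = _
    ring
  · show -(N * c * α + q * e * N * κ) * b + (N * c * q * β + q * e * δ) * a - δ = _
    linear_combination δ * h1

theorem det_cj (hq : 0 < q) {B B' : M2} (e : al 1 q d none * B = B' * al 1 q d none) :
    B'.det = B.det := by
  have h := congrArg Matrix.det e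
  rw [Matrix.det_mul, Matrix.det_mul, det_al, mul_comm] at h
  exact (mul_right_cancel₀ (by exact_mod_cast hq.ne') h).symm

theorem cjS (hq : 0 < q) (hd : IsAL N q d) (γ : SL(2, ℤ)) (h : ((N * q : ℕ) : ℤ) ∣ γ 1 0) :
    ∃ g : SL(2, ℤ), al 1 q d none * (γ : M2) = (g : M2) * al 1 q d none ∧
      ((N * q : ℕ) : ℤ) ∣ g 1 0 ∧ (N : ℤ) ∣ g 1 1 - γ 1 1 := by
  obtain ⟨B, h1, h2, h3⟩ := cjM hd γ h
  exact ⟨⟨B, (det_cj hq h1).trans γ.det_coe⟩, h1, h2, h3⟩

theorem cj (hq : 0 < q) (hd : IsAL N q d) (H : Subgroup (ZMod N)ˣ) :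
    Cj (al 1 q d none) (GH (N * q) (up H q)) (GH (N * q) (up H q)) := by
  intro γ hγ
  obtain ⟨g, h1, h2, h3⟩ := cjS hq hd γ hγ.1
  refine ⟨g, ?_, h1⟩
  have := mul_mem (mul_inv_up H h2 hγ.1 h3) hγ
  rwa [inv_mul_cancel_right] at this

/-- the square of the matrix -/
theorem sq (hd : IsAL N q d) : ∃ γ : SL(2, ℤ), ((N * q : ℕ) : ℤ) ∣ γ 1 0 ∧
    al 1 q d none * al 1 q d none = ((q : ℤ) • (1 : M2)) * (γ : M2) := by
  obtain ⟨⟨⟨c, hc⟩, -, -⟩, e, he⟩ := hd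
  have h1 := det' d
  rw [w_eq]
  rw [hc, he] at *
  generalize d 0 0 = a at *
  generalize d 0 1 = b at *
  refine ⟨mk (a * a * q + b * (N * c)) (a * b + b * e) (N * c * q * a + q * e * (N * c))
    (N * c * b + q * e * e) (by linear_combination (a * (q * e) - b * (N * c) + 1) * h1),
    ⟨c * (a + e), by rw [mk10]; push_cast; ring⟩, ?_⟩
  rw [Matrix.smul_mul, Matrix.one_mul, Matrix.mul_fin_two]
  ext i j
  fin_cases i <;> fin_cases j
  · show a * q * (a * q) + b * (N * c * q) = q * (a * a * q + b * (N * c))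
    ring
  · show a * q * b + b * (q * e) = q * (a * b + b * e)
    ring
  · show N * c * q * (a * q) + q * e * (N * c * q) = q * (N * c * q * a + q * e * (N * c))
    ring
  · show N * c * q * b + q * e * (q * e) = q * (N * c * b + q * e * e)
    ring

theorem lift0 {M t₀ t₁ t₂ : ℤ} (h : M ∣ t₀ * t₂ - 1) :
    ∃ γ : SL(2, ℤ), M ∣ γ 0 0 - t₀ ∧ M ∣ γ 0 1 - t₁ ∧ γ 1 0 = M ∧ γ 1 1 = t₂ := by
  obtain ⟨z, hz⟩ := h
  refine ⟨mk (t₀ + t₀ * (t₁ - z) * M) (z + t₀ * (t₁ - z) * t₂) M t₂ (by linear_combination hz),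
    ⟨t₀ * (t₁ - z), by rw [mk00]; ring⟩, ⟨z * (t₁ - z), ?_⟩, rfl, rfl⟩
  rw [mk01]
  linear_combination (t₁ - z) * hz

/-- the twist of the matrix -/
theorem tw (hd : IsAL N q d) (H : Subgroup (ZMod N)ˣ) {k : ℤ}
    (hk : IsCoprime k ((N * q : ℕ) : ℤ)) :
    ∃ γ ∈ GH (N * q) (up H q), Tw (N * q) k d (γ * d) := by
  obtain ⟨⟨⟨c, hc⟩, -, -⟩, e, he⟩ := hd
  obtain ⟨u, v, huv⟩ := hk
  have h1 := det' d
  have h2 : d 1 0 * d 1 1 = ((N * q : ℕ) : ℤ) * (c * e) := by rw [hc, he]; push_cast; ring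
  set M : ℤ := ((N * q : ℕ) : ℤ) with hM
  obtain ⟨γ, ⟨x, g0⟩, ⟨y, g1⟩, g2, g3⟩ := lift0 (M := M) (t₀ := d 0 0 * d 1 1 - k * d 0 1 * d 1 0)
    (t₁ := (k - 1) * d 0 0 * d 0 1) (t₂ := d 0 0 * d 1 1 - u * d 0 1 * d 1 0)
    ⟨(2 - u - k) * d 0 0 * d 0 1 * (c * e) - v * (d 0 1 * d 1 0) ^ 2, by
      linear_combination (d 0 0 * d 1 1 - d 0 1 * d 1 0 + 1) * h1 +
        (2 - u - k) * d 0 0 * d 0 1 * h2 + (d 0 1 * d 1 0) ^ 2 * huv⟩
  have g4 : ((N * q : ℕ) : ℤ) ∣ γ 1 0 := by rw [g2]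
  refine ⟨γ, mem_up.2 ⟨g4, mem_GH_one H (dn g4)
    ⟨(1 - u) * d 0 1 * c, ?_⟩⟩, ⟨x * d 0 0 + y * d 1 0, ?_⟩, ⟨x * d 0 1 + y * d 1 1, ?_⟩,
    ⟨k * d 0 0 + (k - 1) * d 0 0 * (c * e) + v * d 0 1 * d 1 0 * d 1 0, ?_⟩,
    ⟨d 0 1 + (1 - u) * d 0 1 * (c * e), ?_⟩⟩
  · rw [g3]
    linear_combination h1 + (1 - u) * d 0 1 * hc
  · rw [mul00]
    linear_combination d 0 0 * g0 + d 1 0 * g1 + d 0 0 * h1
  · rw [mul01]
    linear_combination d 0 1 * g0 + d 1 1 * g1 + k * d 0 1 * h1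
  · rw [mul10, g2, g3]
    linear_combination (k - 1) * d 0 0 * h2 - d 0 1 * d 1 0 * d 1 0 * huv + d 1 0 * h1
  · rw [mul11, g2, g3]
    linear_combination d 1 1 * h1 + (1 - u) * d 0 1 * h2

variable (X : Mdl)

/-- the Galois action commutes with `τ ↦ q τ` -/
theorem gal_V (hG : GALX X) (hE : EXP) (hC : CF) (hq : 0 < q) (g : GQ) (x : FF) :
    X.gal g (X.pb !![(q : ℤ), 0; 0, 1] (diag_pos hq) x) =
      X.pb !![(q : ℤ), 0; 0, 1] (diag_pos hq) (X.gal g x) := by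
  obtain ⟨M, hM, -, s, hs, ha⟩ := cv_mem x
  obtain ⟨s', hs'⟩ := (hC g).2.1 s ha
  have key : ∀ (y : FF) (r : LS), ExM M r (cv y) →
      ExM M (sb q hq r) (cv (X.pb !![(q : ℤ), 0; 0, 1] (diag_pos hq) y)) := by
    intro y r hr
    have h1 := hE.2.1 M q 1 0 hq one_pos hM (diag_pos hq) r _ hr
    have h2 : rs (ze (M * 1) 0) (ze_ne _ _) r = r := by
      ext n
      rw [coeff_rs, ze]
      simp
    rw [h2, mul_one] at h1
    rw [X.pb_coe]
    exact h1
  exact cv_inj (hE.1 M _ _ _ hM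
    (hG.1 g _ M _ _ hM (key x s hs) (((hC g).2.2.2.2.2.2.1 s s' q hq).2 hs'))
    (key _ s' (hG.1 g x M s s' hM hs hs')))

theorem pb_w (hq : 0 < q) (x : FF) : X.pb (al 1 q d none) (al_pos hq d none) x =
    X.pb !![(q : ℤ), 0; 0, 1] (diag_pos hq) (X.pg d x) :=
  (Hec.pb_mul X rfl _ _ _ x).symm

theorem pb_sq (hq : 0 < q) {γ : SL(2, ℤ)}
    (e : al 1 q d none * al 1 q d none = ((q : ℤ) • (1 : M2)) * (γ : M2)) (x : FF) :
    X.pb (al 1 q d none) (al_pos hq d none) (X.pb (al 1 q d none) (al_pos hq d none) x) =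
      X.pg γ x := by
  have h0 : (q : ℤ) ≠ 0 := by exact_mod_cast hq.ne'
  have h1 : 0 < ((q : ℤ) • (1 : M2)).det := by
    rw [Matrix.det_smul, Matrix.det_one, mul_one]
    positivity
  rw [Hec.pb_swap X e _ _ h1 (SL_pos γ), Mdl.pg]
  congr 1
  exact cv_inj (by rw [X.pb_coe, Pb.scal h1 h0 rfl])

/-- the cosets of `T_l` are permuted -/
theorem perm (hq : 0 < q) (hd : IsAL N q d) (H : Subgroup (ZMod N)ˣ) {l : ℕ} (hl : l.Prime)
    (h : ¬ l ∣ N * q) {δ : SL(2, ℤ)} (hδ : IsDel 1 (N * q : ℕ) l δ) :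
    ∃ (π : Equiv.Perm (Option (Fin l))) (g : Option (Fin l) → SL(2, ℤ)), ∀ i,
      g i ∈ GH (N * q) (up H q) ∧
        al 1 q d none * al 1 l δ i = (g i : M2) * al 1 l δ (π i) * al 1 q d none := by
  have ex : ∀ i, ∃ (j : Option (Fin l)) (g : SL(2, ℤ)), g ∈ GH (N * q) (up H q) ∧
      al 1 q d none * al 1 l δ i = (g : M2) * al 1 l δ j * al 1 q d none := by
    intro i
    obtain ⟨-, r2, -, r4⟩ := RR.al hδ i
    obtain ⟨B, b1, b2, b3⟩ := cjM hd _ r2
    obtain ⟨j, g, e⟩ := exists_coset (P := 1) hl isCoprime_one_right δ B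
      ((det_cj hq b1).trans (det_al _ _ _ _))
    obtain ⟨-, s2, s3, s4⟩ := RR.al hδ j
    have e2 : (l : ℤ) • (g : M2) = B * Matrix.adjugate (al 1 l δ j) := by
      rw [e, Matrix.mul_assoc, Matrix.mul_adjugate, det_al, Matrix.mul_smul, Matrix.mul_one]
    have e3 := congrFun (congrFun e2 1) 0
    have e4 := congrFun (congrFun e2 1) 1
    rw [Matrix.adjugate_fin_two] at e3 e4
    simp only [Matrix.smul_apply, smul_eq_mul, Matrix.mul_apply, Fin.sum_univ_two, Matrix.of_apply,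
      Matrix.cons_val', Matrix.cons_val_zero, Matrix.cons_val_one, Matrix.cons_val_fin_one] at e3 e4
    have c1 := (cop hl h).symm
    have c2 : IsCoprime (N : ℤ) (l : ℤ) := by
      rw [Nat.cast_mul] at c1
      exact c1.of_mul_left_left
    have g1 : ((N * q : ℕ) : ℤ) ∣ g 1 0 := c1.dvd_of_dvd_mul_left (by
      rw [e3]
      exact dvd_add (b2.mul_right _) (s2.neg_right.mul_left _))
    refine ⟨j, g, mem_up.2 ⟨g1, mem_GH_one H (dn g1) (c2.dvd_of_dvd_mul_left ?_)⟩, by rw [← e, b1]⟩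
    have e5 : (l : ℤ) * (g 1 1 - 1) = B 1 0 * -al 1 l δ j 0 1 + B 1 1 * (al 1 l δ j 0 0 - 1) +
        (B 1 1 - al 1 l δ i 1 1) + (al 1 l δ i 1 1 - l) := by linear_combination e4
    rw [e5]
    exact dvd_add (dvd_add (dvd_add ((dn b2).mul_right _) ((dn s3).mul_left _)) b3) (dn r4)
  choose π g hg e using ex
  obtain ⟨γ, -, hγ⟩ := sq hd
  have key : ∀ i, ∃ G : SL(2, ℤ), (q : ℤ) • ((G : M2) * al 1 l δ i) =
      al 1 q d none * al 1 l δ (π i) * al 1 q d none := by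
    intro i
    obtain ⟨G, h1, -⟩ := cjS hq hd (g i) (hg i).1
    have h2 : (q : ℤ) • ((γ : M2) * al 1 l δ i) =
        (G : M2) * (al 1 q d none * al 1 l δ (π i) * al 1 q d none) := by
      calc _ = al 1 q d none * al 1 q d none * al 1 l δ i := by
            rw [hγ, Matrix.smul_mul, Matrix.one_mul, Matrix.smul_mul]
        _ = al 1 q d none * (g i : M2) * al 1 l δ (π i) * al 1 q d none := by
            rw [Matrix.mul_assoc, e i]
            simp only [Matrix.mul_assoc]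
        _ = _ := by
            rw [h1]
            simp only [Matrix.mul_assoc]
    refine ⟨G⁻¹ * γ, ?_⟩
    rw [Matrix.SpecialLinearGroup.coe_mul, Matrix.mul_assoc, ← Matrix.mul_smul, h2,
      ← Matrix.mul_assoc, ← Matrix.SpecialLinearGroup.coe_mul, inv_mul_cancel,
      Matrix.SpecialLinearGroup.coe_one, Matrix.one_mul]
  have hi : Function.Injective π := by
    intro i j c
    obtain ⟨G, h1⟩ := key i
    obtain ⟨G', h2⟩ := key j
    rw [c, ← h2] at h1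
    have h0 : (q : ℤ) ≠ 0 := by exact_mod_cast hq.ne'
    exact (coset_unique hl isCoprime_one_right (smul_right_injective M2 h0 h1)).1
  exact ⟨Equiv.ofBijective π (Finite.injective_iff_bijective.1 hi), g, fun i => ⟨hg i, e i⟩⟩

theorem w_T (hq : 0 < q) (hd : IsAL N q d) (H : Subgroup (ZMod N)ˣ) {l : ℕ} (hl : l.Prime)
    (h : ¬ l ∣ N * q) {δ : SL(2, ℤ)} (hδ : IsDel 1 (N * q : ℕ) l δ) {x : FF}
    (hx : x ∈ L (GH (N * q) (up H q))) :
    X.pb (al 1 q d none) (al_pos hq d none) (X.T hl.pos δ x) =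
      X.T hl.pos δ (X.pb (al 1 q d none) (al_pos hq d none) x) := by
  obtain ⟨π, g, e⟩ := perm hq hd H hl h hδ
  rw [Hec.T_apply, Hec.T_apply, map_prod]
  refine Eq.trans (Equiv.prod_comp π _).symm (Finset.prod_congr rfl fun i _ => ?_)
  rw [Hec.pb_swap X (e i).2 _ _ (mul_pos' (SL_pos _) (al_pos hl.pos δ _)) (al_pos hq d none),
    ← Hec.pb_mul X rfl (SL_pos _) (al_pos hl.pos δ _)]
  exact congrArg _ (congrArg _ (pg_self X hx (e i).1).symm)

end Alk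

open Alk in
theorem alk (X : Mdl) (hS : SHIM X) (h3 : HEC3 X) (hG : GALX X) (hE : EXP) (hC : CF)
    (hSG : SERG) (hR : GRP) : ALK X := by
  intro N q hq H hN hH hqN d hd _ m A
  have hN' : Lv (N * q) := ((hR N hN).2.2.2.2.2.2.1 q hq.pos).1
  have lo : L (GH (N * q) (up H q)) ≤ L (Gt (N * q)) := L_mono (mid_gh hR hN' (neg_up hH)).lo
  have c := cj hq.pos hd H
  have gal : ∀ x ∈ L (GH (N * q) (up H q)), ∀ g,
      X.gal g (X.pb (al 1 q d none) (al_pos hq.pos d none) x) =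
        X.pb (al 1 q d none) (al_pos hq.pos d none) (X.gal g x) := by
    intro x hx g
    obtain ⟨⟨k, hk, hc⟩, -⟩ := hSG (N * q) hN'.pos g
    obtain ⟨γ, hγ, ht⟩ := tw hd H hk
    rw [pb_w X hq.pos, pb_w X hq.pos, gal_V X hG hE hC hq.pos,
      (hS _ hN' g k hc).2 _ _ ht x (lo hx), pg_mul,
      pg_self X (h3 _ _ hN' (neg_up hH) x hx g).1 hγ]
  refine ⟨fun x hx => ⟨pb_mem X _ c hx, gal x hx⟩, ?_⟩
  obtain ⟨W, hW⟩ := exists_rep (m := m) (X.pb (al 1 q d none) (al_pos hq.pos d none) : FF →* FF)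
    (fun x hx => pb_mem X _ c hx) fun x hx => hx.pb _ c
  replace hW : Rep (X.pb (al 1 q d none) (al_pos hq.pos d none)) W := hW
  refine ⟨W, hW, ?_, fun g => rep_comm hW (A.act_rep g) fun x hx => (gal x hx g).symm,
    fun l hl' => ?_, fun a => ?_⟩
  · obtain ⟨γ, h1, h2⟩ := sq hd
    have h4 : ((γ 1 1 : ℤ) : ZMod (N * q)) * ((γ 0 0 : ℤ) : ZMod (N * q)) = 1 := by
      have h4 := congrArg (Int.cast : ℤ → ZMod (N * q)) (det' γ)
      push_cast at h4
      rw [(ZMod.intCast_zmod_eq_zero_iff_dvd _ _).2 h1, mul_zero, sub_zero] at h4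
      exact (mul_comm _ _).trans h4
    set a := Units.mkOfMulEqOne _ _ h4
    have e : W.comp W = A.dia a :=
      rep_eq (hW.comp hW) (A.dia_rep a γ h1 rfl) fun x _ => pb_sq X hq.pos h2 x
    have e1 : ∀ x, W (W x) = A.dia a x := DFunLike.congr_fun e
    have e2 : ∀ x, A.dia a⁻¹ (A.dia a x) = x := fun x => by
      show (A.dia a⁻¹ * A.dia a) x = x
      rw [← map_mul, inv_mul_cancel, map_one]; rfl
    have e3 : ∀ x, A.dia a (A.dia a⁻¹ x) = x := fun x => by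
      show (A.dia a * A.dia a⁻¹) x = x
      rw [← map_mul, mul_inv_cancel, map_one]; rfl
    refine ⟨fun x y h => ?_, fun y => ⟨W (A.dia a⁻¹ y), (e1 _).trans (e3 y)⟩⟩
    have h5 : W (W x) = W (W y) := congrArg W h
    rw [← e2 x, ← e2 y, ← e1, ← e1, h5]
  · by_cases hl : l.Prime
    · obtain ⟨δ, -, -, hδ⟩ := exists_del hl hl'
      exact rep_comm hW (A.T_rep l hl hl' δ hδ) fun x hx => w_T X hq.pos hd H hl hl' hδ hx
    · rw [A.T_one l hl]
      exact Commute.one_right _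
  · obtain ⟨γ, g1, g2⟩ := exists_unit_row hN'.pos a
    obtain ⟨g, h1, h2, h4⟩ := cjS hq.pos hd γ g1
    refine rep_comm hW (A.dia_rep a γ g1 g2) fun x hx => ?_
    rw [pg_pb X _ (al_pos hq.pos d none) h1, pg_congr X hx (mul_inv_up H h2 g1 h4)]

end Vale.Agent.P027M.M
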