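import Vale.Agent.P027M.M.Hk
import Vale.Agent.P027M.M.Dp1

/-! # P027, block M: change of level on Kummer classes -/

set_option linter.all false
set_option autoImplicit false

open Matrix
open scoped MatrixGroups

noncomputable section

namespace Vale.Agent.P027M.M

open Vale.Agent.P022 Vale.Agent.P022.H218.L3 Vale.Agent.P022.H231.L3 Vale.Agent.P019P P025H816
  P025H492 Vale.Agent.P027M.TW Dp

namespace Lev

theorem exists_reps {Γ Γ' : Subgroup SL(2, ℤ)} [Γ'.FiniteIndex] :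
    ∃ (I : Type) (_ : Fintype I) (c : I → SL(2, ℤ)), Reps Γ Γ' c := by
  refine ⟨Γ ⧸ Γ'.subgroupOf Γ, Fintype.ofFinite _, fun q => (q.out : SL(2, ℤ))⁻¹,
    fun q => Γ.inv_mem q.out.2, fun γ hγ => ⟨QuotientGroup.mk ⟨γ⁻¹, Γ.inv_mem hγ⟩, ?_⟩,
    fun i j e => ?_⟩
  · have := QuotientGroup.eq.1 (QuotientGroup.out_eq'
      (QuotientGroup.mk ⟨γ⁻¹, Γ.inv_mem hγ⟩ : Γ ⧸ Γ'.subgroupOf Γ)).symm
    rw [Subgroup.mem_subgroupOf] at this
    simpa using this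
  · rw [← QuotientGroup.out_eq' i, ← QuotientGroup.out_eq' j, QuotientGroup.eq,
      Subgroup.mem_subgroupOf]
    simpa using e

/-- the restriction of an automorphism to a level field -/
def resL (σ : FF ≃+* FF) {Γ : Subgroup SL(2, ℤ)} (h : ∀ x ∈ L Γ, σ x ∈ L Γ)
    (h' : ∀ x ∈ L Γ, σ.symm x ∈ L Γ) : L Γ ≃+* L Γ where
  toFun x := ⟨σ x, h x x.2⟩
  invFun x := ⟨σ.symm x, h' x x.2⟩
  left_inv x := Subtype.ext (σ.symm_apply_apply _)
  right_inv x := Subtype.ext (σ.apply_symm_apply _)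
  map_mul' x y := Subtype.ext (map_mul σ (x : FF) y)
  map_add' x y := Subtype.ext (map_add σ (x : FF) y)

variable {X : Mdl}

theorem norm_aut (hF : FAITH X) {N : ℕ} {Γ Γ' : Subgroup SL(2, ℤ)} (h : Γ' ≤ Γ) (m : Mid N Γ)
    (m' : Mid N Γ') {I : Type} [Fintype I] {c : I → SL(2, ℤ)} (hc : Reps Γ Γ' c) (σ : FF ≃+* FF)
    (h1 : ∀ x ∈ L Γ, σ x ∈ L Γ) (h2 : ∀ x ∈ L Γ, σ.symm x ∈ L Γ)
    (h3 : ∀ x ∈ L Γ', σ x ∈ L Γ') (h4 : ∀ x ∈ L Γ', σ.symm x ∈ L Γ') {y : FF} (hy : y ∈ L Γ') :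
    ∏ i, X.pg (c i) (σ y) = σ (∏ i, X.pg (c i) y) := by
  letI := algL h
  have e := Algebra.norm_eq_of_equiv_equiv (resL σ h1 h2) (resL σ h3 h4)
    (RingHom.ext fun _ => rfl) (⟨y, hy⟩ : L Γ')
  rw [RingEquiv.eq_symm_apply] at e
  have e1 := norm_eq X hF h m m' hc ⟨y, hy⟩
  have e2 := norm_eq X hF h m m' hc (resL σ h3 h4 ⟨y, hy⟩)
  rw [← e] at e2
  exact e2.symm.trans (congrArg σ e1)

theorem mem_of_cong {N : ℕ} {H : Subgroup (ZMod N)ˣ} {g γ : SL(2, ℤ)} (hγ : γ ∈ GH N H)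
    (h : (N : ℤ) ∣ g 1 0) (e : (N : ℤ) ∣ g 1 1 - γ 1 1) : g ∈ GH N H := by
  obtain ⟨-, a, ha, e1⟩ := hγ
  exact ⟨h, a, ha, e1.trans ((ZMod.intCast_eq_intCast_iff_dvd_sub _ _ _).2 e)⟩

theorem mem_right {N l : ℕ} (hc : IsCoprime (l : ℤ) (N : ℤ)) {H : Subgroup (ZMod N)ˣ}
    {d u γ : SL(2, ℤ)} (hd : IsDel 1 N l d) (hγ : γ ∈ GH N H) {i j : Option (Fin l)}
    (e : al 1 l d i * (u : M2) = (γ : M2) * al 1 l d j) : u ∈ GH N H := by
  have e2 : (l : ℤ) • (u : M2) = Matrix.adjugate (al 1 l d i) * (γ : M2) * al 1 l d j := by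
    rw [Matrix.mul_assoc, ← e, ← Matrix.mul_assoc, Matrix.adjugate_mul, det_al, Matrix.smul_mul,
      Matrix.one_mul]
  have hγR : RR 1 N (γ : M2) (γ 0 0) (γ 1 1) := ⟨one_dvd _, hγ.1, by simp, by simp⟩
  have hR := ((RR.al hd i).adj.mul hγR).mul (RR.al hd j)
  rw [← e2] at hR
  obtain ⟨-, r2, -, r4⟩ := hR
  simp only [Matrix.smul_apply, smul_eq_mul] at r2 r4
  refine mem_of_cong hγ (hc.symm.dvd_of_dvd_mul_left r2) (hc.symm.dvd_of_dvd_mul_left ?_)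
  rw [one_mul, mul_comm _ (l : ℤ), ← mul_sub] at r4
  exact r4

theorem norm_T (hS : STEP) {N N' : ℕ} (hN : 0 < N) (hd : N ∣ N') {H : Subgroup (ZMod N)ˣ}
    {H' : Subgroup (ZMod N')ˣ} {I : Type} [Fintype I] {c : I → SL(2, ℤ)}
    (hc : Reps (GH N H) (GH N' H') c) {l : ℕ} (hl : l.Prime) (hl' : ¬ l ∣ N') {d : SL(2, ℤ)}
    (hD : IsDel 1 N' l d) {y : FF} (hy : y ∈ L (GH N' H')) :
    ∏ i, X.pg (c i) (X.T hl.pos d y) = X.T hl.pos d (∏ i, X.pg (c i) y) := by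
  have hz : (N : ℤ) ∣ N' := Int.natCast_dvd_natCast.2 hd
  have hD0 : IsDel 1 N l d := ⟨hz.trans hD.1, hD.2.1, hz.trans hD.2.2⟩
  have cop : IsCoprime (l : ℤ) (N' : ℤ) :=
    Nat.isCoprime_iff_coprime.2 ((Nat.Prime.coprime_iff_not_dvd hl).2 hl')
  have ex : ∀ p : I × Option (Fin l), ∃ (q : Option (Fin l) × I) (g : SL(2, ℤ)),
      g * (c q.2)⁻¹ ∈ GH N' H' ∧ al 1 l d p.2 * (c p.1 : M2) = (g : M2) * al 1 l d q.1 := by
    rintro ⟨i, j⟩
    obtain ⟨π, g, e⟩ := (hS N l hN hl).1 (fun c => hl' (c.trans hd)) d hD0 (c i) (hc.mem i).1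
    obtain ⟨i', hi'⟩ := hc.cov (g j) (mem_of_cong (hc.mem i) (e j).2.1 (e j).2.2)
    exact ⟨(π j, i'), g j, hi', (e j).1⟩
  choose f g hg e using ex
  have hi : Function.Injective f := by
    rintro ⟨i, j⟩ ⟨i', j'⟩ hf
    have m1 : g (i, j) * (g (i', j'))⁻¹ ∈ GH N' H' := by
      have := mul_mem (hg (i, j)) (inv_mem (hg (i', j')))
      rwa [hf, _root_.mul_inv_rev, inv_inv, mul_assoc, inv_mul_cancel_left] at this
    have a1 : ((g (i, j) * (g (i', j'))⁻¹ : SL(2, ℤ)) : M2) * (g (i', j') : M2) = g (i, j) := by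
      rw [← Matrix.SpecialLinearGroup.coe_mul (g (i, j) * (g (i', j'))⁻¹), inv_mul_cancel_right]
    have a2 : (c i' : M2) * (((c i')⁻¹ : SL(2, ℤ)) : M2) = 1 := by
      rw [← Matrix.SpecialLinearGroup.coe_mul (c i'), mul_inv_cancel]
      rfl
    have e1 : al 1 l d j * ((c i * (c i')⁻¹ : SL(2, ℤ)) : M2) =
        ((g (i, j) * (g (i', j'))⁻¹ : SL(2, ℤ)) : M2) * al 1 l d j' := by
      rw [Matrix.SpecialLinearGroup.coe_mul (c i), ← Matrix.mul_assoc, e (i, j), hf, ← a1,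
        Matrix.mul_assoc _ (g (i', j') : M2), ← e (i', j'), Matrix.mul_assoc, Matrix.mul_assoc, a2,
        Matrix.mul_one]
    obtain rfl := hc.inj i i' (mem_right cop hD m1 e1)
    rw [mul_inv_cancel] at e1
    have e2 : ((1 : SL(2, ℤ)) : M2) * al 1 l d j = _ :=
      (Matrix.one_mul _).trans ((Matrix.mul_one _).symm.trans e1)
    rw [(coset_unique hl isCoprime_one_right e2).1]
  have hb : Function.Bijective f := (Fintype.bijective_iff_injective_and_card f).2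
    ⟨hi, by rw [Fintype.card_prod, Fintype.card_prod, mul_comm]⟩
  have l1 : ∏ i, X.pg (c i) (X.T hl.pos d y) = ∏ p : I × Option (Fin l),
      X.pg (c p.1) (X.pb (al 1 l d p.2) (al_pos hl.pos d p.2) y) := by
    rw [Fintype.prod_prod_type]
    exact Finset.prod_congr rfl fun i _ => map_prod (X.pg (c i))
      (fun j => X.pb (al 1 l d j) (al_pos hl.pos d j) y) Finset.univ
  have l2 : X.T hl.pos d (∏ i, X.pg (c i) y) = ∏ q : Option (Fin l) × I,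
      X.pb (al 1 l d q.1) (al_pos hl.pos d q.1) (X.pg (c q.2) y) := by
    rw [Fintype.prod_prod_type]
    show ∏ j, X.pb (al 1 l d j) (al_pos hl.pos d j) (∏ i, X.pg (c i) y) = _
    exact Finset.prod_congr rfl fun j _ => map_prod _ _ _
  rw [l1, l2]
  refine Fintype.prod_bijective f hb _ _ fun p => ?_
  rw [pg_pb X _ (al_pos hl.pos d _) (e p), pg_congr X hy (hg p)]

theorem exists_dia {N : ℕ} (hN : 0 < N) (a : (ZMod N)ˣ) :
    ∃ γ : SL(2, ℤ), (N : ℤ) ∣ γ 1 0 ∧ (a : ZMod N) = ((γ 1 1 : ℤ) : ZMod N) := by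
  haveI : NeZero N := ⟨hN.ne'⟩
  obtain ⟨d, hd⟩ := IsDel.exists 1 N ((a : ZMod N).val : ℕ) (by
    rw [one_mul]
    exact Nat.isCoprime_iff_coprime.2 (ZMod.val_coe_unit_coprime a))
  refine ⟨d, hd.1, ?_⟩
  rw [← (ZMod.intCast_eq_intCast_iff_dvd_sub _ _ _).2 hd.2.2]
  simp

theorem pg_symm (γ : SL(2, ℤ)) (x : FF) : (X.pg γ).symm x = X.pg γ⁻¹ x := by
  rw [AlgEquiv.symm_apply_eq, ← pg_mul, inv_mul_cancel, pg_one]

end Lev

open Lev in
theorem lev (X : Mdl) (hF : FAITH X) (hG : GRP) (hS : STEP) (h1 : HEC1 X) (h3 : HEC3 X) :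
    LEV X := by
  intro N N' hd H H' hN hN' n1 n1' h _ _ m A A'
  have m' : Mid N' (GH N' H') := ((hG N' hN').2.2.2.2.2.2.2 H').2.1 n1'
  have m0 : Mid N' (GH N H) := ⟨hN', m'.lo.trans h, (((hG N hN).2.2.2.2.2.2.2 H).2.1 n1).hi⟩
  haveI := (hG N' hN').1
  haveI : (GH N' H').FiniteIndex := Subgroup.finiteIndex_of_le m'.lo
  obtain ⟨I, _, c, hc⟩ := exists_reps (Γ := GH N H) (Γ' := GH N' H')
  letI := algL h
  haveI := towerL h
  have fr : Module.finrank (L (GH N H)) (L (GH N' H')) = (GH N' H').relIndex (GH N H) :=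
    hF.2.2 N' _ _ h m0 m'
  obtain ⟨t, ht, -⟩ := CFF.ex (k := Qb) (F := L (GH N H))
  haveI : FiniteDimensional (L (GH N H)) (L (GH N' H')) := finite_of_transcendental (k := Qb) ht
  let io : HA Qb (L (GH N H)) m →+ HA Qb (L (GH N' H')) m :=
    ind (P027M.K.jU _) fun _ hx => P027M.K.jU_mem hx
  let nm : HA Qb (L (GH N' H')) m →+ HA Qb (L (GH N H)) m :=
    ind (P027M.K.nU _) fun _ hx => P027M.K.nU_mem hx
  have rio : Rep (fun x => x) io := (rep_iff fun _ => rfl).2 (isInd_ind _ _)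
  have rnm : Rep (fun y => ∏ i, X.pg (c i) y) nm :=
    (rep_iff fun y => norm_eq X hF h m0 m' hc _).2 (isInd_ind _ _)
  have hz : (N : ℤ) ∣ N' := Int.natCast_dvd_natCast.2 hd
  have cio : ∀ (φ : FF → FF) (f : AddMonoid.End (HA Qb (L (GH N H)) m))
      (f' : AddMonoid.End (HA Qb (L (GH N' H')) m)), Rep φ f → Rep φ f' →
      ∀ x, io (f x) = f' (io x) := fun φ f f' r r' x =>
    DFunLike.congr_fun ((rio.comp r).unique (r'.comp rio)) x
  have cnm : ∀ (φ : FF → FF) (f : AddMonoid.End (HA Qb (L (GH N H)) m))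
      (f' : AddMonoid.End (HA Qb (L (GH N' H')) m)), Rep φ f → Rep φ f' →
      (∀ y ∈ L (GH N' H'), ∏ i, X.pg (c i) (φ y) = φ (∏ i, X.pg (c i) y)) →
      ∀ y, nm (f' y) = f (nm y) := fun φ f f' r r' e y =>
    DFunLike.congr_fun (((rnm.comp r').congr fun y hy _ => e y hy).unique (r.comp rnm)) y
  have dia : ∀ a : (ZMod N')ˣ, ∃ γ : SL(2, ℤ), (N' : ℤ) ∣ γ 1 0 ∧
      Rep (X.pg γ) (A.dia (ZMod.unitsMap hd a)) ∧ Rep (X.pg γ) (A'.dia a) := fun a => by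
    obtain ⟨γ, g1, g2⟩ := exists_dia hN'.pos a
    refine ⟨γ, g1, A.dia_rep _ γ (hz.trans g1) ?_, A'.dia_rep a γ g1 g2⟩
    rw [ZMod.unitsMap_val, g2, ZMod.cast_intCast hd]
  have inv10 : ∀ γ : SL(2, ℤ), (γ⁻¹) 1 0 = -γ 1 0 := fun γ => by
    simp [Matrix.SpecialLinearGroup.coe_inv, Matrix.adjugate_fin_two]
  have gs : ∀ (g : GQ) x, (X.gal g).symm x = X.gal g⁻¹ x := fun g x => by rw [map_inv]; rfl
  refine ⟨io, nm, rio, isInd_ind _ _, fun g => cio _ _ _ (A.act_rep g) (A'.act_rep g),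
    fun g => cnm _ _ _ (A.act_rep g) (A'.act_rep g) fun y hy => ?_, fun l hl' => ?_, fun a => ?_,
    fun a => ?_, fun x => ?_⟩
  · exact norm_aut hF h m0 m' hc (X.gal g) (fun x hx => (h3 N H hN n1 x hx g).1)
      (fun x hx => gs g x ▸ (h3 N H hN n1 x hx g⁻¹).1) (fun x hx => (h3 N' H' hN' n1' x hx g).1)
      (fun x hx => gs g x ▸ (h3 N' H' hN' n1' x hx g⁻¹).1) hy
  · by_cases hl : l.Prime
    · obtain ⟨d, hD⟩ := IsDel.exists 1 N' l (by
        rw [one_mul]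
        exact Nat.isCoprime_iff_coprime.2 ((Nat.Prime.coprime_iff_not_dvd hl).2 hl'))
      have r := A.T_rep l hl (fun c => hl' (c.trans hd)) d ⟨hz.trans hD.1, hD.2.1, hz.trans hD.2.2⟩
      have r' := A'.T_rep l hl hl' d hD
      exact ⟨cio _ _ _ r r', cnm _ _ _ r r' fun y hy => norm_T hS hN.pos hd hc hl hl' hD hy⟩
    · rw [A.T_one l hl, A'.T_one l hl]
      exact ⟨fun _ => rfl, fun _ => rfl⟩
  · obtain ⟨γ, -, r, r'⟩ := dia a
    exact cio _ _ _ r r'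
  · obtain ⟨γ, g1, r, r'⟩ := dia a
    have g2 : (N' : ℤ) ∣ (γ⁻¹) 1 0 := by rw [inv10]; exact g1.neg_right
    refine cnm _ _ _ r r' fun y hy => ?_
    exact norm_aut hF h m0 m' hc (X.pg γ).toRingEquiv
      (fun x hx => (h1 N H hN x hx).1 γ (hz.trans g1))
      (fun x hx => (pg_symm γ x).symm ▸ (h1 N H hN x hx).1 _ (hz.trans g2))
      (fun x hx => (h1 N' H' hN' x hx).1 γ g1)
      (fun x hx => (pg_symm γ x).symm ▸ (h1 N' H' hN' x hx).1 _ g2) hy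
  · obtain ⟨x, hx, rfl⟩ := cl_surj x
    rw [← cl_pow, ← fr]
    exact congrArg (fun z : divU Qb (L (GH N H)) m => Additive.ofMul (QuotientGroup.mk z : HK _ _ m))
      (Subtype.ext (P027M.K.nU_jU x))

end Vale.Agent.P027M.M
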