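import Vale.Agent.P027M.M.Pre0
import Vale.Agent.P027M.M.CDefs

/-! # P027 block M: the analytic half of the model from the rows -/

set_option autoImplicit false

open UpperHalfPlane Matrix
open scoped MatrixGroups Manifold IntermediateField

noncomputable section

namespace Vale.Agent.P027M.M

open Vale.Agent.P022 Vale.Agent.P022.H218.L3 Vale.Agent.P022.H231.L3 Vale.Agent.P022.H236.L3
  Vale.Agent.P022.H542.L3

/-- the analytic half of the model -/
def preM_of (h1 : SB1) (h2 : SB2) (h3 : SB3) (h4 : SB4) (h5 : SB5) (h6 : SC1) : PreM where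
  t := tF
  r := rF
  baseC := h2
  genC N h := by
    rw [h6 N h]
    congr 1
    exact Set.image_congr fun v hv => (cv_rF h hv).symm
  law N h v hv γ hγ := by
    rw [cv_rF h hv, cv_rF h (hv.vecMul γ)]
    exact Pre.law h hv hγ
  rex N h v hv γ := by
    rw [cv_rF h hv]
    exact Pre.rex h hv γ
  t_eq N h := cv_inj (by
    rw [map_sub, map_neg, cv_rF h (Pre.nz2 h), cv_rF h (Pre.nz3 h)]
    exact Pre.t_eq h)
  tex0 N h γ := (h3 N h γ).1
  tex2 N h γ := (h3 N h γ).2.1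
  tex1 N h γ := (h3 N h γ).2.2
  hol := ⟨tf, Pre.tf_hol, Pre.tM_eq, h5, Pre.tf_ne h1, h4⟩

theorem preM_rows (a4 : SA4) (b1 : RB1) (b2 : RB2) (b3 : RB3) (b4 : RB4) (b5 : RB5) (c1 : RC1) :
    Nonempty PreM :=
  ⟨preM_of (b1 sa3) (b2 sa3 (b1 sa3)) (b3 sa3 a4 (b1 sa3)) (b4 sa3 a4 (b1 sa3))
    (b5 sa3 a4 (b1 sa3)) (c1 sa3 (b1 sa3) (b2 sa3 (b1 sa3)))⟩

end Vale.Agent.P027M.M
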